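import Crest.Agent.R312.F1

/-!
# R312/A0: closure lemmas for `S1[X]` and `RS`, sizes, selection of the first nonzero vector.
-/

set_option autoImplicit false

open Polynomial Finset Crest.Agent.Lib.PolyTime

noncomputable section

namespace Crest.Agent.R312

variable {α α' : Type} [Enc α] [Enc α'] {C : α → Cv}

theorem Good.p1 (hC : Good C) : MR (fun a => (C a).S1[X]) fun _ => muP fun _ => 0 := hC.s1.poly

theorem Good.dfS (hC : Good C) : DPT fun a => (C a).fS := by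
  exact hC.br.dmap hC.s1 (φ := fun a => algebraMap (C a).K (C a).S1) ((hC.comp pt_sigma_fst).dK1 dpt_sigma_snd) hC.f

theorem Good.dPS (hC : Good C) : DPT fun a => (C a).PS := by
  exact hC.p1.poly.dsub (hC.p1.poly.npow hC.p1.dX hC.q) (hC.p1.dC hC.dfS)

theorem Good.rs (hC : Good C) : MR (fun a => (C a).RS) fun a => (C a).muR := hC.p1.adj hC.dPS

theorem Good.dι (hC : Good C) {g : ∀ a, (C a).S1[X]} (hg : DPT g) : DPT fun a => (C a).ιS (g a) := by
  exact hC.p1.dof hC.dPS hg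

theorem Good.dy (hC : Good C) : DPT fun a => (C a).yS := by
  exact hC.p1.droot hC.dPS

theorem Good.dco (hC : Good C) {z : ∀ a, (C a).RS} (hz : DPT z) {l : α → ℕ} (hl : PT l) :
    DPT fun a => (C a).coS (z a) (l a) := by
  exact hC.p1.dcoeff (dpt_rep hz) hl

theorem Good.dsmul (hC : Good C) {s : ∀ a, (C a).S1} (hs : DPT s) {z : ∀ a, (C a).RS} (hz : DPT z) :
    DPT fun a => s a • z a := by
  refine (hC.rs.dmul (hC.dι (hC.s1.dC hs)) hz).of_eq fun a => ?_
  rw [Algebra.smul_def]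
  rfl

/-- `sgS k z = eval₂ (of) (ζ ^ k y) (rep z)` -/
theorem Good.dsg (hC : Good C) {k : α → ℕ} (hk : PT k) {z : ∀ a, (C a).RS} (hz : DPT z) :
    DPT fun a => (C a).sgS (k a) (z a) := by
  refine (hC.p1.deval₂ hC.rs (φ := fun a => AdjoinRoot.of (C a).PS) ((hC.comp pt_sigma_fst).dι dpt_sigma_snd)
    (dpt_rep hz) (hC.rs.dmul (hC.dι (hC.s1.dC (hC.dK1 (hC.br.dpow hC.ζ hk)))) hC.dy)).of_eq fun a => ?_
  conv_rhs => rw [← mk_rep (C a).PS (z a), Cv.sgS, AdjoinRoot.lift_mk]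

theorem Good.dmono (hC : Good C) {t l : α → ℕ} (ht : UN t) (hl : UN l) : DPT fun a => (C a).mono (t a) (l a) := by
  exact hC.rs.dmul (hC.dι (hC.p1.npow hC.s1.dX ht)) (hC.rs.npow hC.dy hl)

theorem Good.dNz (hC : Good C) {z : ∀ a, (C a).RS} (hz : DPT z) {m n : α → ℕ} (hm : PT m) (hn : UN n) :
    DPT fun a => (C a).NzS (z a) (m a) (n a) := by
  exact hC.rs.icoProd hm hn (x := fun a k => (C a).sgS k (z a))
    ((hC.comp pt_sigma_fst).dsg hn.fin.1 (hz.comp pt_sigma_fst))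

theorem Cv.evR_NzS (C : Cv) (i : C.Ω) (z : C.RS) (a b : ℕ) : C.evR i (C.NzS z a b) = C.Nz (C.evR i z) a b := by
  simp only [Cv.NzS, Cv.Nz, map_prod, Cv.evR_sg]

theorem Good.drow (hC : Good C) {u : ∀ a, (C a).S1[X]} (hu : DPT u) {e : ∀ a, Fin (C a).q → (C a).RS} (he : DPT e)
    {j : α → ℕ} (hj : PT j) {k : ∀ a, Fin (C a).q} (hk : DPT k) : DPT fun a => (C a).rowS (u a) (e a) (j a) (k a) := by
  exact hC.rs.dmul (DPT.ite (hk.finVal.nat_lt hj) (hC.dι hu) hC.rs.one)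
    (hC.dsg hj (he.apply (DPT.finMk (((hk.finVal.nat_add hC.q.1).nat_sub hj).nat_mod hC.q.1) _)))

theorem Cv.evR_rowS (C : Cv) (i : C.Ω) (u : C.S1[X]) (e : Fin C.q → C.RS) (j : ℕ) (k : Fin C.q) :
    C.evR i (C.rowS u e j k) = C.row (C.evP i u) (C.evT i e) j k := by
  rw [Cv.rowS, Cv.row, map_mul, Cv.evR_sg, apply_ite (C.evR i), Cv.evR_ι, map_one]
  rfl

theorem Cv.evR_mem_V (C : Cv) (z : C.RS) (i : C.Ω) : C.evR i z ∈ C.V (C.muR z) := by
  refine C.mem_V.2 fun l => ?_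
  rw [Cv.co_evR]
  have h1 := ((muP_le (ν := muP fun _ : C.S1 => 0) (by simp [muP])).1 (le_refl (C.muR z))).2 l
  exact natDegree_map_le.trans ((muP_le rfl).1 h1).1

theorem Cv.muR_le (C : Cv) {z : C.RS} {M : ℕ} (h : ∀ i, C.evR i z ∈ C.V M) : C.muR z ≤ M + C.q := by
  refine (muP_le (ν := muP fun _ : C.S1 => 0) (by simp [muP])).2 ⟨(natDegree_rep_le _ _).trans ?_, fun l =>
    (muP_le rfl).2 ⟨?_, fun _ => Nat.zero_le _⟩⟩
  · exact (natDegree_sub_le _ _).trans (max_le (natDegree_X_pow_le _ |>.trans (by omega)) (by simp))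
  · refine le_trans (natDegree_le_iff_coeff_eq_zero.2 fun t ht => funext fun i => ?_) (Nat.le_add_right M _)
    have h1 := C.mem_V.1 (h i) l
    rw [Cv.co_evR] at h1
    exact (C.coeff_evP i _ t).symm.trans (coeff_eq_zero_of_natDegree_lt (h1.trans_lt ht))

/-- a degree bound for a computed list -/
theorem Good.exists_V (hC : Good C) {G : ∀ a, List (C a).RS} (hG : DPT G) :
    ∃ D : α → ℕ, UN D ∧ ∀ a, ∀ g ∈ G a, ∀ i, (C a).evR i g ∈ (C a).V (D a) := by
  obtain ⟨D, hD, h⟩ := exists_UN hG.esize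
  refine ⟨D, hD, fun a g hg i => (C a).mem_V.2 fun l => ((C a).mem_V.1 ((C a).evR_mem_V g i) l).trans ?_⟩
  exact (hC.rs.mu_le a g).trans ((esize_lt_of_mem hg).le.trans (h a))

theorem Good.size_bd (hC : Good C) {M : α → ℕ} (hM : PB M) :
    ∃ g : α → ℕ, PB g ∧ ∀ a (G : List (C a).RS), (C a).Bd G (M a) → esize G ≤ g a := by
  obtain ⟨g, hg, h⟩ := hC.rs.exists_size (hM.add hC.q.2)
  refine ⟨fun a => (C a).q * (M a + 1) * (g a + 1) + 1,
    ((hC.q.2.mul (hM.add (PB.const 1))).mul (hg.add (PB.const 1))).add (PB.const 1), fun a G hG => ?_⟩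
  exact (esize_list_le fun z hz => h a z ((C a).muR_le (hG.2 z hz))).trans
    (Nat.add_le_add_right (Nat.mul_le_mul_right _ hG.1) 1)

theorem Good.a0_coeff (hC : Good C) {g : ∀ a, (C a).S1[X]} (hg : DPT g) {k : α → ℕ} (hk : PT k) :
    DPT fun a => (C a).ind fun i => (g a).coeff (k a) i = 0 :=
  hC.ind_eq (y := fun _ => 0) (hC.s1.dcoeff hg hk) hC.s1.zero

theorem Good.ind_P (hC : Good C) {g : ∀ a, (C a).S1[X]} (hg : DPT g) :
    DPT fun a => (C a).ind fun i => (C a).evP i (g a) = 0 := by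
  refine (hC.ind_all (En.fin ((un_natDegree hg).add (UN.const 1)))
    (p := fun a k i => (g a).coeff k.val i = 0)
    ((hC.comp pt_sigma_fst).a0_coeff (hg.comp pt_sigma_fst)
      (UN.fin ((un_natDegree hg).add (UN.const 1))).1)).of_eq fun a => ?_
  refine congrArg _ (funext fun i => propext ⟨fun h => ?_, fun h k => ?_⟩)
  · ext k
    rw [Cv.coeff_evP, coeff_zero]
    by_cases hk : k < (g a).natDegree + 1
    · exact h ⟨k, hk⟩
    · rw [coeff_eq_zero_of_natDegree_lt (by omega)]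
      rfl
  · rw [← Cv.coeff_evP, h, coeff_zero]

theorem Good.ind_deg (hC : Good C) {g : ∀ a, (C a).S1[X]} (hg : DPT g) {d : α → ℕ} (hd : PT d) :
    DPT fun a => (C a).ind fun i => ((C a).evP i (g a)).natDegree = d a := by
  have hC' : Good fun x : Σ a, Fin ((g a).natDegree + 1) => C x.1 := hC.comp pt_sigma_fst
  have hv := (UN.fin ((un_natDegree hg).add (UN.const 1))).1
  refine (hC.ind_and (hC.ind_all (En.fin ((un_natDegree hg).add (UN.const 1)))
    (p := fun a k i => ¬ (d a < k.val ∧ ¬ (g a).coeff k.val i = 0))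
    (hC'.ind_not (hC'.ind_and (hC'.ind_const ((hd.comp pt_sigma_fst).nat_lt hv))
      (hC'.ind_not (hC'.a0_coeff (hg.comp pt_sigma_fst) hv)))))
    (hC.ind_not (hC.ind_and (hC.ind_const (hd.ne (PT.const 0))) (hC.a0_coeff hg hd)))).of_eq fun a => ?_
  refine congrArg _ (funext fun i => propext ⟨fun ⟨h1, h2⟩ => le_antisymm ?_ ?_, fun h => ⟨fun k hk => ?_, fun hk => ?_⟩⟩)
  · refine natDegree_le_iff_coeff_eq_zero.2 fun k hk => ?_
    rw [Cv.coeff_evP]
    by_cases hk' : k < (g a).natDegree + 1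
    · by_contra h
      exact h1 ⟨k, hk'⟩ ⟨hk, h⟩
    · rw [coeff_eq_zero_of_natDegree_lt (by omega)]
      rfl
  · by_cases h0 : d a = 0
    · omega
    · exact le_natDegree_of_ne_zero (by rw [Cv.coeff_evP]; exact fun h => h2 ⟨h0, h⟩)
  · exact hk.2 (by rw [← Cv.coeff_evP]; exact coeff_eq_zero_of_natDegree_lt (h ▸ hk.1))
  · have h1 := hk.2
    rw [← Cv.coeff_evP, ← h, coeff_natDegree, leadingCoeff_eq_zero] at h1
    rw [h1, natDegree_zero] at h
    exact hk.1 h.symm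

theorem Good.ind_R (hC : Good C) {z : ∀ a, (C a).RS} (hz : DPT z) :
    DPT fun a => (C a).ind fun i => (C a).evR i (z a) = 0 := by
  have hC' : Good fun x : Σ a, Fin (C a).q => C x.1 := hC.comp pt_sigma_fst
  refine (hC.ind_all (En.fin hC.q) (p := fun a l i => (C a).evP i ((C a).coS (z a) l.val) = 0)
    (hC'.ind_P (hC'.dco (hz.comp pt_sigma_fst) (UN.fin hC.q).1))).of_eq fun a => ?_
  refine congrArg _ (funext fun i => propext ⟨fun h => (C a).co_ext fun l hl => ?_, fun h l => ?_⟩)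
  · rw [Cv.co_evR, Cv.co_zero]
    exact h ⟨l, hl⟩
  · rw [← Cv.co_evR, h, Cv.co_zero]

theorem a0_first {M : ℕ} {β : Type} (L : Fin M → List β) (p : β → Prop) (d : β) {k₀ : ℕ}
    (hk : k₀ < ((List.finRange M).flatMap L).length) (h : ∀ k < k₀, p (((List.finRange M).flatMap L).getD k d)) :
    ∃ m, (∀ m' < m, ∀ v ∈ L m', p v) ∧ ((List.finRange M).flatMap L).getD k₀ d ∈ L m := by
  set P : List (Fin M × β) := (List.finRange M).flatMap fun m => (L m).map fun v => (m, v) with hP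
  have e : (List.finRange M).flatMap L = P.map Prod.snd := by
    simp [hP, List.map_flatMap, Function.comp_def]
  have hmem : ∀ x, x ∈ P ↔ x.2 ∈ L x.1 := by
    rintro ⟨m, v⟩
    simp [hP]
  have hs : P.Pairwise fun x y => x.1 ≤ y.1 := by
    refine List.pairwise_flatMap.2 ⟨fun m _ => List.pairwise_map.2 (List.pairwise_of_forall fun _ _ => le_rfl),
      (List.pairwise_le_finRange M).imp fun hab x hx y hy => ?_⟩
    obtain ⟨_, _, rfl⟩ := List.mem_map.1 hx
    obtain ⟨_, _, rfl⟩ := List.mem_map.1 hy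
    exact hab
  rw [e] at hk h ⊢
  have hk' : k₀ < P.length := by simpa using hk
  refine ⟨P[k₀].1, fun m' hm' v hv => ?_, ?_⟩
  · obtain ⟨j, hj, hj'⟩ := List.getElem_of_mem ((hmem (m', v)).2 hv)
    have hlt : j < k₀ := by
      by_contra hc
      rcases (not_lt.1 hc).eq_or_lt with rfl | hc'
      · rw [hj'] at hm'
        exact lt_irrefl _ hm'
      · have := List.pairwise_iff_getElem.1 hs k₀ j hk' hj hc'
        rw [hj'] at this
        exact absurd hm' (not_lt.2 this)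
    have := h j hlt
    rwa [List.getD_eq_getElem _ _ (by simpa using hj), List.getElem_map, hj'] at this
  · rw [List.getD_eq_getElem _ _ hk, List.getElem_map]
    exact (hmem _).1 (List.getElem_mem hk')

theorem Good.a0_indT (hC : Good C) {c : α → ℕ} (hc : UN c) :
    DPT fun x : (Σ a, Fin (c a) → (C a).RS) => (C x.1).ind fun i => ¬ ∀ k, (C x.1).evR i (x.2 k) = 0 := by
  have hC' : Good fun x : (Σ a, Fin (c a) → (C a).RS) => C x.1 := hC.comp pt_sigma_fst
  have h1 : DPT fun y : (Σ x : (Σ a, Fin (c a) → (C a).RS), Fin (c x.1)) => y.1.2 y.2 :=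
    DPT.apply (F := fun y : (Σ x : (Σ a, Fin (c a) → (C a).RS), Fin (c x.1)) => y.1.2)
      (dpt_sigma_snd.comp pt_sigma_fst) dpt_sigma_snd
  exact hC'.ind_not (hC'.ind_all (En.fin (hc.comp pt_sigma_fst)) (p := fun x k i => (C x.1).evR i (x.2 k) = 0)
    ((hC'.comp pt_sigma_fst).ind_R h1))

theorem Good.a0_comb1 (hC : Good C) {n : α → ℕ} (hn : UN n) {v : ∀ a, ℕ → (C a).RS}
    (hv : DPT fun x : Σ a, Fin (n a) => v x.1 x.2.val) {e : ∀ a, List (C a).S1} (he : DPT e) :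
    DPT fun a => ∑ j ∈ range (n a), fw (e a) j • v a j := by
  have hC' : Good fun x : Σ a, Fin (n a) => C x.1 := hC.comp pt_sigma_fst
  have h1 : DPT fun x : Σ a, Fin (n a) => fw (e x.1) x.2.val := hC'.s1.dfw (he.comp pt_sigma_fst) (UN.fin hn).1
  exact hC.rs.rangeSum hn (x := fun a j => fw (e a) j • v a j) (hC'.dsmul h1 hv)

theorem a0_getD {β : α → Type} [∀ a, Enc (β a)] {c : α → ℕ} {l : ∀ a, List (Fin (c a) → β a)} (hl : DPT l)
    {d : ∀ a, Fin (c a) → β a} (hd : DPT d) :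
    DPT fun x : (Σ p : (Σ a, Fin (c a)), Fin (l p.1).length) => (l x.1.1).getD x.2.val (d x.1.1) x.1.2 := by
  have hφ : PT fun x : (Σ p : (Σ a, Fin (c a)), Fin (l p.1).length) => x.1.1 := pt_sigma_fst.comp pt_sigma_fst
  exact ((hl.comp hφ).getD (UN.fin (hl.length.comp pt_sigma_fst)).1 (hd.comp hφ)).apply
    (dpt_sigma_snd.comp pt_sigma_fst)

theorem Good.a0_comb (hC : Good C) {c : α → ℕ} (hc : UN c) {l : ∀ a, List (Fin (c a) → (C a).RS)} (hl : DPT l)
    {e : ∀ a, List (C a).S1} (he : DPT e) :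
    DPT fun a => (fun k => ∑ j ∈ range (l a).length, fw (e a) j • (l a).getD j 0 k : Fin (c a) → (C a).RS) := by
  have hC' : Good fun x : Σ a, Fin (c a) => C x.1 := hC.comp pt_sigma_fst
  have hz : DPT fun x : Σ a, Fin (c a) => (0 : (C x.1).RS) := hC'.rs.zero
  have h0 : DPT fun a => (0 : Fin (c a) → (C a).RS) := DPT.pi (F := fun a => (0 : Fin (c a) → (C a).RS)) hc hz
  have h1 := a0_getD hl h0
  have h2 : UN fun x : Σ a, Fin (c a) => (l x.1).length := hl.length.comp pt_sigma_fst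
  have h3 : DPT fun x : Σ a, Fin (c a) => e x.1 := he.comp pt_sigma_fst
  have h4 := hC'.a0_comb1 h2 (v := fun p j => (l p.1).getD j 0 p.2) h1 h3
  exact DPT.pi (F := fun a k => ∑ j ∈ range (l a).length, fw (e a) j • (l a).getD j 0 k) hc h4

/-- the first nonzero tuple in the stages `L 0, L 1, …`: flatten, take the weights `fw` of the indicators (`fw_spec`, `map_fw`) -/
theorem solv_firstT (hC : Good C) {c M : α → ℕ} (hc : UN c) (hM : UN M)
    {L : ∀ a, Fin (M a) → List (Fin (c a) → (C a).RS)} (hL : DPT L) :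
    Solv fun a (w : Fin (c a) → (C a).RS) => ∀ i, (∃ m, ∃ v ∈ L a m, (C a).evT i v ≠ 0) →
      ∃ m, (∀ m' < m, ∀ v ∈ L a m', (C a).evT i v = 0) ∧ (∃ v ∈ L a m, (C a).evT i w = (C a).evT i v) ∧
        (C a).evT i w ≠ 0 := by
  classical
  let l : ∀ a, List (Fin (c a) → (C a).RS) := fun a => (List.finRange (M a)).flatMap (L a)
  have hl : DPT l := (dpt_finRange hM).flatMap ((hL.comp pt_sigma_fst).apply dpt_sigma_snd)
  let e : ∀ a, List (C a).S1 := fun a => (l a).map fun v => (C a).ind fun i => ¬ ∀ k, (C a).evR i (v k) = 0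
  have he : DPT e := hl.map (hC.a0_indT hc)
  refine Solv.of_dpt (hC.a0_comb hc hl he) ?_
  rintro a i ⟨m₀, v₀, hv₀, hne⟩
  have hz : ∀ v : Fin (c a) → (C a).RS, (∀ k, (C a).evR i (v k) = 0) ↔ (C a).evT i v = 0 := fun v => funext_iff.symm
  set φ : (C a).S1 →+* (C a).K := Pi.evalRingHom (fun _ => (C a).K) i with hφ'
  have hmap : (e a).map φ = (l a).map fun v => if (C a).evT i v = 0 then (0 : (C a).K) else 1 := by
    rw [List.map_map]
    refine List.map_congr_left fun v _ => ?_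
    simp only [Function.comp, hφ', Pi.evalRingHom_apply, Cv.ind, hz, ite_not]
  have hget : ∀ j < (l a).length, ((e a).map φ).getD j 0 = if (C a).evT i ((l a).getD j 0) = 0 then 0 else 1 := by
    intro j hj
    rw [hmap, List.getD_eq_getElem _ _ (by simpa using hj), List.getElem_map, List.getD_eq_getElem _ _ hj]
  rcases fw_spec ((e a).map φ) (fun x hx => by
    rw [hmap] at hx
    obtain ⟨v, -, rfl⟩ := List.mem_map.1 hx
    split_ifs <;> simp) with ⟨h, -⟩ | ⟨k₀, hk₀, h1, h2, h3⟩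
  · have := h 1 (by
      rw [hmap]
      exact List.mem_map.2 ⟨v₀, List.mem_flatMap.2 ⟨m₀, List.mem_finRange _, hv₀⟩, if_neg hne⟩)
    exact absurd this one_ne_zero
  have hk : k₀ < (l a).length := by simpa [e] using hk₀
  have hw : (C a).evT i (fun k => ∑ j ∈ range (l a).length, fw (e a) j • (l a).getD j 0 k) =
      (C a).evT i ((l a).getD k₀ 0) := by
    funext k
    simp only [Cv.evT, map_sum, Cv.evR_smul]
    have : ∀ j, fw (e a) j i = if j = k₀ then 1 else 0 := fun j => by rw [← h3, ← map_fw]; rfl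
    simp only [this, ite_smul, one_smul, zero_smul, sum_ite_eq', mem_range, hk, if_true]
  obtain ⟨m, hm1, hm2⟩ := a0_first (L a) (fun v => (C a).evT i v = 0) 0 hk fun j hj => by
    have := h2 j hj
    rw [hget j (hj.trans hk)] at this
    by_contra hc'
    exact one_ne_zero ((if_neg hc').symm.trans this)
  refine ⟨m, hm1, ⟨_, hm2, hw⟩, ?_⟩
  rw [hw]
  intro hc'
  rw [hget k₀ hk, if_pos hc'] at h1
  exact zero_ne_one h1

theorem solv_first (hC : Good C) {M : α → ℕ} (hM : UN M) {L : ∀ a, Fin (M a) → List (C a).RS} (hL : DPT L) :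
    Solv fun a (w : (C a).RS) => ∀ i, (∃ m, ∃ v ∈ L a m, (C a).evR i v ≠ 0) →
      ∃ m, (∀ m' < m, ∀ v ∈ L a m', (C a).evR i v = 0) ∧ (∃ v ∈ L a m, (C a).evR i w = (C a).evR i v) ∧
        (C a).evR i w ≠ 0 := by
  obtain ⟨w, hw, h⟩ := solv_firstT hC (UN.const 1) hM (L := fun a m => (L a m).map fun v _ => v)
    (DPT.pi hM (((hL.comp pt_sigma_fst).apply dpt_sigma_snd).map
      (DPT.pi (UN.const 1) (dpt_sigma_snd.comp pt_sigma_fst))))
  refine Solv.of_dpt (f := fun a => w a ⟨0, one_pos⟩) (hw.apply (DPT.finMk (PT.const 0) fun _ => one_pos)) ?_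
  rintro a i ⟨m₀, v₀, hv₀, hne⟩
  obtain ⟨m, h1, ⟨_, h2, h3⟩, h4⟩ := h a i ⟨m₀, _, List.mem_map_of_mem hv₀, fun e => hne (congrFun e ⟨0, one_pos⟩)⟩
  obtain ⟨v, hv, rfl⟩ := List.mem_map.1 h2
  refine ⟨m, fun m' hm' v' hv' => congrFun (h1 m' hm' _ (List.mem_map_of_mem hv')) ⟨0, one_pos⟩,
    ⟨v, hv, congrFun h3 ⟨0, one_pos⟩⟩, fun e => h4 (funext fun k => ?_)⟩
  rw [Subsingleton.elim k ⟨0, one_pos⟩]
  exact e

end Crest.Agent.R312
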