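import Crest.Agent.R312.A0

/-!
# R312/A1: linear systems over `RS`.  Number the unknowns by `En.equivFin`, expand every equation into its coefficients `(coS · l).coeff t`,
`l < q`, `t ≤ D` (`exists_V`, `co_ext`, `co_evR`, `coeff_evP`), and call `solv_ker` with `φ = Pi.evalRingHom _ i`.
-/

set_option autoImplicit false

open Polynomial Finset Crest.Agent.Lib.PolyTime

noncomputable section

namespace Crest.Agent.R312

variable {α α' : Type} [Enc α] [Enc α'] {C : α → Cv}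

theorem a1_zero (C : Cv) {z : C.R} {D : ℕ} (hz : z ∈ C.V D) :
    z = 0 ↔ ∀ (l : Fin C.q) (t : Fin (D + 1)), (C.co z l).coeff t = 0 := by
  refine ⟨fun h l t => by rw [h, C.co_zero, coeff_zero], fun h => C.co_ext fun l hl => ?_⟩
  rw [C.co_zero]
  ext t
  by_cases ht : t < D + 1
  · exact h ⟨l, hl⟩ ⟨t, ht⟩
  · exact coeff_eq_zero_of_natDegree_lt (lt_of_le_of_lt (C.mem_V.1 hz l) (by omega))

theorem a1_ker (hC : Good C) {ι κ : α → Type} [∀ a, Enc (ι a)] [∀ a, Enc (κ a)] [∀ a, Fintype (ι a)] (hι : En ι)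
    (hκ : En κ) {A : ∀ a, κ a → ι a → (C a).RS} (hA : DPT fun p : Σ a, κ a × ι a => A p.1 p.2.1 p.2.2) :
    ∃ (e : ∀ a, Fin (Fintype.card (ι a)) ≃ ι a) (L : ∀ a, List (Fin (Fintype.card (ι a)) → (C a).S1)),
      (DPT fun p : Σ a, Fin (Fintype.card (ι a)) => e p.1 p.2) ∧ DPT L ∧
      ∀ a i (c : Fin (Fintype.card (ι a)) → (C a).K),
        c ∈ Submodule.span (C a).K {v | ∃ w ∈ L a, (fun k => w k i) = v} ↔
          ∀ k, ∑ j, c j • (C a).evR i (A a k (e a j)) = 0 := by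
  obtain ⟨e, he⟩ := hι.equivFin
  obtain ⟨l0, hl0, m0⟩ := hκ.prod hι
  obtain ⟨D, hD, hV⟩ := hC.exists_V (hl0.map (f := fun a p => A a p.1 p.2) hA)
  have hD1 : UN fun a => D a + 1 := hD.add (UN.const 1)
  obtain ⟨l, hl, m1⟩ := hκ.prod ((En.fin hC.q).prod (En.fin hD1))
  have hφ : PT fun x : Σ p : Σ a, κ a × Fin (C a).q × Fin (D a + 1), Fin (Fintype.card (ι p.1)) => x.1.1 :=
    pt_sigma_fst.comp pt_sigma_fst
  have h2 : DPT fun x : Σ p : Σ a, κ a × Fin (C a).q × Fin (D a + 1), Fin (Fintype.card (ι p.1)) => x.1.2 :=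
    dpt_sigma_snd.comp pt_sigma_fst
  have h3 : DPT fun x : Σ p : Σ a, κ a × Fin (C a).q × Fin (D a + 1), Fin (Fintype.card (ι p.1)) => e x.1.1 x.2 :=
    he.comp (pt_sigma_mk hφ dpt_sigma_snd)
  have h4 : DPT fun x : Σ p : Σ a, κ a × Fin (C a).q × Fin (D a + 1), Fin (Fintype.card (ι p.1)) =>
      A x.1.1 x.1.2.1 (e x.1.1 x.2) := (hA.comp (pt_sigma_mk (β := fun a => κ a × ι a) hφ (h2.fst.pair h3)) :)
  have hrows : DPT fun a => (l a).map fun p => fun j : Fin (Fintype.card (ι a)) =>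
      ((C a).coS (A a p.1 (e a j)) p.2.1.val).coeff p.2.2.val :=
    hl.map (f := fun a p => fun j : Fin (Fintype.card (ι a)) => ((C a).coS (A a p.1 (e a j)) p.2.1.val).coeff p.2.2.val)
      (DPT.pi (hι.card.comp pt_sigma_fst)
        ((hC.s1.comp hφ).dcoeff ((hC.comp hφ).dco h4 h2.snd.fst.finVal) h2.snd.snd.finVal))
  obtain ⟨L, hL, sL⟩ := solv_ker (K := fun a => (C a).K) hC.s1 hC.card hι.card hrows
  refine ⟨e, L, he, hL, fun a i c => ((sL a).2 (Pi.evalRingHom (fun _ => (C a).K) i) c).trans ?_⟩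
  have key : ∀ k (l t : ℕ), ((C a).co (∑ j, c j • (C a).evR i (A a k (e a j))) l).coeff t =
      ∑ j, ((C a).coS (A a k (e a j)) l).coeff t i * c j := fun k l t => by
    rw [(C a).co_sum, finsetSum_coeff]
    refine Finset.sum_congr rfl fun j _ => ?_
    rw [(C a).co_smul, coeff_smul, (C a).co_evR, (C a).coeff_evP, smul_eq_mul, mul_comm]
  have hmem : ∀ k, ∑ j, c j • (C a).evR i (A a k (e a j)) ∈ (C a).V (D a) := fun k =>
    Submodule.sum_mem _ fun j _ => Submodule.smul_mem _ _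
      (hV a _ (List.mem_map.2 ⟨(k, e a j), (m0 a).2 _, rfl⟩) i)
  constructor
  · intro h k
    refine (a1_zero _ (hmem k)).2 fun l' t => ?_
    rw [key]
    exact h _ (List.mem_map.2 ⟨(k, l', t), (m1 a).2 _, rfl⟩)
  · intro h r hr
    obtain ⟨p, -, rfl⟩ := List.mem_map.1 hr
    exact (key p.1 p.2.1 p.2.2).symm.trans ((a1_zero _ (hmem p.1)).1 (h p.1) p.2.1 p.2.2)

theorem a1_span {K M ι T : Type} [Field K] [AddCommGroup M] [Module K M] [Fintype ι] {N : ℕ} (e : Fin N ≃ ι)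
    (L : List T) (φ : T → Fin N → K) (m : ι → M) (P : (ι → K) → Prop)
    (hL : ∀ c, c ∈ Submodule.span K {v | ∃ w ∈ L, φ w = v} ↔ P fun x => c (e.symm x)) (z : M) :
    z ∈ Submodule.span K {v | ∃ w ∈ L, ∑ j, φ w j • m (e j) = v} ↔ ∃ lam, P lam ∧ z = ∑ x, lam x • m x := by
  have h1 : {v | ∃ w ∈ L, ∑ j, φ w j • m (e j) = v} =
      Fintype.linearCombination K (fun j => m (e j)) '' {v | ∃ w ∈ L, φ w = v} := by
    ext v
    constructor
    · rintro ⟨w, hw, rfl⟩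
      exact ⟨_, ⟨w, hw, rfl⟩, Fintype.linearCombination_apply _ _ _⟩
    · rintro ⟨_, ⟨w, hw, rfl⟩, rfl⟩
      exact ⟨w, hw, (Fintype.linearCombination_apply _ _ _).symm⟩
  rw [h1, Submodule.span_image, Submodule.mem_map]
  constructor
  · rintro ⟨c, hc, rfl⟩
    refine ⟨_, (hL c).1 hc, ?_⟩
    rw [Fintype.linearCombination_apply, ← e.sum_comp]
    simp
  · rintro ⟨lam, h, rfl⟩
    refine ⟨fun j => lam (e j), (hL _).2 (by simpa using h), ?_⟩
    rw [Fintype.linearCombination_apply, ← e.sum_comp]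

theorem solv_sol (hC : Good C) {ι κ : α → Type} [∀ a, Enc (ι a)] [∀ a, Enc (κ a)] [∀ a, Fintype (ι a)] (hι : En ι)
    (hκ : En κ) {c : α → ℕ} (hc : UN c) {A : ∀ a, κ a → ι a → (C a).RS}
    (hA : DPT fun p : Σ a, κ a × ι a => A p.1 p.2.1 p.2.2) {m : ∀ a, ι a → Fin (c a) → (C a).RS}
    (hm : DPT fun p : Σ a, ι a × Fin (c a) => m p.1 p.2.1 p.2.2) :
    Solv fun a (L : List (Fin (c a) → (C a).RS)) => ∀ i z, z ∈ (C a).spT L i ↔
      ∃ lam : ι a → (C a).K, (∀ k, ∑ x, lam x • (C a).evR i (A a k x) = 0) ∧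
        z = ∑ x, lam x • (C a).evT i (m a x) := by
  obtain ⟨e, L, he, hL, sL⟩ := a1_ker hC hι hκ hA
  have hψ : PT fun y : Σ p : Σ a, Fin (Fintype.card (ι a)) → (C a).S1, Fin (c p.1) => y.1.1 :=
    pt_sigma_fst.comp pt_sigma_fst
  have hφ : PT fun x : Σ y : Σ p : Σ a, Fin (Fintype.card (ι a)) → (C a).S1, Fin (c p.1),
      Fin (Fintype.card (ι y.1.1)) => x.1.1.1 := hψ.comp pt_sigma_fst
  have h1 : DPT fun x : Σ y : Σ p : Σ a, Fin (Fintype.card (ι a)) → (C a).S1, Fin (c p.1),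
      Fin (Fintype.card (ι y.1.1)) => x.1.1.2 x.2 :=
    ((dpt_sigma_snd.comp pt_sigma_fst).comp pt_sigma_fst).apply dpt_sigma_snd
  have h3 : DPT fun x : Σ y : Σ p : Σ a, Fin (Fintype.card (ι a)) → (C a).S1, Fin (c p.1),
      Fin (Fintype.card (ι y.1.1)) => e x.1.1.1 x.2 := he.comp (pt_sigma_mk hφ dpt_sigma_snd)
  have h2 : DPT fun x : Σ y : Σ p : Σ a, Fin (Fintype.card (ι a)) → (C a).S1, Fin (c p.1),
      Fin (Fintype.card (ι y.1.1)) => m x.1.1.1 (e x.1.1.1 x.2) x.1.2 :=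
    (hm.comp (pt_sigma_mk (β := fun a => ι a × Fin (c a)) hφ (h3.pair (dpt_sigma_snd.comp pt_sigma_fst))) :)
  refine ⟨fun a => (L a).map fun w k => ∑ j, w j • m a (e a j) k,
    hL.map (f := fun a w k => ∑ j, w j • m a (e a j) k) (DPT.pi (hc.comp pt_sigma_fst)
      ((hC.rs.comp hψ).dsum (En.fin (hι.card.comp hψ)) ((hC.comp hφ).dsmul h1 h2))), fun a i z => ?_⟩
  rw [← a1_span (e a) (L a) (fun w k => w k i) (fun x => (C a).evT i (m a x))
    (fun lam => ∀ k, ∑ x, lam x • (C a).evR i (A a k x) = 0)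
    (fun c => (sL a i c).trans (forall_congr' fun k => by rw [← (e a).sum_comp]; simp)) z, Cv.spT]
  have h4 : ∀ w : Fin (Fintype.card (ι a)) → (C a).S1, (C a).evT i (fun k => ∑ j, w j • m a (e a j) k) =
      ∑ j, w j i • (C a).evT i (m a (e a j)) := fun w => by
    funext k
    simp only [Cv.evT, map_sum, Cv.evR_smul, Finset.sum_apply, Pi.smul_apply]
  simp only [List.mem_map, exists_exists_and_eq_and, h4]

theorem solv_sol1 (hC : Good C) {ι κ : α → Type} [∀ a, Enc (ι a)] [∀ a, Enc (κ a)] [∀ a, Fintype (ι a)] (hι : En ι)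
    (hκ : En κ) {A : ∀ a, κ a → ι a → (C a).RS} (hA : DPT fun p : Σ a, κ a × ι a => A p.1 p.2.1 p.2.2)
    {m : ∀ a, ι a → (C a).RS} (hm : DPT fun p : Σ a, ι a => m p.1 p.2) :
    Solv fun a (L : List (C a).RS) => ∀ i z, z ∈ (C a).spn L i ↔
      ∃ lam : ι a → (C a).K, (∀ k, ∑ x, lam x • (C a).evR i (A a k x) = 0) ∧
        z = ∑ x, lam x • (C a).evR i (m a x) := by
  obtain ⟨e, L, he, hL, sL⟩ := a1_ker hC hι hκ hA
  have hφ : PT fun x : Σ p : Σ a, Fin (Fintype.card (ι a)) → (C a).S1, Fin (Fintype.card (ι p.1)) => x.1.1 :=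
    pt_sigma_fst.comp pt_sigma_fst
  have h1 : DPT fun x : Σ p : Σ a, Fin (Fintype.card (ι a)) → (C a).S1, Fin (Fintype.card (ι p.1)) => x.1.2 x.2 :=
    (dpt_sigma_snd.comp pt_sigma_fst).apply dpt_sigma_snd
  have h3 : DPT fun x : Σ p : Σ a, Fin (Fintype.card (ι a)) → (C a).S1, Fin (Fintype.card (ι p.1)) => e x.1.1 x.2 :=
    he.comp (pt_sigma_mk hφ dpt_sigma_snd)
  have h2 : DPT fun x : Σ p : Σ a, Fin (Fintype.card (ι a)) → (C a).S1, Fin (Fintype.card (ι p.1)) =>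
      m x.1.1 (e x.1.1 x.2) := (hm.comp (pt_sigma_mk hφ h3) :)
  refine ⟨fun a => (L a).map fun w => ∑ j, w j • m a (e a j),
    hL.map (f := fun a w => ∑ j, w j • m a (e a j))
      ((hC.rs.comp pt_sigma_fst).dsum (En.fin (hι.card.comp pt_sigma_fst)) ((hC.comp hφ).dsmul h1 h2)),
    fun a i z => ?_⟩
  rw [← a1_span (e a) (L a) (fun w k => w k i) (fun x => (C a).evR i (m a x))
    (fun lam => ∀ k, ∑ x, lam x • (C a).evR i (A a k x) = 0)
    (fun c => (sL a i c).trans (forall_congr' fun k => by rw [← (e a).sum_comp]; simp)) z, Cv.spn]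
  simp only [List.mem_map, exists_exists_and_eq_and, map_sum, Cv.evR_smul]

theorem a1c_span {K V W β γ : Type} [Field K] [AddCommGroup V] [Module K V] [AddCommGroup W] [Module K W]
    (Φ : V →ₗ[K] W) (L : List β) (f : β → V) (g : β → γ) (h : γ → W) (e : ∀ w ∈ L, h (g w) = Φ (f w)) :
    Submodule.span K {z | ∃ x ∈ L.map g, h x = z} = (Submodule.span K {v | ∃ w ∈ L, f w = v}).map Φ := by
  rw [Submodule.map_span]
  congr 1
  ext z
  simp only [List.mem_map, Set.mem_ofPred_eq, Set.mem_image]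
  constructor
  · rintro ⟨_, ⟨w, hw, rfl⟩, rfl⟩
    exact ⟨_, ⟨w, hw, rfl⟩, (e w hw).symm⟩
  · rintro ⟨_, ⟨w, hw, rfl⟩, rfl⟩
    exact ⟨_, ⟨w, hw, rfl⟩, e w hw⟩

/-- compression: pass to the coefficient vectors indexed by `Fin (M + 1) × Fin q` (`eq_sum_mono`, `coeff_sum_mono`), `solv_cmp` -/
theorem solv_cmpR (hC : Good C) {L : ∀ a, List (C a).RS} (hL : DPT L) {M : α → ℕ} (hM : UN M) :
    Solv fun a (L' : List (C a).RS) => (C a).Bd L' (M a) ∧ ∀ i, (C a).spn (L a) i ≤ (C a).V (M a) →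
      (C a).spn L' i = (C a).spn (L a) i := by
  have hM1 : UN fun a => M a + 1 := hM.add (UN.const 1)
  have hι : En fun a => Fin (M a + 1) × Fin (C a).q := (En.fin hM1).prod (En.fin hC.q)
  obtain ⟨e, he⟩ := hι.equivFin
  have hN := hι.card
  let tv : ∀ a, (C a).RS → Fin (Fintype.card (Fin (M a + 1) × Fin (C a).q)) → (C a).S1 :=
    fun a z k => ((C a).coS z (e a k).2).coeff (e a k).1
  let fv : ∀ a, (Fin (Fintype.card (Fin (M a + 1) × Fin (C a).q)) → (C a).S1) → (C a).RS :=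
    fun a w => ∑ k, w k • (C a).mono (e a k).1 (e a k).2
  have htv : DPT fun p : Σ a, (C a).RS => tv p.1 p.2 := by
    refine DPT.pi (hN.comp pt_sigma_fst) ?_
    have h1 : PT fun p : Σ p : Σ a, (C a).RS, Fin (Fintype.card (Fin (M p.1 + 1) × Fin (C p.1).q)) => p.1.1 :=
      pt_sigma_fst.comp pt_sigma_fst
    have h2 := he.comp (pt_sigma_mk h1 dpt_sigma_snd)
    exact (hC.comp h1).s1.dcoeff ((hC.comp h1).dco (dpt_sigma_snd.comp pt_sigma_fst) h2.snd.finVal) h2.fst.finVal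
  have hfv : DPT fun p : Σ a, (Fin (Fintype.card (Fin (M a + 1) × Fin (C a).q)) → (C a).S1) => fv p.1 p.2 := by
    refine (hC.comp pt_sigma_fst).rs.dsum (En.fin (hN.comp pt_sigma_fst)) ?_
    have h1 : PT fun p : Σ p : Σ a, (Fin (Fintype.card (Fin (M a + 1) × Fin (C a).q)) → (C a).S1),
        Fin (Fintype.card (Fin (M p.1 + 1) × Fin (C p.1).q)) => p.1.1 := pt_sigma_fst.comp pt_sigma_fst
    have h2 := he.comp (pt_sigma_mk h1 dpt_sigma_snd)
    exact (hC.comp h1).dsmul ((dpt_sigma_snd.comp pt_sigma_fst).apply dpt_sigma_snd) ((hC.comp h1).dmono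
      (UN.of_le h2.fst.finVal (hM1.comp h1).2 fun p => (Fin.is_lt _).le)
      (UN.of_le h2.snd.finVal (hC.q.comp h1).2 fun p => (Fin.is_lt _).le))
  obtain ⟨L', hL', h⟩ := solv_cmp (K := fun a => (C a).K) hC.s1 hC.card hN (hL.map htv)
  let Φ : ∀ a, (Fin (Fintype.card (Fin (M a + 1) × Fin (C a).q)) → (C a).K) →ₗ[(C a).K] (C a).R := fun a =>
    Fintype.linearCombination (C a).K fun k => (C a).ι (X ^ (e a k).1.val) * (C a).y ^ (e a k).2.val
  have hΦ : ∀ a v, Φ a v = ∑ x, v ((e a).symm x) • ((C a).ι (X ^ x.1.val) * (C a).y ^ x.2.val) := fun a v => by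
    rw [← (e a).sum_comp]
    simp only [Φ, Fintype.linearCombination_apply, Equiv.symm_apply_apply]
  have hev : ∀ a i w, (C a).evR i (fv a w) = Φ a fun k => Pi.evalRingHom _ i (w k) := fun a i w => by
    simp only [Φ, fv, Fintype.linearCombination_apply, map_sum, Cv.evR_smul, Cv.evR_mono, Pi.evalRingHom_apply]
  refine ⟨fun a => (L' a).map (fv a), hL'.map hfv, fun a => ⟨⟨?_, fun g hg i => ?_⟩, fun i hi => ?_⟩⟩
  · rw [List.length_map, (h a).1]; simp [mul_comm]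
  · obtain ⟨w, -, rfl⟩ := List.mem_map.1 hg
    rw [hev, hΦ]
    exact (C a).sum_mono_mem_V _
  · rw [Cv.spn, a1c_span (Φ a) (L' a) _ (fv a) _ fun w _ => hev a i w, (h a).2, Cv.spn, ← (L a).map_id,
      a1c_span (Φ a) (L a) (fun z k => Pi.evalRingHom _ i (tv a z k)) id _ fun z hz => ?_]
    · congr 2
      ext v
      simp
    · rw [hΦ, id]
      refine ((C a).eq_sum_mono (hi (Submodule.subset_span ⟨z, hz, rfl⟩))).trans ?_
      simp only [tv, Equiv.apply_symm_apply, Pi.evalRingHom_apply, Cv.co_evR, Cv.coeff_evP]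

end Crest.Agent.R312
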