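import Crest.Agent.R312.A1

/-!
# R312/A2: intersection of an ideal with `V M`, colon ideals, products.
-/

set_option autoImplicit false

open Polynomial Finset Crest.Agent.Lib.PolyTime

noncomputable section

namespace Crest.Agent.R312

variable {α α' : Type} [Enc α] [Enc α'] {C : α → Cv}

theorem a2_mono (hC : Good C) {D : α → ℕ} (hD : UN D) {x : ∀ a, Fin (D a + 1) × Fin (C a).q} (hx : DPT x) :
    DPT fun a => (C a).mono (x a).1 (x a).2 :=
  hC.dmono (UN.of_le hx.fst.finVal hD.2 fun a => Nat.le_of_lt_succ (x a).1.2)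
    (UN.of_le hx.snd.finVal hC.q.2 fun a => (x a).2.2.le)

theorem a2_idl (C : Cv) (G : List C.RS) (i : C.Ω) :
    C.idl G i = Ideal.span (Set.range fun k => C.evR i (G.get k)) := by
  unfold Cv.idl
  congr 1
  ext z
  exact ⟨fun ⟨g, hg, e⟩ => by obtain ⟨k, rfl⟩ := List.get_of_mem hg; exact ⟨k, e⟩,
    fun ⟨k, e⟩ => ⟨_, List.get_mem _ k, e⟩⟩

def a2A (C : Cv) {n M M' : ℕ} (P : C.RS) (Q : Fin n → C.RS) :
    (Fin (M + 1) × Fin C.q) ⊕ (Fin n × (Fin (M' + 1) × Fin C.q)) → C.RS :=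
  Sum.elim (fun x => C.mono x.1 x.2 * P) fun x => -(C.mono x.2.1 x.2.2 * Q x.1)

theorem a2_elim (hC : Good C) {n M M' : α → ℕ} (hM : UN M) (hM' : UN M') {P : ∀ a, (C a).RS} (hP : DPT P)
    {Q : ∀ a, Fin (n a) → (C a).RS} (hQ : DPT fun p : Σ a, Fin (n a) => Q p.1 p.2) :
    DPT fun p : Σ a, (Fin (M a + 1) × Fin (C a).q) ⊕ (Fin (n a) × (Fin (M' a + 1) × Fin (C a).q)) =>
      a2A (C p.1) (P p.1) (Q p.1) p.2 := by
  refine DPT.sumCases ?_ ?_
  · have h1 := a2_mono (hC.comp (pt_sigma_fst (β := fun a => Fin (M a + 1) × Fin (C a).q))) (hM.comp pt_sigma_fst)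
      dpt_sigma_snd
    exact (hC.comp pt_sigma_fst).rs.dmul h1 (hP.comp pt_sigma_fst)
  · have h1 := a2_mono (hC.comp (pt_sigma_fst (β := fun a => Fin (n a) × (Fin (M' a + 1) × Fin (C a).q))))
      (hM'.comp pt_sigma_fst) dpt_sigma_snd.snd
    have h2 := hQ.comp (pt_sigma_mk (pt_sigma_fst (β := fun a => Fin (n a) × (Fin (M' a + 1) × Fin (C a).q)))
      dpt_sigma_snd.fst)
    exact (hC.comp pt_sigma_fst).rs.dneg ((hC.comp pt_sigma_fst).rs.dmul h1 h2)

theorem a2_gen (hC : Good C) {κ : α → Type} [∀ a, Enc (κ a)] (hκ : En κ) {n M M' : α → ℕ} (hn : UN n) (hM : UN M)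
    (hM' : UN M') {P : ∀ a, κ a → (C a).RS} (hP : DPT fun p : Σ a, κ a => P p.1 p.2)
    {Q : ∀ a, κ a → Fin (n a) → (C a).RS} (hQ : DPT fun p : Σ a, κ a × Fin (n a) => Q p.1 p.2.1 p.2.2) :
    Solv fun a (L : List (C a).RS) => (C a).Bd L (M a) ∧ ∀ i z, z ∈ (C a).spn L i ↔ z ∈ (C a).V (M a) ∧
      ∃ w : Fin (n a) → (C a).R, (∀ k, w k ∈ (C a).V (M' a)) ∧
        ∀ c, z * (C a).evR i (P a c) = ∑ k, w k * (C a).evR i (Q a c k) := by
  have e1 : ∀ {D : α → ℕ}, UN D → En fun a => Fin (D a + 1) × Fin (C a).q := fun hD =>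
    (En.fin (hD.add (UN.const 1))).prod (En.fin hC.q)
  have f1 : PT fun p : Σ a, κ a => p.1 := pt_sigma_fst
  have h1 := hQ.comp (pt_sigma_mk (f1.comp (pt_sigma_fst (β := fun b : Σ a, κ a => Fin (n b.1))))
    ((dpt_sigma_snd.comp pt_sigma_fst).pair dpt_sigma_snd))
  have h2 := (a2_elim (hC.comp f1) (hM.comp f1) (hM'.comp f1) hP (Q := fun b => Q b.1 b.2) h1).comp
    (pt_sigma_mk (pt_sigma_mk (pt_sigma_fst (β := fun a => κ a × ((Fin (M a + 1) × Fin (C a).q) ⊕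
      (Fin (n a) × (Fin (M' a + 1) × Fin (C a).q))))) dpt_sigma_snd.fst) dpt_sigma_snd.snd)
  have h3 := a2_elim hC hM hM' hC.rs.one (n := n) (Q := fun _ _ => 0) (hC.comp pt_sigma_fst).rs.zero
  have h4 := solv_sol1 hC
    (ι := fun a => (Fin (M a + 1) × Fin (C a).q) ⊕ (Fin (n a) × (Fin (M' a + 1) × Fin (C a).q)))
    ((e1 hM).sum ((En.fin hn).prod (e1 hM'))) hκ
    (A := fun a c => a2A (C a) (P a c) (Q a c)) h2 (m := fun a => a2A (C a) 1 fun _ => 0) h3
  obtain ⟨L, hL, H⟩ := h4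
  have K : ∀ a i z, z ∈ (C a).spn (L a) i ↔ z ∈ (C a).V (M a) ∧
      ∃ w : Fin (n a) → (C a).R, (∀ k, w k ∈ (C a).V (M' a)) ∧
        ∀ c, z * (C a).evR i (P a c) = ∑ k, w k * (C a).evR i (Q a c k) := by
    intro a i z
    rw [H]
    simp only [a2A, Fintype.sum_sum_type, Sum.elim_inl, Sum.elim_inr, mul_one, mul_zero, neg_zero, map_mul, map_neg,
      map_zero, smul_zero, Finset.sum_const_zero, add_zero, Cv.evR_mono, smul_neg, Finset.sum_neg_distrib,
      ← sub_eq_add_neg, sub_eq_zero, Fintype.sum_prod_type (α₁ := Fin (n a))]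
    simp only [← smul_mul_assoc _ ((C a).ι _ * _), ← Finset.sum_mul]
    constructor
    · rintro ⟨lam, h1, rfl⟩
      exact ⟨(C a).sum_mono_mem_V fun x => lam (.inl x), _,
        fun k => (C a).sum_mono_mem_V fun x => lam (.inr (k, x)), h1⟩
    · rintro ⟨hz, w, h1, h2⟩
      refine ⟨Sum.elim (fun x => ((C a).co z x.2).coeff x.1) fun x => ((C a).co (w x.1) x.2.2).coeff x.2.1,
        fun c => ?_, (C a).eq_sum_mono hz⟩
      simp only [Sum.elim_inl, Sum.elim_inr, ← (C a).eq_sum_mono hz, ← (C a).eq_sum_mono (h1 _)]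
      exact h2 c
  refine (solv_cmpR hC hL hM).mono fun a L' h => ⟨h.1, fun i z => ?_⟩
  rw [h.2 i fun z hz => ((K a i z).1 hz).1, K]

/-- unknown cofactors `w_k ∈ V M'` (`exists_cofactors`), values `mono t l * g_k`, conditions: the coefficients `t > M` vanish; then `solv_cmpR` -/
theorem solv_meet (hC : Good C) {G : ∀ a, List (C a).RS} (hG : DPT G) {M : α → ℕ} (hM : UN M) :
    Solv fun a (L : List (C a).RS) => (C a).Bd L (M a) ∧ ∀ i, (C a).Rp L (M a) i ((C a).idl (G a) i) := by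
  obtain ⟨D, hD, hGD⟩ := hC.exists_V hG
  refine (a2_gen hC En.unit hG.length hM (hM.add ((((UN.const 2).mul hC.q).add (UN.const 3)).mul (hD.add hC.n)))
    (P := fun _ _ => 1) (hC.rs.comp pt_sigma_fst).one (Q := fun a _ k => (G a).get k)
    ((hG.comp pt_sigma_fst).get dpt_sigma_snd.snd)).mono fun a L h => ⟨h.1, fun i z => ?_⟩
  rw [h.2, a2_idl, and_comm]
  refine and_congr_left fun hz => ⟨fun ⟨w, _, hw⟩ => ?_, fun hI => ?_⟩
  · have := hw ()
    rw [map_one, mul_one] at this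
    exact this ▸ Ideal.sum_mem _ fun k _ => Ideal.mul_mem_left _ _ (Ideal.subset_span ⟨k, rfl⟩)
  · obtain ⟨w, h1, h2⟩ := (C a).exists_cofactors _ (fun k => hGD a _ (List.get_mem _ k) i) hI hz
    exact ⟨w, h1, fun _ => by rw [map_one, mul_one]; exact h2⟩

/-- unknowns `z ∈ V M` and `w_k ∈ V M'` with `z g_k = h w_k` (`mem_col`, `mem_V_of_mul`); then `solv_cmpR` -/
theorem solv_col (hC : Good C) {h : ∀ a, (C a).RS} (hh : DPT h) {G : ∀ a, List (C a).RS} (hG : DPT G) {M : α → ℕ}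
    (hM : UN M) : Solv fun a (L : List (C a).RS) => (C a).Bd L (M a) ∧ ∀ i, (C a).evR i (h a) ≠ 0 →
      (C a).Rp L (M a) i ((C a).col ((C a).evR i (h a)) ((C a).idl (G a) i)) := by
  obtain ⟨D, hD, hGD⟩ := hC.exists_V (hh.cons hG)
  refine (a2_gen hC (En.fin hG.length) hG.length hM (((hM.add hD).add hC.n).add (hC.q.mul (hD.add hC.n)))
    (P := fun a k => (G a).get k) ((hG.comp pt_sigma_fst).get dpt_sigma_snd)
    (Q := fun a c k => if k = c then h a else 0)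
    (DPT.ite (dpt_sigma_snd.snd.eq dpt_sigma_snd.fst) (hh.comp pt_sigma_fst) (hC.rs.comp pt_sigma_fst).zero)).mono
    fun a L H => ⟨H.1, fun i h0 z => ?_⟩
  rw [H.2, a2_idl, Cv.mem_col, and_comm]
  simp only [apply_ite ((C a).evR i), map_zero, mul_ite, mul_zero, Finset.sum_ite_eq', Finset.mem_univ, if_true,
    Set.forall_mem_range]
  refine and_congr_left fun hz => ⟨fun ⟨w, _, hw⟩ k => ⟨w k, by rw [hw, mul_comm]⟩, fun hI => ?_⟩
  choose w hw using hI
  exact ⟨w, fun k => (C a).mem_V_of_mul h0 (hGD a _ List.mem_cons_self i)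
    (hw k ▸ (C a).mul_mem_V hz (hGD a _ (List.mem_cons_of_mem _ (List.get_mem _ k)) i)),
    fun k => by rw [hw, mul_comm]⟩

theorem Cv.idl_mul (C : Cv) (G H : List C.RS) (i : C.Ω) :
    C.idl (G.flatMap fun g => H.map fun h => g * h) i = C.idl G i * C.idl H i := by
  rw [Cv.idl, Cv.idl, Cv.idl, Ideal.span_mul_span]
  congr 1
  ext z
  simp only [List.mem_flatMap, List.mem_map, Set.mem_ofPred_eq, Set.mem_mul]
  constructor
  · rintro ⟨_, ⟨g, hg, h, hh, rfl⟩, rfl⟩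
    exact ⟨_, ⟨g, hg, rfl⟩, _, ⟨h, hh, rfl⟩, (map_mul _ _ _).symm⟩
  · rintro ⟨_, ⟨g, hg, rfl⟩, _, ⟨h, hh, rfl⟩, rfl⟩
    exact ⟨_, ⟨g, hg, h, hh, rfl⟩, map_mul _ _ _⟩

theorem Cv.idl_sg (C : Cv) (G : List C.RS) (k : ℕ) (i : C.Ω) :
    C.idl (G.map (C.sgS k)) i = (C.idl G i).map (C.sg k) := by
  rw [Cv.idl, Cv.idl, Ideal.map_span]
  congr 1
  ext z
  simp only [List.mem_map, Set.mem_ofPred_eq, Set.mem_image]
  constructor
  · rintro ⟨_, ⟨g, hg, rfl⟩, rfl⟩
    exact ⟨_, ⟨g, hg, rfl⟩, (C.evR_sg i k g).symm⟩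
  · rintro ⟨_, ⟨g, hg, rfl⟩, rfl⟩
    exact ⟨_, ⟨g, hg, rfl⟩, C.evR_sg i k g⟩

theorem Cv.idl_map_mul (C : Cv) (G : List C.RS) (h : C.RS) (i : C.Ω) :
    C.idl (G.map fun g => g * h) i = C.idl G i * Ideal.span {C.evR i h} := by
  have h1 := C.idl_mul G [h] i
  rw [show C.idl [h] i = Ideal.span {C.evR i h} by simp [Cv.idl, eq_comm]] at h1
  rw [← h1, List.map_eq_flatMap]
  rfl

theorem Cv.idl_flat (C : Cv) {c : ℕ} (G : Fin c → List C.RS) (i : C.Ω) :
    C.idl (List.ofFn G).flatten i = ⨆ k, C.idl (G k) i := by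
  simp only [Cv.idl]
  rw [← Ideal.span_iUnion]
  congr 1
  ext z
  simp only [List.mem_flatten, List.mem_ofFn, Set.mem_ofPred_eq, Set.mem_iUnion]
  constructor
  · rintro ⟨g, ⟨_, ⟨k, rfl⟩, hg⟩, rfl⟩
    exact ⟨k, g, hg, rfl⟩
  · rintro ⟨k, g, hg, rfl⟩
    exact ⟨g, ⟨_, ⟨k, rfl⟩, hg⟩, rfl⟩

theorem Cv.mem_idl (C : Cv) {G : List C.RS} {g : C.RS} (hg : g ∈ G) (i : C.Ω) : C.evR i g ∈ C.idl G i := by
  exact Ideal.subset_span ⟨g, hg, rfl⟩

theorem Cv.mem_spn (C : Cv) {G : List C.RS} {g : C.RS} (hg : g ∈ G) (i : C.Ω) : C.evR i g ∈ C.spn G i := by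
  exact Submodule.subset_span ⟨g, hg, rfl⟩

theorem Cv.mem_spn_iff (C : Cv) {G : List C.RS} {N : ℕ} (hN : G.length ≤ N) (i : C.Ω) (z : C.R) :
    z ∈ C.spn G i ↔ ∃ lam : Fin N → C.K, z = ∑ x, lam x • C.evR i (G.getD x.val 0) := by
  have h : C.spn G i = Submodule.span C.K (Set.range fun x : Fin N => C.evR i (G.getD x.val 0)) := by
    refine le_antisymm (Submodule.span_mono ?_) (Submodule.span_le.2 ?_)
    · rintro _ ⟨g, hg, rfl⟩
      obtain ⟨k, hk, rfl⟩ := List.getElem_of_mem hg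
      exact ⟨⟨k, hk.trans_le hN⟩, congrArg _ (List.getD_eq_getElem _ _ hk)⟩
    · rintro _ ⟨x, rfl⟩
      rcases lt_or_ge x.val G.length with h | h
      · exact C.mem_spn (List.getD_eq_getElem _ _ h ▸ List.getElem_mem h) i
      · simp only [List.getD_eq_default _ _ h, map_zero]
        exact Submodule.zero_mem _
  rw [h, Submodule.mem_span_range_iff_exists_fun]
  exact exists_congr fun _ => eq_comm

theorem a2b_mul (hC : Good C) {G H : ∀ a, List (C a).RS} (hG : DPT G) (hH : DPT H) :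
    DPT fun a => (G a).flatMap fun g => (H a).map fun h => g * h :=
  hG.flatMap (f := fun a g => (H a).map fun h => g * h) ((hH.comp pt_sigma_fst).map
    (f := fun (q : Σ a, (C a).RS) h => q.2 * h)
    (((hC.comp pt_sigma_fst).comp pt_sigma_fst).rs.dmul (dpt_sigma_snd.comp pt_sigma_fst) dpt_sigma_snd))

/-- `Solv.iter`: after `k` rounds the list represents the product of the first `k` ideals (`idl_mul`, `solv_meet`, `Rp.idl`, `nd_mul`) -/
theorem solv_prod (hC : Good C) {GG : ∀ a, List (List (C a).RS)} (hG : DPT GG) {M : α → ℕ} (hM : UN M) :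
    Solv fun a (L : List (C a).RS) => (C a).Bd L (M a) ∧ ∀ i, ((GG a).map fun G => (C a).idl G i).prod ≠ ⊥ →
      (C a).nd ((GG a).map fun G => (C a).idl G i).prod ≤ M a →
      (C a).Rp L (M a) i ((GG a).map fun G => (C a).idl G i).prod := by
  obtain ⟨g, hg, hsz⟩ := hC.size_bd hM.2
  refine (Solv.iter hG.length (fun a k (L : List (C a).RS) => (C a).Bd L (M a) ∧
    ∀ i, (((GG a).take k).map fun G => (C a).idl G i).prod ≠ ⊥ →
      (C a).nd (((GG a).take k).map fun G => (C a).idl G i).prod ≤ M a →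
      (C a).Rp L (M a) i (((GG a).take k).map fun G => (C a).idl G i).prod) hg
    ((solv_meet hC (hC.rs.one.cons DPT.nil) hM).mono fun a L h => ⟨h.1, fun i _ _ => ?_⟩)
    (fun a k L h => hsz a L h.1)
    ((solv_meet (hC.comp pt_sigma_fst) (a2b_mul (hC.comp pt_sigma_fst) dpt_sigma_snd.val.snd
      ((hG.comp pt_sigma_fst).get dpt_sigma_snd.val.fst)) (hM.comp pt_sigma_fst)).mono
      fun p L h => ⟨h.1, fun i h1 h2 => ?_⟩)).mono fun a L h => by rwa [List.take_length] at h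
  · simpa [Cv.idl] using h.2 i
  · obtain ⟨a, ⟨k, L'⟩, hb, hI⟩ := p
    simp only [List.take_succ_eq_append_getElem k.2, List.map_append, List.prod_append, List.map_singleton,
      List.prod_singleton] at h1 h2 ⊢
    rw [(C a).nd_mul (left_ne_zero_of_mul h1) (right_ne_zero_of_mul h1)] at h2
    have h3 := h.2 i
    have h4 := (Nat.le_add_right _ _).trans h2
    rwa [Cv.idl_mul, (hI i (left_ne_zero_of_mul h1) h4).idl (left_ne_zero_of_mul h1) h4] at h3

theorem solv_NI (hC : Good C) {G : ∀ a, List (C a).RS} (hG : DPT G) {m n M : α → ℕ} (hm : UN m) (hn : UN n) (hM : UN M) :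
    Solv fun a (L : List (C a).RS) => (C a).Bd L (M a) ∧ ∀ i, (C a).idl (G a) i ≠ ⊥ →
      (n a - m a) * (C a).nd ((C a).idl (G a) i) ≤ M a →
      (C a).Rp L (M a) i ((C a).NI ((C a).idl (G a) i) (m a) (n a)) := by
  refine (solv_prod hC (GG := fun a => (List.range (n a - m a)).map fun k => (G a).map ((C a).sgS (m a + k)))
    (DPT.rangeMap (hn.sub hm.1) ((hG.comp PT.fst').map (f := fun p z => (C p.1).sgS (m p.1 + p.2) z)
      (((hC.comp PT.fst').comp pt_sigma_fst).dsg (((hm.1.comp PT.fst').nat_add PT.snd').comp pt_sigma_fst)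
        dpt_sigma_snd))) hM).mono fun a L h => ⟨h.1, fun i h1 h2 => ?_⟩
  have e : (((List.range (n a - m a)).map fun k => (G a).map ((C a).sgS (m a + k))).map fun G => (C a).idl G i).prod =
      (C a).NI ((C a).idl (G a) i) (m a) (n a) := by
    rw [Cv.NI, Finset.prod_Ico_eq_prod_range, List.map_map]
    simp only [Function.comp_def, Cv.idl_sg]
    rfl
  have h3 := h.2 i
  rw [e, (C a).nd_NI h1] at h3
  exact h3 ((C a).NI_ne_bot h1 _ _) h2

end Crest.Agent.R312
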