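import Crest.Agent.R312.GDefs

/-!
# R312/G1: calculus in the class group.
-/

set_option autoImplicit false

open Polynomial Finset Crest.Agent.Lib.PolyTime

noncomputable section

namespace Crest.Agent.R312

namespace Cv

variable (C : Cv)

theorem cl_mul {I J : Ideal C.R} (hI : I ≠ ⊥) (hJ : J ≠ ⊥) : C.cl (I * J) = C.cl I * C.cl J := by
  rw [cl, cl, cl, dif_neg hI, dif_neg hJ, dif_neg (show I * J ≠ ⊥ from mul_ne_zero hI hJ), ← map_mul]
  rfl

theorem cl_top : C.cl ⊤ = 1 := by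
  rw [cl, dif_neg top_ne_bot]
  exact (ClassGroup.mk0_eq_one_iff _).2 top_isPrincipal

theorem cl_span (z : C.R) : C.cl (Ideal.span {z}) = 1 := by
  unfold cl
  split_ifs
  exacts [rfl, (ClassGroup.mk0_eq_one_iff _).2 ⟨z, rfl⟩]

theorem cl_eq_one {I : Ideal C.R} (hI : I ≠ ⊥) : C.cl I = 1 ↔ ∃ z, I = Ideal.span {z} := by
  rw [cl, dif_neg hI, ClassGroup.mk0_eq_one_iff]
  exact ⟨fun h => h.principal, fun h => ⟨h⟩⟩

theorem cl_surj (x : ClassGroup C.R) : ∃ I, I ≠ ⊥ ∧ C.cl I = x := by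
  obtain ⟨I, rfl⟩ := ClassGroup.mk0_surjective x
  exact ⟨I, nonZeroDivisors.ne_zero I.2, dif_neg (nonZeroDivisors.ne_zero I.2)⟩

theorem cl_pow {I : Ideal C.R} (hI : I ≠ ⊥) (k : ℕ) : C.cl (I ^ k) = C.cl I ^ k := by
  induction k with
  | zero => simpa using C.cl_top
  | succ k ih => rw [pow_succ, C.cl_mul (pow_ne_zero k hI) hI, ih, pow_succ]

theorem cl_prod {β : Type} (s : Finset β) {I : β → Ideal C.R} (h : ∀ b ∈ s, I b ≠ ⊥) :
    C.cl (∏ b ∈ s, I b) = ∏ b ∈ s, C.cl (I b) := by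
  induction s using Finset.cons_induction with
  | empty => simpa using C.cl_top
  | cons a s ha ih =>
    have h' : ∀ b ∈ s, I b ≠ ⊥ := fun b hb => h b (mem_cons_of_mem hb)
    rw [prod_cons, prod_cons, C.cl_mul (h a (mem_cons_self _ _)) (prod_ne_zero_iff.2 h'), ih h']

theorem cl_col {h : C.R} {I : Ideal C.R} (hI : h ∈ I) (h0 : h ≠ 0) :
    C.col h I ≠ ⊥ ∧ C.cl (C.col h I) * C.cl I = 1 := by
  have e := C.col_mul hI h0
  have h1 : C.col h I * I ≠ 0 := e ▸ Ideal.span_singleton_eq_bot.not.2 h0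
  exact ⟨left_ne_zero_of_mul h1, by rw [← C.cl_mul (left_ne_zero_of_mul h1) (right_ne_zero_of_mul h1), e, cl_span]⟩

theorem lam_apply (x : ClassGroup C.R) : C.lam x = x / C.sc x := by
  rfl

theorem lam_fc (c : C.Ω → ZMod C.q) : C.lam (C.fc c) = 1 := by
  simp [fc, lam_apply, sc_cl, map_sg_Pj]

theorem g1a_mod (j : C.Ω) (k : ℕ) : C.cl (C.Pj j) ^ (k % C.q) = C.cl (C.Pj j) ^ k :=
  (pow_eq_pow_mod k (by rw [← C.cl_pow (C.Pj_ne_bot j), Pj_pow, cl_span])).symm

theorem fc_add (c d : C.Ω → ZMod C.q) : C.fc (c + d) = C.fc c * C.fc d := by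
  rw [fc, fc, fc, ← prod_mul_distrib]
  exact prod_congr rfl fun j _ => by rw [Pi.add_apply, ZMod.val_add, C.g1a_mod, pow_add]

theorem fc_zero : C.fc 0 = 1 := by
  simp [fc]

theorem fc_smul (x : ZMod C.q) (c : C.Ω → ZMod C.q) : C.fc (x • c) = C.fc c ^ x.val := by
  rw [fc, fc, ← prod_pow]
  exact prod_congr rfl fun j _ => by rw [Pi.smul_apply, smul_eq_mul, ZMod.val_mul, C.g1a_mod, mul_comm, pow_mul]

theorem fc_eq_one {c : C.Ω → ZMod C.q} : C.fc c = 1 ↔ ∃ z, ∏ j, C.Pj j ^ (c j).val = Ideal.span {z} := by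
  have h : ∀ j ∈ univ, C.Pj j ^ (c j).val ≠ ⊥ := fun j _ => pow_ne_zero _ (C.Pj_ne_bot j)
  rw [← C.cl_eq_one (prod_ne_zero_iff.2 h), C.cl_prod _ h, fc]
  simp only [C.cl_pow (C.Pj_ne_bot _)]

theorem tab_add (E : List C.S2) (s t : Fin E.length → ZMod C.q) (i : C.Ω) :
    C.tab E (s + t) i = C.tab E s i + C.tab E t i := by
  funext j
  simp only [tab, Pi.add_apply, ← Finset.sum_add_distrib]
  refine Finset.sum_congr rfl fun b _ => ?_
  split_ifs <;> simp

theorem tab_smul (E : List C.S2) (x : ZMod C.q) (s : Fin E.length → ZMod C.q) (i : C.Ω) :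
    C.tab E (x • s) i = x • C.tab E s i := by
  funext j
  simp only [tab, Pi.smul_apply, smul_eq_mul, Finset.mul_sum]
  refine Finset.sum_congr rfl fun b _ => ?_
  split_ifs <;> simp

theorem IsPart.tab_eq {C : Cv} {E : List C.S2} (hE : C.IsPart E) (s : Fin E.length → ZMod C.q) {b : Fin E.length}
    {i j : C.Ω} (h : E.get b j i = 1) : C.tab E s i j = s b := by
  have hji : j ≠ i := by
    rintro rfl
    exact zero_ne_one ((hE.diag _ (List.get_mem E b) j).symm.trans h)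
  rw [tab, Finset.sum_eq_single b, if_pos h]
  · exact fun b' _ hb => if_neg fun h' => hb ((hE.uniq j i hji).unique h' h)
  · simp

theorem IsPart.tab_diag {C : Cv} {E : List C.S2} (hE : C.IsPart E) (s : Fin E.length → ZMod C.q) (i : C.Ω) :
    C.tab E s i i = 0 := by
  exact Finset.sum_eq_zero fun b _ => if_neg fun h =>
    zero_ne_one ((hE.diag _ (List.get_mem E b) i).symm.trans h)

theorem IsPart.exists_one {C : Cv} {E : List C.S2} (hE : C.IsPart E) (b : Fin E.length) : ∃ i j, E.get b j i = 1 := by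
  by_contra h
  push Not at h
  exact hE.ne _ (List.get_mem E b) (funext fun j => funext fun i =>
    (hE.idem _ (List.get_mem E b) j i).resolve_right (h i j))

theorem IsPart.length_le {C : Cv} {E : List C.S2} (hE : C.IsPart E) : E.length ≤ C.n * C.n := by
  choose i j h using hE.exists_one
  have hi : Function.Injective fun b => (i b, j b) := fun b b' e => by
    obtain ⟨e1, e2⟩ := Prod.ext_iff.1 e
    have hji : j b ≠ i b := fun e3 =>
      zero_ne_one ((hE.diag _ (List.get_mem E b) (i b)).symm.trans (by simpa [e3] using h b))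
    refine (hE.uniq _ _ hji).unique (h b) ?_
    simp only at e1 e2
    rw [e1, e2]
    exact h b'
  simpa [C.card_Ω] using Fintype.card_le_of_injective _ hi

theorem g1h_Nz (z : C.R) (a b : ℕ) : C.sg 1 (C.Nz z a b) = C.Nz z (a + 1) (b + 1) := by
  rw [Nz, Nz, map_prod, ← Finset.prod_Ico_add']
  exact Finset.prod_congr rfl fun k _ => by rw [← C.sg_add, add_comm]

theorem g1h_step (I : Ideal C.R) (hp hm : C.R) {k : ℕ} (hk : k < C.q) :
    I * Ideal.span {hm} * (C.NI I 0 k * Ideal.span {C.Nz hm 0 k * C.Nz hp k C.q}).map (C.sg 1) =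
      Ideal.span {hp} * (C.NI I 0 (k + 1) * Ideal.span {C.Nz hm 0 (k + 1) * C.Nz hp (k + 1) C.q}) := by
  have e1 : C.NI I 0 (k + 1) = I * C.NI I (0 + 1) (k + 1) := by
    rw [NI, NI, Finset.prod_eq_prod_Ico_succ_bot (Nat.succ_pos k)]
    congr 1
    have : C.sg 0 = AlgHom.id _ _ := AlgHom.ext C.sg_zero
    rw [this]
    exact Ideal.map_id I
  have e2 : C.Nz hm 0 (k + 1) = hm * C.Nz hm (0 + 1) (k + 1) := by
    rw [Nz, Nz, Finset.prod_eq_prod_Ico_succ_bot (Nat.succ_pos k), C.sg_zero]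
  have e3 : C.Nz hp (k + 1) (C.q + 1) = C.Nz hp (k + 1) C.q * hp := by
    rw [Nz, Nz, Finset.prod_Ico_succ_top hk, C.sg_q]
  rw [Ideal.map_mul, C.map_NI, Ideal.map_span, Set.image_singleton, map_mul, g1h_Nz, g1h_Nz, e1, e2, e3]
  simp only [← Ideal.span_singleton_mul_span_singleton]
  ring

/-- Hilbert 90 for ideals: with `J = ⨆_{k<q} NI I 0 k * (Nz h⁻ 0 k * Nz h⁺ k q)` one has `I * (h⁻) * σ J = (h⁺) * J`
(term `k` goes to term `k + 1`, the last term to the first) -/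
theorem h90 {I : Ideal C.R} (hI : I ≠ ⊥) {u : C.K[X]} (hu : C.IsN I u) {hp hm : C.R} (h1 : hp ≠ 0) (h2 : hm ≠ 0)
    (h : C.Nm hp = C.ι u * C.Nm hm) :
    (⨆ k : Fin C.q, C.NI I 0 k.val * Ideal.span {C.Nz hm 0 k.val * C.Nz hp k.val C.q}) ≠ ⊥ ∧
      C.lam (C.cl (⨆ k : Fin C.q, C.NI I 0 k.val * Ideal.span {C.Nz hm 0 k.val * C.Nz hp k.val C.q})) = C.cl I := by
  set T : ℕ → Ideal C.R := fun k => C.NI I 0 k * Ideal.span {C.Nz hm 0 k * C.Nz hp k C.q} with hT
  change (⨆ k : Fin C.q, T k) ≠ ⊥ ∧ C.lam (C.cl (⨆ k : Fin C.q, T k)) = C.cl I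
  have h0 : T 0 = Ideal.span {C.Nm hp} := by simp [hT, NI, Nz, Nm]
  have hq : T C.q = T 0 := by
    rw [h0, h, ← Ideal.span_singleton_mul_span_singleton, ← hu]
    simp [hT, Nz, Nm]
  have hJ : (⨆ k : Fin C.q, T k) ≠ ⊥ := fun e => by
    have := le_iSup (fun k : Fin C.q => T k) ⟨0, C.hq.pos⟩
    rw [e, le_bot_iff, h0, Ideal.span_singleton_eq_bot] at this
    exact C.Nz_ne_zero h1 0 C.q this
  have hs : (⨆ k : Fin C.q, T (k + 1)) = ⨆ k : Fin C.q, T k := by
    refine le_antisymm (iSup_le fun k => ?_) (iSup_le fun k => ?_)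
    · rcases Nat.lt_or_eq_of_le (Nat.succ_le_of_lt k.2) with h3 | h3
      · exact le_iSup (fun k : Fin C.q => T k) ⟨k + 1, h3⟩
      · rw [show (k : ℕ) + 1 = C.q from h3, hq]
        exact le_iSup (fun k : Fin C.q => T k) ⟨0, C.hq.pos⟩
    · obtain ⟨_ | k, hk⟩ := k
      · refine le_trans (le_of_eq ?_) (le_iSup (fun k : Fin C.q => T (k + 1)) ⟨C.q - 1, by omega⟩)
        rw [Nat.sub_add_cancel hk, hq]
      · exact le_iSup (fun k : Fin C.q => T (k + 1)) ⟨k, by omega⟩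
  have key : I * Ideal.span {hm} * (⨆ k : Fin C.q, T k).map (C.sg 1) = Ideal.span {hp} * ⨆ k : Fin C.q, T k := by
    conv_rhs => rw [← hs]
    rw [Ideal.map_iSup, Ideal.mul_iSup, Ideal.mul_iSup]
    exact iSup_congr fun k => C.g1h_step I hp hm k.2
  refine ⟨hJ, ?_⟩
  have hm0 : Ideal.span {hm} ≠ ⊥ := by simpa using h2
  have hp0 : Ideal.span {hp} ≠ ⊥ := by simpa using h1
  have hσ : (⨆ k : Fin C.q, T k).map (C.sg 1) ≠ ⊥ := fun e => by
    rw [e, Ideal.mul_bot] at key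
    exact mul_ne_zero hp0 hJ key.symm
  have := congrArg C.cl key
  rw [C.cl_mul (mul_ne_zero hI hm0) hσ, C.cl_mul hI hm0, C.cl_mul hp0 hJ, C.cl_span, C.cl_span, mul_one, one_mul,
    ← C.sc_cl] at this
  rw [C.lam_apply, div_eq_iff_eq_mul, this]

theorem g1h_iter (m : ℕ) : ∃ φ : ClassGroup C.R →* ClassGroup C.R, ∀ x, C.lam^[m] x = φ x := by
  induction m with
  | zero => exact ⟨MonoidHom.id _, fun _ => rfl⟩
  | succ m ih =>
    obtain ⟨φ, h⟩ := ih
    exact ⟨φ.comp C.lam, fun x => h _⟩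

theorem g1h_fc_sum {β : Type} (s : Finset β) (c : β → C.Ω → ZMod C.q) :
    C.fc (∑ b ∈ s, c b) = ∏ b ∈ s, C.fc (c b) := by
  classical
  induction s using Finset.induction_on with
  | empty => simpa using C.fc_zero
  | insert b s hb ih => rw [Finset.sum_insert hb, Finset.prod_insert hb, C.fc_add, ih]

open Classical in
/-- the Smith step in the class group -/
theorem smith {t : ℕ} (g : Fin t → ClassGroup C.R) (e : Fin t → ℕ) (s : Fin t → C.Ω → ZMod C.q)
    (hs : ∀ b, C.lam^[e b] (g b) = C.fc (s b)) (c : Fin t → ZMod C.q) (m : ℕ) (hm : ∀ b, c b ≠ 0 → e b ≤ m)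
    {x : ClassGroup C.R} (hx : C.lam x = ∏ b, g b ^ (c b).val) :
    C.lam^[m + 1] x = C.fc (∑ b, (if e b = m then c b else 0) • s b) := by
  obtain ⟨φ, hφ⟩ := C.g1h_iter m
  rw [Function.iterate_succ_apply, hx, hφ, map_prod, g1h_fc_sum]
  refine Finset.prod_congr rfl fun b _ => ?_
  rw [map_pow, ← hφ, C.fc_smul]
  split_ifs with h
  · rw [← h, hs]
  · rw [ZMod.val_zero, pow_zero]
    by_cases h0 : c b = 0
    · rw [h0, ZMod.val_zero, pow_zero]
    · obtain ⟨d, rfl⟩ := Nat.exists_eq_add_of_lt (lt_of_le_of_ne (hm b h0) h)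
      obtain ⟨ψ, hψ⟩ := C.g1h_iter d
      rw [show e b + d + 1 = d + 1 + e b by omega, Function.iterate_add_apply, hs, Function.iterate_succ_apply,
        C.lam_fc, hψ, map_one, one_pow]

end Cv

end Crest.Agent.R312
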