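import Crest.Agent.R312.A2
import Crest.Agent.R312.G1

/-!
# R312/A4: reduction of ideals and the norm.
-/

set_option autoImplicit false

open Polynomial Finset Crest.Agent.Lib.PolyTime

noncomputable section

namespace Crest.Agent.R312

variable {α α' : Type} [Enc α] [Enc α'] {C : α → Cv}

theorem a4r_spn (C : Cv) {L : List C.RS} {i : C.Ω} (h : ∀ v ∈ L, C.evR i v = 0) {z : C.R} (hz : z ∈ C.spn L i) :
    z = 0 := by
  refine (Submodule.eq_bot_iff _).1 (Submodule.span_eq_bot.2 ?_) z hz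
  rintro _ ⟨v, hv, rfl⟩
  exact h v hv

/-- stages `solv_meet G m`, `m ≤ D` (`exists_V`, `Solv.pi`), `h` = first nonzero (`solv_first`), `solv_col h G (n q)`; `nd_col_le`, `cl_col`, `Rp.idl` -/
theorem solv_red1 (hC : Good C) {G : ∀ a, List (C a).RS} (hG : DPT G) :
    Solv fun a (L : List (C a).RS) => (C a).Bd L ((C a).n * (C a).q) ∧ ∀ i, (C a).idl (G a) i ≠ ⊥ →
      (C a).idl L i ≠ ⊥ ∧ (C a).nd ((C a).idl L i) ≤ (C a).n * (C a).q ∧
        (C a).cl ((C a).idl L i) * (C a).cl ((C a).idl (G a) i) = 1 := by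
  obtain ⟨D, hD, HD⟩ := hC.exists_V hG
  have hn := hD.add (UN.const 1)
  obtain ⟨L, hL, H⟩ := Solv.pi hn (β := fun a => List (C a).RS)
    (R := fun a m L => ∀ i, (C a).Rp L m i ((C a).idl (G a) i))
    ((solv_meet (hC.comp pt_sigma_fst) (hG.comp pt_sigma_fst) hn.fin).mono fun _ _ h => h.2)
  obtain ⟨h, hh, Hh⟩ := solv_first hC hn hL
  refine (solv_col hC hh hG (hC.n.mul hC.q)).mono fun a L' r => ⟨r.1, fun i hi => ?_⟩
  obtain ⟨m, h1, ⟨v, h2, h3⟩, h0⟩ := Hh a i (by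
    by_contra e
    refine hi (Ideal.span_eq_bot.2 ?_)
    rintro _ ⟨g, hg, rfl⟩
    exact a4r_spn (C a) (fun v hv => by_contra fun h0 => e ⟨Fin.last _, v, hv, h0⟩)
      ((H a (Fin.last _) i _).2 ⟨(C a).mem_idl hg i, HD a g hg i⟩))
  obtain ⟨h4, h5⟩ := (H a m i _).1 (h3 ▸ (C a).mem_spn h2 i)
  have h6 := (C a).nd_col_le h4 h0 h5 fun m' hm z z1 z2 =>
    a4r_spn (C a) (h1 ⟨m', hm.trans m.2⟩ hm) ((H a ⟨m', hm.trans m.2⟩ i z).2 ⟨z1, z2⟩)
  obtain ⟨h7, h8⟩ := (C a).cl_col h4 h0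
  rw [(r.2 i h0).idl h7 h6]
  exact ⟨h7, h6, h8⟩

/-- the indicator of `g ∉ P_j I`: `L = solv_col g G M'` with `M' ≥ nd (g)` (`nd_span_le`), `col_ev`, `ev_eq`, `at2 (coS z 0)`; multiply by the indicator of `g ≠ 0` -/
theorem Good.ind_loc (hC : Good C) {g : ∀ a, (C a).RS} (hg : DPT g) {G : ∀ a, List (C a).RS} (hG : DPT G)
    (h : ∀ a, g a ∈ G a) : DPT fun a => (C a).ind2 fun j i => (C a).evR i (g a) ∉ (C a).Pj j * (C a).idl (G a) i := by
  obtain ⟨D, hD, hV⟩ := hC.exists_V hG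
  obtain ⟨L, hL, hLs⟩ := solv_col hC hg hG (M := fun a => (C a).q * (D a + (C a).n)) (hC.q.mul (hD.add hC.n))
  have hC' : Good fun p : Σ a, Fin (L a).length => C p.1 := hC.comp pt_sigma_fst
  have h1 : DPT fun a => (C a).ind2 fun j i => ∀ k : Fin (L a).length,
      (C a).at2 ((C a).coS ((L a).get k) 0) j i = (0 : (C a).S2) j i :=
    hC.ind2_all (En.fin hL.length)
      (hC'.ind2_eq (hC'.dat2 (hC'.dco ((hL.comp pt_sigma_fst).get dpt_sigma_snd) (UN.const 0).1)) hC'.s2.zero)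
  have h2 : DPT fun a => (C a).ind2 fun _ i => (C a).evR i (g a) = 0 := (hC.d12 (hC.ind_R hg)).of_eq fun a => rfl
  refine (hC.ind2_and (hC.ind2_not h2) (hC.ind2_not h1)).of_eq fun a => ?_
  congr 1
  funext j i
  have hI := (C a).mem_idl (h a) i
  have hev : ∀ z, (C a).at2 ((C a).coS z 0) j i = (C a).ev j ((C a).evR i z) := fun z => by
    rw [Cv.at2_apply, Cv.ev_eq, Cv.co_evR]
  simp only [hev, Pi.zero_apply, not_forall]
  refine propext ⟨fun ⟨h0, k, hk⟩ => ((C a).col_ev hI h0 j).1 ⟨_, ?_, hk⟩, fun hn => ?_⟩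
  · exact ((((hLs a).2 i h0) _).1 ((C a).mem_spn (List.get_mem _ k) i)).1
  · have h0 : (C a).evR i (g a) ≠ 0 := fun e => hn (e ▸ Ideal.zero_mem _)
    refine ⟨h0, ?_⟩
    obtain ⟨z, hz, hz0⟩ := ((C a).col_ev hI h0 j).2 hn
    have hc := ((C a).cl_col hI h0).1
    have hI0 : (C a).idl (G a) i ≠ ⊥ := fun e => h0 (by rwa [e, Ideal.mem_bot] at hI)
    have hnd := (C a).nd_mul hc hI0
    rw [(C a).col_mul hI h0] at hnd
    have hle := (C a).nd_span_le h0 (hV a _ (h a) i)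
    rw [← ((hLs a).2 i h0).idl hc (by omega)] at hz
    by_contra hall
    refine hz0 ((C a).mem_Pj.1 (Ideal.span_le.2 ?_ hz))
    rintro _ ⟨w, hw, rfl⟩
    obtain ⟨k, rfl⟩ := List.get_of_mem hw
    exact (C a).mem_Pj.2 (by_contra fun e => hall ⟨k, e⟩)

theorem Cv.a4l_spec (C : Cv) (G : List C.RS) (i j : C.Ω) (hI : C.idl G i ≠ ⊥) (E : List C.S2)
    (hE : E = List.ofFn fun k : Fin G.length => C.ind2 fun j i => C.evR i (G.get k) ∉ C.Pj j * C.idl G i) :
    ∑ k : Fin G.length, C.ι (C.itp fun j => fw E k.val j i) * C.evR i (G.get k) ∉ C.Pj j * C.idl G i := by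
  let φ : C.S2 →+* C.K := (Pi.evalRingHom (fun _ => C.K) i).comp (Pi.evalRingHom (fun _ => C.S1) j)
  have hφ : ∀ k, fw E k j i = fw (E.map φ) k := fun k => map_fw φ E k
  have hlen : (E.map φ).length = G.length := by simp [hE]
  have hget : ∀ k : Fin G.length, (E.map φ).getD k.val 0 = 1 ↔ C.evR i (G.get k) ∉ C.Pj j * C.idl G i := fun k => by
    rw [List.getD_eq_getElem _ _ (by rw [hlen]; exact k.2)]
    simp [hE, φ, Cv.ind2]
  have h01 : ∀ x ∈ E.map φ, x = 0 ∨ x = 1 := by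
    intro x hx
    obtain ⟨e, he, rfl⟩ := List.mem_map.1 hx
    rw [hE, List.mem_ofFn] at he
    obtain ⟨k, rfl⟩ := he
    by_cases hk : C.evR i (G.get k) ∈ C.Pj j * C.idl G i <;> simp [φ, Cv.ind2, -List.get_eq_getElem, hk]
  rcases fw_spec _ h01 with ⟨h0, -⟩ | ⟨k₀, hk₀, h1, -, hw⟩
  · have hle : C.idl G i ≤ C.Pj j * C.idl G i := by
      refine Ideal.span_le.2 ?_
      rintro _ ⟨w, hw, rfl⟩
      obtain ⟨k, rfl⟩ := List.get_of_mem hw
      by_contra hn
      have := (hget k).2 hn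
      rw [List.getD_eq_getElem _ _ (by rw [hlen]; exact k.2), h0 _ (List.getElem_mem _)] at this
      exact zero_ne_one this
    have hd : C.Pj j * C.idl G i ∣ 1 * C.idl G i := by rw [one_mul]; exact Ideal.dvd_iff_le.2 hle
    exact absurd (Ideal.isUnit_iff.1 (isUnit_of_dvd_one ((mul_dvd_mul_iff_right hI).1 hd))) (C.Pj_max j).ne_top
  · intro hmem
    rw [hlen] at hk₀
    refine (hget ⟨k₀, hk₀⟩).1 h1 ?_
    have hs : ∑ k : Fin G.length, (C.ι (C.itp fun j => fw E k.val j i) - if k = ⟨k₀, hk₀⟩ then 1 else 0) *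
        C.evR i (G.get k) ∈ C.Pj j * C.idl G i := by
      refine Ideal.sum_mem _ fun k _ => Ideal.mul_mem_mul (C.mem_Pj.2 ?_) (C.mem_idl (List.get_mem _ k) i)
      have := C.eval_itp (fun j => fw E k.val j i) j
      rw [Algebra.algebraMap_self, RingHom.id_apply] at this
      rw [map_sub, Cv.ev_ι, this, hφ, hw]
      simp only [Fin.ext_iff]
      split_ifs <;> simp
    simp only [sub_mul, sum_sub_distrib, ite_mul, one_mul, zero_mul, sum_ite_eq', mem_univ, if_true] at hs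
    simpa using Ideal.sub_mem _ hmem hs

/-- `h = ∑_k itp (fw ε k) * g_k` with `ε_k` from `ind_loc`; some generator lies outside `P_j I` since `P_j I ≠ I` -/
theorem solv_loc (hC : Good C) {G : ∀ a, List (C a).RS} (hG : DPT G) {M : α → ℕ}
    (hM : ∀ a, ∀ g ∈ G a, ∀ i, (C a).evR i g ∈ (C a).V (M a)) :
    Solv fun a (h : (C a).RS) => ∀ i, (C a).evR i h ∈ (C a).idl (G a) i ∧ (C a).evR i h ∈ (C a).V (M a + (C a).n) ∧
      ((C a).idl (G a) i ≠ ⊥ → ∀ j, (C a).evR i h ∉ (C a).Pj j * (C a).idl (G a) i) := by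
  let E : ∀ a, List (C a).S2 := fun a => List.ofFn fun k : Fin (G a).length =>
    (C a).ind2 fun j i => (C a).evR i ((G a).get k) ∉ (C a).Pj j * (C a).idl (G a) i
  have hC' : Good fun p : Σ a, Fin (G a).length => C p.1 := hC.comp pt_sigma_fst
  have hg : DPT fun p : Σ a, Fin (G a).length => (G p.1).get p.2 := (hG.comp pt_sigma_fst).get dpt_sigma_snd
  have hE : DPT E := DPT.ofFn.1 (DPT.pi hG.length (hC'.ind_loc hg (hG.comp pt_sigma_fst) fun p => List.get_mem _ _))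
  have hh : DPT fun a => ∑ k : Fin (G a).length, (C a).ιS ((C a).itp (fw (E a) k.val)) * (G a).get k :=
    hC.rs.dsum (En.fin hG.length)
      (hC'.rs.dmul (hC'.dι (dpt_itp (hC'.s2.dfw (hE.comp pt_sigma_fst) (UN.fin hG.length).1))) hg)
  refine Solv.of_dpt hh fun a i => ?_
  simp only [map_sum, map_mul, Cv.evR_ι, Cv.evP_itp]
  refine ⟨Ideal.sum_mem _ fun k _ => Ideal.mul_mem_left _ _ ((C a).mem_idl (List.get_mem _ k) i),
    Submodule.sum_mem _ fun k _ => ?_, fun hI j => (C a).a4l_spec (G a) i j hI (E a) rfl⟩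
  rw [add_comm]
  exact (C a).ι_mul_mem_V ((C a).natDegree_itp_lt _).le (hM a _ (List.get_mem _ k) i)

/-- `solv_red1`, `solv_loc`, `solv_col h L gm`; `col_ev`, `cop_iff`, `nd (col) ≤ nd (h) ≤ q (n q + n + n)` -/
theorem solv_red (hC : Good C) {G : ∀ a, List (C a).RS} (hG : DPT G) :
    Solv fun a (L : List (C a).RS) => (C a).Bd L (C a).gm ∧ ∀ i, (C a).idl (G a) i ≠ ⊥ →
      (C a).Red ((C a).idl L i) ∧ (C a).cl ((C a).idl L i) = (C a).cl ((C a).idl (G a) i) := by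
  obtain ⟨L, hL, H⟩ := solv_red1 hC hG
  obtain ⟨h, hh, Hh⟩ := solv_loc hC hL fun a => (H a).1.2
  refine (solv_col hC hh hL hC.gm).mono fun a L' r => ⟨r.1, fun i hi => ?_⟩
  obtain ⟨h1, -, h2⟩ := (H a).2 i hi
  obtain ⟨h3, h4, h5⟩ := Hh a i
  have h0 : (C a).evR i (h a) ≠ 0 := fun e => h5 h1 i (e ▸ Submodule.zero_mem _)
  obtain ⟨h7, h8⟩ := (C a).cl_col h3 h0
  have h6 := (C a).nd_span_le h0 h4
  rw [← (C a).col_mul h3 h0, (C a).nd_mul h7 h1] at h6
  have h9 : _ ≤ (C a).gm := (Nat.le_add_right _ _).trans (h6.trans (Nat.mul_le_mul_left _ (by omega)))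
  rw [(r.2 i h0).idl h7 h9]
  exact ⟨⟨h7, (C a).cop_iff.2 fun j => ((C a).col_ev h3 h0 j).2 (h5 h1 j), h9⟩,
    mul_right_cancel (h8.trans (h2.symm.trans (mul_comm _ _)))⟩

theorem a4l_sum (C : Cv) {m : ℕ} (c : Fin (m + 1) → C.K) (i : C.Ω) :
    ∑ t, c t • C.evR i (C.mono t.val 0) = C.ι (∑ t, Polynomial.C (c t) * X ^ t.val) := by
  simp only [C.evR_mono, pow_zero, mul_one, Cv.ι, map_sum, map_mul]
  exact Finset.sum_congr rfl fun t _ => (C.ι_C _ _).symm

theorem a4l_unit {ι β : α → Type} [∀ a, Enc (ι a)] [∀ a, Enc (β a)] {A : ∀ a, ι a → β a}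
    (h : DPT fun p : Σ a, ι a => A p.1 p.2) : DPT fun p : Σ a, Unit × ι a => A p.1 p.2.2 := by
  have h1 : DPT fun p : Σ a, Unit × ι a => p.2.2 := (dpt_sigma_snd (β := fun a => Unit × ι a)).snd
  exact h.comp (pt_sigma_mk (β := ι) (pt_sigma_fst (β := fun a => Unit × ι a)) h1)

/-- the polynomials of degree `≤ m` in the span of a list -/
theorem a4l_stage (hC : Good C) {L : ∀ a, List (C a).RS} (hL : DPT L) {m : α → ℕ} (hm : UN m) :
    Solv fun a (L' : List (C a).RS) => ∀ i z, z ∈ (C a).spn L' i ↔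
      z ∈ (C a).spn (L a) i ∧ ∃ g : (C a).K[X], g.natDegree ≤ m a ∧ z = (C a).ι g := by
  have hm1 := hm.add (UN.const 1)
  have hmono : DPT fun p : Σ a, Fin (m a + 1) => (C p.1).mono p.2.val 0 :=
    (hC.comp pt_sigma_fst).dmono (UN.fin hm1) (UN.const 0)
  have hA : DPT fun p : Σ a, Fin (L a).length ⊕ Fin (m a + 1) =>
      (p.2.elim (fun k => (L p.1).getD k.val 0) (fun t => -(C p.1).mono t.val 0) : (C p.1).RS) :=
    DPT.sumCases ((hL.comp pt_sigma_fst).getD (UN.fin hL.length).1 (hC.rs.zero.comp pt_sigma_fst))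
      ((hC.comp pt_sigma_fst).rs.dneg hmono)
  have hB : DPT fun p : Σ a, Fin (L a).length ⊕ Fin (m a + 1) =>
      (p.2.elim (fun _ => 0) (fun t => (C p.1).mono t.val 0) : (C p.1).RS) :=
    DPT.sumCases (hC.rs.zero.comp pt_sigma_fst) hmono
  have hA' := a4l_unit (ι := fun a => Fin (L a).length ⊕ Fin (m a + 1)) (β := fun a => (C a).RS)
    (A := fun a x => x.elim (fun k => (L a).getD k.val 0) (fun t => -(C a).mono t.val 0)) (by exact hA)
  have H := solv_sol1 hC (ι := fun a => Fin (L a).length ⊕ Fin (m a + 1)) (κ := fun _ => Unit)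
    ((En.fin hL.length).sum (En.fin hm1)) En.unit
    (A := fun a _ x => x.elim (fun k => (L a).getD k.val 0) (fun t => -(C a).mono t.val 0)) (by exact hA')
    (m := fun a x => x.elim (fun _ => 0) (fun t => (C a).mono t.val 0)) (by exact hB)
  refine H.mono fun a L' h i z => ?_
  rw [h i z, (C a).mem_spn_iff le_rfl]
  simp only [Fintype.sum_sum_type, Sum.elim_inl, Sum.elim_inr, map_zero, smul_zero, Finset.sum_const_zero,
    zero_add, map_neg, smul_neg, Finset.sum_neg_distrib, a4l_sum, forall_const, add_neg_eq_zero]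
  constructor
  · rintro ⟨lam, h1, rfl⟩
    refine ⟨⟨_, h1.symm⟩, _, ?_, rfl⟩
    exact natDegree_sum_le_of_forall_le _ _ fun t _ => (natDegree_C_mul_X_pow_le _ _).trans (Nat.le_of_lt_succ t.2)
  · rintro ⟨⟨lam, h1⟩, g, hg, rfl⟩
    have e : g = ∑ t : Fin (m a + 1), Polynomial.C (g.coeff t.val) * X ^ t.val := by
      rw [Fin.sum_univ_eq_sum_range (fun t => Polynomial.C (g.coeff t) * X ^ t)]
      exact g.as_sum_range_C_mul_X_pow' (Nat.lt_succ_of_le hg)
    refine ⟨Sum.elim lam fun t => g.coeff t.val, ?_, ?_⟩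
    · simp only [Sum.elim_inl, Sum.elim_inr]
      rw [← e, h1]
    · simp only [Sum.elim_inr]
      rw [← e]

theorem a4l_co (C : Cv) (g : C.K[X]) : C.co (C.ι g) 0 = g := by
  have h := C.co_ι_mul g (C.y ^ 0) 0
  rwa [C.co_y_pow C.hq.pos, if_pos rfl, pow_zero, mul_one, mul_one] at h

theorem a4l_isN {C : Cv} {I : Ideal C.R} {u g : C.K[X]} (hu : C.IsN I u) (h : Associated u g) : C.IsN I g :=
  hu.trans (Ideal.span_singleton_eq_span_singleton.2 (h.map (algebraMap C.K[X] C.R)))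

/-- `L = solv_NI G 0 q (q D)`; stage `m ≤ D`: the elements of `spn L` that are polynomials of degree `≤ m` (`solv_sol1`, `mem_spn_iff`);
first nonzero, `coS · 0`, divide by the value at the base root (`exists_isN`, `IsN.natDegree`, `ι_mem_span`, `IsN.eval_ne`) -/
theorem solv_lab (hC : Good C) {G : ∀ a, List (C a).RS} (hG : DPT G) {D : α → ℕ} (hD : UN D) :
    Solv fun a (u : (C a).S1[X]) => ∀ i, (C a).Cop ((C a).idl (G a) i) → (C a).nd ((C a).idl (G a) i) ≤ D a →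
      (C a).IsN ((C a).idl (G a) i) ((C a).evP i u) ∧ ((C a).evP i u).eval ((C a).rt i) = 1 := by
  have hn := hD.add (UN.const 1)
  obtain ⟨L, hL, HL⟩ := solv_NI hC hG (UN.const 0) hC.q (hC.q.mul hD)
  obtain ⟨S, hS, HS⟩ := Solv.pi hn (R := fun a m (L' : List (C a).RS) => ∀ i z, z ∈ (C a).spn L' i ↔
      z ∈ (C a).spn (L a) i ∧ ∃ g : (C a).K[X], g.natDegree ≤ m.val ∧ z = (C a).ι g)
    (a4l_stage (hC.comp pt_sigma_fst) (hL.comp pt_sigma_fst) (UN.fin hn))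
  obtain ⟨w, hw, Hw⟩ := solv_first hC hn hS
  have hg := hC.dco hw (PT.const 0)
  refine Solv.of_dpt (hC.p1.dmul (hC.s1.dC (hC.dinv1 (hC.s1.deval hg hC.dt))) hg) fun a i hc hd => ?_
  obtain ⟨u, hu⟩ := (C a).exists_isN hc
  obtain ⟨u0, du⟩ := hu.natDegree hc.ne_bot
  have hR := (HL a).2 i hc.ne_bot (by rw [Nat.sub_zero]; exact Nat.mul_le_mul_left _ hd)
  rw [hu] at hR
  have q1 := (C a).hq.pos
  have hV : (C a).ι u ∈ (C a).V ((C a).q * D a) := by
    have := (C a).ι_mul_mem_V (D := (C a).q * D a) (by rw [du]; nlinarith) ((C a).one_mem_V 0)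
    rwa [mul_one] at this
  obtain ⟨d, hdd⟩ : ∃ d : Fin (D a + 1), d.val = u.natDegree := ⟨⟨u.natDegree, by omega⟩, rfl⟩
  have h1 : ∃ v ∈ S a d, (C a).evR i v ≠ 0 := by
    by_contra hne
    have h2 := (HS a d i _).2 ⟨(hR _).2 ⟨Ideal.mem_span_singleton_self _, hV⟩, u, hdd.ge, rfl⟩
    have h3 : (C a).spn (S a d) i ≤ ⊥ := Submodule.span_le.2 (by
      rintro _ ⟨v, hv, rfl⟩
      by_contra h0
      exact hne ⟨v, hv, h0⟩)
    exact u0 ((C a).ι_inj ((h3 h2).trans (map_zero _).symm))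
  obtain ⟨m, hm, ⟨v, hv, e⟩, w0⟩ := Hw a i ⟨d, h1⟩
  have md : m ≤ d := not_lt.1 fun hlt => by
    obtain ⟨v, hv, h0⟩ := h1
    exact h0 (hm d hlt v hv)
  obtain ⟨h2, g, dg, eg⟩ := (HS a m i _).1 ((C a).mem_spn hv i)
  rw [← e] at h2 eg
  have g0 : g ≠ 0 := fun h0 => w0 (by rw [eg, h0]; exact map_zero _)
  have ug : u ∣ g := (C a).ι_mem_span.1 (eg ▸ ((hR _).1 h2).1)
  have as : Associated u g := associated_of_dvd_of_natDegree_le ug g0 (by rw [← hdd]; exact dg.trans md)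
  have eP : (C a).evP i ((C a).coS (w a) 0) = g := by rw [← (C a).co_evR, eg, a4l_co]
  have ev : (((C a).coS (w a) 0).eval (C a).tS) i = g.eval ((C a).rt i) := by
    rw [← eP, Cv.evP, coe_mapRingHom, eval_map]
    exact (eval₂_at_apply (Pi.evalRingHom (fun _ => (C a).K) i) (C a).tS).trans rfl |>.symm
  have ne := (a4l_isN hu as).eval_ne hc i
  have eu : (C a).evP i (Polynomial.C (fun i => ((((C a).coS (w a) 0).eval (C a).tS) i)⁻¹ : (C a).S1) *
      (C a).coS (w a) 0) = Polynomial.C (g.eval ((C a).rt i))⁻¹ * g := by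
    rw [map_mul, eP, ← ev, Cv.evP, coe_mapRingHom, map_C]
    rfl
  rw [eu]
  refine ⟨a4l_isN hu (as.trans (associated_unit_mul_right _ _ (isUnit_C.2 (inv_ne_zero ne).isUnit))), ?_⟩
  rw [eval_mul, eval_C, inv_mul_cancel₀ ne]

end Crest.Agent.R312
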