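import Crest.Agent.R312.C2

/-!
# R312/D1: the determinant of `mat u e` vanishes under the conditions `ZD`.
-/

set_option autoImplicit false

open Polynomial Finset Crest.Agent.Lib.PolyTime

noncomputable section

namespace Crest.Agent.R312

namespace Cv

variable (C : Cv)

theorem d1a_split (I : Ideal C.R) {a b c : ℕ} (h1 : a ≤ b) (h2 : b ≤ c) :
    C.NI I a c = C.NI I a b * C.NI I b c := (Finset.prod_Ico_consecutive _ h1 h2).symm

theorem d1a_per (I : Ideal C.R) (a b : ℕ) : C.NI I (a + C.q) (b + C.q) = C.NI I a b := by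
  rw [← map_NI, show C.sg C.q = AlgHom.id _ _ from AlgHom.ext C.sg_q]
  exact Ideal.map_id _

theorem d1a_ix_lt {j k : ℕ} (h : k < j) (hj : j < C.q) : (C.ix (k + C.q - j)).val = k + C.q - j :=
  Nat.mod_eq_of_lt (by omega)

theorem d1a_ix_ge {j k : ℕ} (h : j ≤ k) (hk : k < C.q) : (C.ix (k + C.q - j)).val = k - j := by
  change (k + C.q - j) % C.q = _
  rw [show k + C.q - j = k - j + C.q by omega, Nat.add_mod_right, Nat.mod_eq_of_lt (by omega)]

/-- entry `(j, k)` lies in `NI I 0 j * NI I k q`, and `NI I 0 j * NI I j q = (u)` (`Matrix.det_apply`, `Ideal.prod_mem_prod`) -/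
theorem det_mem_u {I : Ideal C.R} {u : C.K[X]} (hu : C.IsN I u) {e : Fin C.q → C.R}
    (he : ∀ k : Fin C.q, e k ∈ C.NI I k.val C.q) : C.ι (u ^ C.q) ∣ (C.mat u e).det := by
  have hent : ∀ j k : Fin C.q, C.mat u e j k ∈ C.NI I 0 j.val * C.NI I k.val C.q := fun j k => by
    have h1 : C.sg j (e (C.ix (k.val + C.q - j))) ∈
        C.NI I ((C.ix (k.val + C.q - j)).val + j) (C.q + j) := by
      rw [← map_NI]
      exact Ideal.mem_map_of_mem _ (he _)
    have hj := j.2
    have hk := k.2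
    change (if k.val < j.val then C.ι u else 1) * C.sg j (e (C.ix (k.val + C.q - j))) ∈ _
    split_ifs with h
    · rw [C.d1a_ix_lt h hj, show k.val + C.q - j + j = k + C.q by omega, add_comm C.q, d1a_per] at h1
      rw [C.d1a_split I h.le hj.le, mul_left_comm, ← C.d1a_split I (Nat.zero_le _) hj.le, mul_comm (C.NI I _ _)]
      exact Ideal.mul_mem_mul (by rw [hu]; exact Ideal.mem_span_singleton_self _) h1
    · have h2 := C.d1a_per I 0 j
      rw [zero_add, add_comm] at h2
      rw [C.d1a_ix_ge (not_lt.1 h) hk, show k.val - j + j = k by omega,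
        C.d1a_split I hk.le (Nat.le_add_right _ _), h2, mul_comm] at h1
      rwa [one_mul]
  rw [← Ideal.mem_span_singleton, Matrix.det_apply]
  refine Ideal.sum_mem _ fun σ _ => ?_
  rw [Units.smul_def, zsmul_eq_mul]
  refine Ideal.mul_mem_left _ _ ?_
  have h := Ideal.prod_mem_prod (s := univ) fun i _ => hent (σ i) i
  rw [Finset.prod_mul_distrib, Equiv.prod_comp σ fun i : Fin C.q => C.NI I 0 i.val, ← Finset.prod_mul_distrib,
    Finset.prod_congr rfl fun (i : Fin C.q) _ => (C.d1a_split I (Nat.zero_le i.val) i.2.le).symm.trans hu,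
    Finset.prod_const, Finset.card_univ, Fintype.card_fin, Ideal.span_singleton_pow, ← map_pow] at h
  exact h

theorem d1a_cop {s : C.K[X]} (h : ∀ j, s.eval (C.rt j) ≠ 0) : IsCoprime s C.f := by
  rw [C.f_eq_prod]
  refine IsCoprime.prod_right fun j _ => ?_
  exact ((irreducible_X_sub_C _).coprime_iff_not_dvd.2 fun hd => h j (dvd_iff_isRoot.1 hd)).symm

/-- Hensel: `Polynomial.existsUnique_nilpotent_sub_and_aeval_eq_zero` in `K[X] ⧸ (f ^ q)` (or Newton by hand) -/
theorem exists_lift {u r : C.K[X]} (hu : ∀ j, u.eval (C.rt j) ≠ 0) (hr : ∀ j, r.eval (C.rt j) ^ C.q = u.eval (C.rt j)) :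
    ∃ r' : C.K[X], C.f ∣ r' - r ∧ C.f ^ C.q ∣ r' ^ C.q - u ∧ IsCoprime r' C.f := by
  have hcop : ∀ s : C.K[X], C.f ∣ s - r → IsCoprime s C.f := fun s hs => C.d1a_cop fun j h0 => by
    have h1 := C.f_dvd_iff.1 hs j
    rw [eval_sub, h0, zero_sub, neg_eq_zero] at h1
    have h2 := hr j
    rw [h1, zero_pow C.hq.ne_zero] at h2
    exact hu j h2.symm
  have key : ∀ n : ℕ, ∃ s : C.K[X], C.f ∣ s - r ∧ C.f ^ (n + 1) ∣ s ^ C.q - u := fun n => by
    induction n with
    | zero => exact ⟨r, by simp, by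
        rw [zero_add, pow_one]
        exact C.f_dvd_iff.2 fun j => by rw [eval_sub, eval_pow, hr, sub_self]⟩
    | succ n ih =>
      obtain ⟨s, h1, c, hc⟩ := ih
      have hq : IsUnit ((C.q : ℕ) : C.K[X]) := by
        rw [← map_natCast (Polynomial.C : C.K →+* C.K[X])]
        exact (IsUnit.mk0 _ C.q_ne_zero).map _
      have h2 : IsCoprime ((C.q : C.K[X]) * s ^ (C.q - 1)) C.f :=
        (isCoprime_mul_unit_left_left hq _ _).2 (hcop s h1).pow_left
      obtain ⟨a, b, hab⟩ := h2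
      obtain ⟨k, hk⟩ := powAddExpansion s (C.f ^ (n + 1) * (-(c * a))) C.q
      refine ⟨s + C.f ^ (n + 1) * (-(c * a)), ?_, c * b + k * C.f ^ n * (c * a) ^ 2, ?_⟩
      · rw [add_sub_right_comm]
        exact dvd_add h1 (Dvd.dvd.mul_right (dvd_pow_self _ n.succ_ne_zero) _)
      · rw [hk]
        linear_combination hc - C.f ^ (n + 1) * c * hab
  obtain ⟨s, h1, h2⟩ := key (C.q - 1)
  rw [Nat.sub_add_cancel C.hq.pos] at h2
  exact ⟨s, h1, h2, hcop s h1⟩

theorem d1s_mul (g h : C.K[X]) : C.ι (g * h) = C.ι g * C.ι h := map_mul _ _ _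

/-- the Fourier matrix -/
def d1sΦ : Matrix (Fin C.q) (Fin C.q) C.K := (Matrix.vandermonde fun k : Fin C.q => C.ζ ^ (C.q - k.val))

theorem d1s_det : (C.d1sΦ).det ≠ 0 := by
  rw [d1sΦ, Matrix.det_vandermonde_ne_zero_iff]
  intro k l h
  have e : ∀ k : Fin C.q, C.ζ ^ (C.q - k.val) * C.ζ ^ k.val = 1 := fun k => by
    rw [← pow_add, Nat.sub_add_cancel k.2.le, C.hζ.pow_eq_one]
  have h1 : C.ζ ^ k.val = C.ζ ^ l.val := by
    have h2 := e k
    simp only at h
    rw [h, ← e l] at h2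
    exact mul_left_cancel₀ (pow_ne_zero _ (C.hζ.ne_zero C.hq.ne_zero)) h2
  exact Fin.ext (C.hζ.pow_inj k.2 l.2 h1)

theorem d1s_pow (k j : Fin C.q) (b : ℕ) :
    C.ζ ^ ((C.q - (k + j).val) * b) * C.ζ ^ (j.val * b) = C.ζ ^ ((C.q - k.val) * b) := by
  rw [pow_mul, pow_mul, pow_mul, ← mul_pow, ← pow_add]
  congr 1
  have hk := k.2
  have hj := j.2
  rw [Fin.val_add]
  by_cases h : k.val + j.val < C.q
  · rw [Nat.mod_eq_of_lt h]
    congr 1
    omega
  · rw [Nat.mod_eq_sub_mod (by omega), Nat.mod_eq_of_lt (by omega),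
      show C.q - (k.val + j.val - C.q) + j.val = (C.q - k.val) + C.q by omega, pow_add, C.hζ.pow_eq_one, mul_one]

theorem d1s_ix (k j : Fin C.q) : C.ix ((k + j).val + C.q - j.val) = k := by
  have hk := k.2
  have hj := j.2
  refine Fin.ext ?_
  show ((k + j).val + C.q - j.val) % C.q = k.val
  rw [Fin.val_add]
  by_cases h : k.val + j.val < C.q
  · rw [Nat.mod_eq_of_lt h, show k.val + j.val + C.q - j.val = k.val + C.q by omega, Nat.add_mod_right,
      Nat.mod_eq_of_lt hk]
  · rw [Nat.mod_eq_sub_mod (a := k.val + j.val) (by omega), Nat.mod_eq_of_lt (a := k.val + j.val - C.q) (by omega),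
      show k.val + j.val - C.q + C.q - j.val = k.val by omega, Nat.mod_eq_of_lt hk]

theorem d1s_z {e : Fin C.q → C.R} {i : C.Ω} {b : ℕ} (hb : b < C.q) (gl : ∀ m : ℕ, m < b → C.f ∣ C.glue 1 e b m)
    (base : (C.glue 1 e b b).eval (C.rt i) = 0) :
    ∃ z : C.R, ∑ k : Fin C.q, C.ι (Polynomial.C (C.ζ ^ ((C.q - k.val) * b))) * e k = C.y ^ b * z ∧
      X - Polynomial.C (C.rt i) ∣ C.co z 0 := by
  set w := ∑ k : Fin C.q, C.ι (Polynomial.C (C.ζ ^ ((C.q - k.val) * b))) * e k with hw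
  have h1 : ∀ m, C.co w m = C.glue 1 e b m := fun m => by
    simp only [hw, co_sum, co_ι_mul, glue, one_pow, mul_one]
  obtain ⟨t, ht⟩ : C.y ^ (b + 1) ∣ ∑ m ∈ (range C.q).erase b, C.ι (C.co w m) * C.y ^ m := by
    refine Finset.dvd_sum fun m hm => ?_
    rcases lt_or_gt_of_ne (Finset.ne_of_mem_erase hm) with h | h
    · obtain ⟨g, hg⟩ := gl m h
      rw [h1, hg, d1s_mul, ← C.y_pow]
      exact ((pow_dvd_pow _ (by omega)).mul_right _).mul_right _
    · exact (pow_dvd_pow _ (by omega)).mul_left _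
  refine ⟨C.ι (C.co w b) + C.y * t, ?_, ?_⟩
  · conv_lhs => rw [← C.sum_co w, ← Finset.add_sum_erase _ _ (mem_range.2 hb), ht]
    ring
  · rw [dvd_iff_isRoot, IsRoot, ← C.ev_eq, map_add, map_mul, ev_y, ev_ι, h1, base, zero_mul, add_zero]

/-- the split case `u = 1`, `r = 1`.  Put `c a b = q⁻¹ glue 1 e b (a + b)` if `a + b < q` and `c a b = q⁻¹ glue 1 e b (a + b - q) / f` otherwise; then
`e k = ∑ a b, c a b ζ^(k b) y^(a+b)` (orthogonality of characters) and `mat 1 e = F * diag (y^a) * c * diag (y^b) * Fᵀ` with `F j a = ζ^(j a)`;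
row `0` of `c` is divisible by `X - a_i`; `∏ y^a * ∏ y^b = y^(q (q-1)) = f^(q-1)` -/
theorem det_split {e : Fin C.q → C.R} {i : C.Ω} (gl : ∀ b m : ℕ, m < b → b < C.q → C.f ∣ C.glue 1 e b m)
    (base : ∀ b : ℕ, b < C.q → (C.glue 1 e b b).eval (C.rt i) = 0) :
    C.ι (C.f ^ (C.q - 1) * (X - Polynomial.C (C.rt i))) ∣ (C.mat 1 e).det := by
  choose z hz hz' using fun b : Fin C.q => C.d1s_z b.2 (fun m hm => gl b m hm b.2) (base b b.2)
  let φ : C.K →+* C.R := (algebraMap C.K[X] C.R).comp Polynomial.C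
  let F : Matrix (Fin C.q) (Fin C.q) C.R := Matrix.of fun j a => C.ι (Polynomial.C (C.ζ ^ (j.val * a.val)))
  let c : Matrix (Fin C.q) (Fin C.q) C.R := Matrix.of fun a b => C.ι (C.co (z b) a)
  let Y : Matrix (Fin C.q) (Fin C.q) C.R := Matrix.diagonal fun a => C.y ^ a.val
  have key : C.mat 1 e * φ.mapMatrix C.d1sΦ = F * (Y * c) * Y := by
    ext j b
    have h1 := congrArg (C.sg j) (hz b)
    have h2 : (C.mat 1 e * φ.mapMatrix C.d1sΦ) j b * C.ι (Polynomial.C (C.ζ ^ (j.val * b.val))) =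
        C.ι (Polynomial.C (C.ζ ^ (j.val * b.val))) * C.y ^ b.val * C.sg j (z b) := by
      rw [map_mul, map_pow, sg_y, mul_pow, ← map_pow, ← map_pow, ← pow_mul] at h1
      rw [← h1, map_sum, Matrix.mul_apply, Finset.sum_mul, ← Equiv.sum_comp (Equiv.addRight j)]
      refine Finset.sum_congr rfl fun k _ => ?_
      rw [map_mul, sg_ι, ← C.d1s_pow k j b]
      simp only [mat, row, Matrix.of_apply, Equiv.coe_addRight, d1s_ix, map_one, ite_self, one_mul, d1sΦ,
        RingHom.mapMatrix_apply, Matrix.map_apply, Matrix.vandermonde_apply, φ, RingHom.comp_apply, ← pow_mul,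
        map_mul]
      ring
    have h3 : IsUnit (C.ι (Polynomial.C (C.ζ ^ (j.val * b.val)))) :=
      (IsUnit.mk0 _ (pow_ne_zero _ (C.hζ.ne_zero C.hq.ne_zero))).map φ
    rw [mul_comm, mul_assoc] at h2
    rw [h3.mul_left_cancel h2, Matrix.mul_diagonal, Matrix.mul_apply, mul_comm, ← C.sum_co (C.sg j (z b)),
      Finset.sum_range]
    congr 1
    refine Finset.sum_congr rfl fun a _ => ?_
    rw [Matrix.diagonal_mul, co_sg, d1s_mul]
    simp only [F, c, Matrix.of_apply]
    ring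
  have hd := congrArg Matrix.det key
  rw [Matrix.det_mul, Matrix.det_mul, Matrix.det_mul, Matrix.det_mul, ← RingHom.map_det] at hd
  rw [← ((IsUnit.mk0 _ C.d1s_det).map φ).dvd_mul_right, hd]
  have hY : Y.det * Y.det = C.ι (C.f ^ (C.q - 1)) := by
    rw [Matrix.det_diagonal, Finset.prod_pow_eq_pow_sum, ← pow_add, ← mul_two,
      Fin.sum_univ_eq_sum_range (fun a => a), Finset.sum_range_id_mul_two, pow_mul, y_pow]
    exact (map_pow _ _ _).symm
  obtain ⟨t, ht⟩ : C.ι (X - Polynomial.C (C.rt i)) ∣ c.det := by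
    rw [Matrix.det_apply']
    refine Finset.dvd_sum fun σ _ => Dvd.dvd.mul_left ?_ _
    refine Dvd.dvd.trans ?_ (Finset.dvd_prod_of_mem _ (mem_univ (σ.symm 0)))
    rw [Equiv.apply_symm_apply]
    exact map_dvd _ (hz' _)
  refine ⟨F.det * t, ?_⟩
  rw [d1s_mul, ← hY, ht]
  ring

/-- with `r'` from `exists_lift` and `e' k = ι r' ^ k * e k`: `r' ^ k * mat u e j k ≡ r' ^ j * mat 1 e' j k (mod f ^ q)`, so
`det (mat u e) ≡ det (mat 1 e')`; `glue 1 e' ≡ glue r e (mod f)` -/
theorem det_mem_f {u r : C.K[X]} (hu : ∀ j, u.eval (C.rt j) ≠ 0) (hr : ∀ j, r.eval (C.rt j) ^ C.q = u.eval (C.rt j))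
    {e : Fin C.q → C.R} {i : C.Ω} (gl : ∀ b m : ℕ, m < b → b < C.q → C.f ∣ C.glue r e b m)
    (base : ∀ b : ℕ, b < C.q → (C.glue r e b b).eval (C.rt i) = 0) :
    C.ι (C.f ^ (C.q - 1) * (X - Polynomial.C (C.rt i))) ∣ (C.mat u e).det := by
  obtain ⟨s, h1, h2, h3⟩ := C.exists_lift hu hr
  set e' : Fin C.q → C.R := fun k => C.ι (s ^ k.val) * e k with he'
  have hg : ∀ b m, C.f ∣ C.glue 1 e' b m - C.glue r e b m := fun b m => by
    simp only [glue, he', co_ι_mul, one_pow, mul_one, ← Finset.sum_sub_distrib]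
    refine Finset.dvd_sum fun k _ => ?_
    rw [← mul_assoc, ← sub_mul, ← mul_sub]
    exact ((h1.trans (sub_dvd_pow_sub_pow _ _ _)).mul_left _).mul_right _
  have h4 := C.det_split (e := e') (i := i) (fun b m hm hb => by
      have := dvd_add (hg b m) (gl b m hm hb)
      rwa [sub_add_cancel] at this) fun b hb => by
    have := C.f_dvd_iff.1 (hg b b) i
    rwa [eval_sub, base b hb, sub_zero] at this
  have h5 : C.ι (C.f ^ (C.q - 1) * (X - Polynomial.C (C.rt i))) ∣ C.ι (C.f ^ C.q) := by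
    refine map_dvd _ ?_
    conv_rhs => rw [← Nat.sub_add_cancel C.hq.pos, pow_succ]
    exact mul_dvd_mul_left _ (dvd_iff_isRoot.2 (C.rt_root i))
  suffices h : C.ι (C.f ^ C.q) ∣ (C.mat u e).det - (C.mat 1 e').det by
    have := dvd_add (h5.trans h) h4
    rwa [sub_add_cancel] at this
  rw [← Ideal.mem_span_singleton, ← Ideal.Quotient.eq]
  set π := Ideal.Quotient.mk (Ideal.span {C.ι (C.f ^ C.q)}) with hπ
  have hz : π (C.ι (C.f ^ C.q)) = 0 := Ideal.Quotient.eq_zero_iff_mem.2 (Ideal.mem_span_singleton_self _)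
  have hs : IsUnit (π (C.ι s)) := by
    obtain ⟨a, b, hab⟩ := h3.pow_right (n := C.q)
    have := congrArg (fun g => π (C.ι g)) hab
    simp only [map_add, map_mul, map_one, hz, mul_zero, add_zero] at this
    exact IsUnit.of_mul_eq_one_right _ this
  have hsu : π (C.ι s) ^ C.q = π (C.ι u) := by
    rw [← map_pow, ← map_pow, hπ, Ideal.Quotient.eq, ← map_sub, Ideal.mem_span_singleton]
    exact map_dvd _ h2
  have hM : π.mapMatrix (C.mat u e) * Matrix.diagonal (fun k : Fin C.q => π (C.ι s) ^ k.val) =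
      Matrix.diagonal (fun k : Fin C.q => π (C.ι s) ^ k.val) * π.mapMatrix (C.mat 1 e') := by
    ext j k
    have hj := j.2
    have hk := k.2
    simp only [Matrix.mul_diagonal, Matrix.diagonal_mul, RingHom.mapMatrix_apply, Matrix.map_apply, mat,
      Matrix.of_apply, row, he', map_mul, sg_ι, map_one, ite_self, one_mul, map_pow]
    split_ifs with h
    · rw [C.d1a_ix_lt h hj, ← mul_assoc, ← pow_add, show j.val + (k.val + C.q - j) = C.q + k by omega, pow_add,
        hsu]
      ring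
    · rw [C.d1a_ix_ge (not_lt.1 h) hk, ← mul_assoc, ← pow_add, show j.val + (k.val - j) = k by omega, map_one]
      ring
  have hd := congrArg Matrix.det hM
  rw [Matrix.det_mul, Matrix.det_mul, mul_comm, Matrix.det_diagonal, ← RingHom.map_det, ← RingHom.map_det] at hd
  exact (IsUnit.prod_iff.2 fun k _ => hs.pow _).mul_left_cancel hd

/-- weight at most `w` (`x` has weight `q`, `y` has weight `n`) -/
def Wt (w : ℕ) (z : C.R) : Prop := ∀ l t : ℕ, w < C.q * t + l * C.n → (C.co z l).coeff t = 0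

theorem d1c_iff {w : ℕ} {z : C.R} : C.Wt w z ↔ ∀ l, C.co z l ≠ 0 → C.q * (C.co z l).natDegree + l * C.n ≤ w :=
  ⟨fun h l h0 => le_of_not_gt fun c => h0 (leadingCoeff_eq_zero.1 (h l _ c)), fun h l t c => by
    by_contra k
    have h1 := h l fun e => k (by rw [e, coeff_zero])
    have h2 := Nat.mul_le_mul_left C.q (le_natDegree_of_ne_zero k)
    omega⟩

theorem d1c_sum {β : Type} (s : Finset β) {z : β → C.R} {w : ℕ} (h : ∀ b ∈ s, C.Wt w (z b)) : C.Wt w (∑ b ∈ s, z b) :=
  fun l t c => by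
    rw [co_sum, finsetSum_coeff]
    exact Finset.sum_eq_zero fun b hb => h b hb l t c

theorem d1c_mono {w : ℕ} (l : ℕ) (g : C.K[X]) (h : g ≠ 0 → C.q * g.natDegree + l * C.n ≤ w) :
    C.Wt w (C.ι g * C.y ^ l) := by
  induction l using Nat.strong_induction_on generalizing g with
  | _ l ih =>
    rcases lt_or_ge l C.q with hl | hl
    · refine C.d1c_iff.2 fun m => ?_
      rw [co_ι_mul, C.co_y_pow hl]
      split_ifs with e
      · rw [mul_one, e]
        exact h
      · simp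
    · obtain ⟨m, rfl⟩ := Nat.exists_eq_add_of_le hl
      rw [pow_add, y_pow, ← mul_assoc, ← map_mul]
      refine ih m (Nat.lt_add_of_pos_left C.hq.pos) _ fun h0 => ?_
      have := h (left_ne_zero_of_mul h0)
      rw [natDegree_mul (left_ne_zero_of_mul h0) C.mon.ne_zero, mul_add]
      rw [add_mul] at this
      exact (add_assoc _ _ _).trans_le this

theorem d1c_ι (g : C.K[X]) : C.Wt (C.q * g.natDegree) (C.ι g) := by
  simpa using C.d1c_mono (w := C.q * g.natDegree) 0 g fun _ => by simp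

theorem Wt.mul {C : Cv} {v w : ℕ} {z z' : C.R} (h : C.Wt v z) (h' : C.Wt w z') : C.Wt (v + w) (z * z') := by
  rw [← C.sum_co z, ← C.sum_co z', Finset.sum_mul_sum]
  refine C.d1c_sum _ fun a _ => C.d1c_sum _ fun b _ => ?_
  rw [mul_mul_mul_comm, ← pow_add, ← map_mul]
  refine C.d1c_mono _ _ fun h0 => ?_
  have h1 := C.d1c_iff.1 h a (left_ne_zero_of_mul h0)
  have h2 := C.d1c_iff.1 h' b (right_ne_zero_of_mul h0)
  rw [natDegree_mul (left_ne_zero_of_mul h0) (right_ne_zero_of_mul h0), mul_add, add_mul]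
  omega

theorem d1c_prod {β : Type} (s : Finset β) {z : β → C.R} {w : β → ℕ} (h : ∀ b ∈ s, C.Wt (w b) (z b)) :
    C.Wt (∑ b ∈ s, w b) (∏ b ∈ s, z b) := by
  induction s using Finset.cons_induction with
  | empty => simpa using C.d1c_ι 1
  | cons a s ha ih =>
    rw [sum_cons, prod_cons]
    exact (h a (mem_cons_self _ _)).mul (ih fun b hb => h b (mem_cons_of_mem hb))

/-- entry `(j, k)` has weight `≤ q d + n (q-1) + j d - k d`; sum over a permutation -/
theorem det_wt {u : C.K[X]} {e : Fin C.q → C.R}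
    (wt : ∀ (k : Fin C.q) (l t : ℕ), C.q * u.natDegree + C.n * (C.q - 1) < C.q * t + k.val * u.natDegree + l * C.n →
      (C.co (e k) l).coeff t = 0) : C.Wt (C.q * (C.q * u.natDegree + C.n * (C.q - 1))) (C.mat u e).det := by
  obtain ⟨W, hW⟩ : ∃ W, W = C.q * u.natDegree + C.n * (C.q - 1) := ⟨_, rfl⟩
  rw [← hW] at wt ⊢
  have hk : ∀ k : Fin C.q, k.val * u.natDegree ≤ W := fun k =>
    (Nat.mul_le_mul_right _ k.2.le).trans (hW ▸ Nat.le_add_right _ _)
  have h1 : ∀ (j : ℕ) (k : Fin C.q), C.Wt (W - k.val * u.natDegree) (C.sg j (e k)) := fun j k l t c => by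
    rw [co_sg, coeff_C_mul, wt k l t (by have := hk k; omega), mul_zero]
  have h2 : ∀ j k : Fin C.q, C.Wt (W + j.val * u.natDegree - k.val * u.natDegree) (C.mat u e j k) := fun j k => by
    change C.Wt _ (C.row u e j k)
    have a := h1 j (C.ix (k.val + C.q - j))
    have b := hk (C.ix (k.val + C.q - j))
    have c := hk k
    have := j.2
    have := k.2
    rw [row]
    split_ifs with h
    · have e1 : (C.ix (k.val + C.q - j)).val + j = k + C.q := by
        change (k.val + C.q - j) % C.q + j = _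
        rw [Nat.mod_eq_of_lt (by omega)]
        omega
      have e2 := congrArg (· * u.natDegree) e1
      simp only [add_mul] at e2
      convert (C.d1c_ι u).mul a using 1
      omega
    · have e1 : (C.ix (k.val + C.q - j)).val + j = k := by
        change (k.val + C.q - j) % C.q + j = _
        rw [show k.val + C.q - j = k.val - j + C.q by omega, Nat.add_mod_right, Nat.mod_eq_of_lt (by omega)]
        omega
      have e2 := congrArg (· * u.natDegree) e1
      simp only [add_mul] at e2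
      rw [one_mul]
      convert a using 1
      omega
  rw [Matrix.det_apply']
  refine C.d1c_sum _ fun σ _ => ?_
  have h3 := (C.d1c_ι ((Equiv.Perm.sign σ : ℤ) : C.K[X])).mul (C.d1c_prod (z := fun k => C.mat u e (σ k) k) univ fun k _ => h2 (σ k) k)
  rw [natDegree_intCast, mul_zero, zero_add, ι, map_intCast] at h3
  convert h3 using 1
  rw [Finset.sum_tsub_distrib _ fun k _ => (hk k).trans (Nat.le_add_right _ _), Finset.sum_add_distrib,
    Equiv.sum_comp σ fun k => k.val * u.natDegree, Nat.add_sub_cancel, Finset.sum_const, card_univ, Fintype.card_fin,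
    smul_eq_mul]

/-- `u ^ q` and `f ^ (q-1) (X - a_i)` are coprime; their product has degree `q d + n (q-1) + 1` -/
theorem det_eq_zero {I : Ideal C.R} (hI : C.Cop I) {u r : C.K[X]} (hu : C.IsN I u)
    (hr : ∀ j, r.eval (C.rt j) ^ C.q = u.eval (C.rt j)) {i : C.Ω} {e : Fin C.q → C.R}
    (he : C.ZD I u.natDegree r i e) : (C.mat u e).det = 0 := by
  have h0 := hu.eval_ne hI
  have c1 : ∀ j, IsCoprime u (X - Polynomial.C (C.rt j)) := fun j =>
    ((irreducible_X_sub_C _).coprime_iff_not_dvd.2 fun k => h0 j (dvd_iff_isRoot.1 k)).symm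
  have c2 : IsCoprime u C.f := by
    rw [C.f_eq_prod]
    exact IsCoprime.prod_right fun j _ => c1 j
  have c3 : IsCoprime (u ^ C.q) (C.f ^ (C.q - 1) * (X - Polynomial.C (C.rt i))) :=
    (c2.pow_right.mul_right (c1 i)).pow_left
  obtain ⟨w, hw⟩ := (c3.map (algebraMap C.K[X] C.R)).mul_dvd (C.det_mem_u hu he.mem) (C.det_mem_f h0 hr he.gl he.base)
  have h1 := C.d1c_iff.1 (C.det_wt he.wt)
  refine C.co_ext fun l _ => ?_
  rw [co_zero]
  by_contra k
  have h2 := h1 l k
  rw [hw, ← map_mul, co_ι_mul] at h2 k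
  have u0 := (hu.natDegree hI.ne_bot).1
  have f0 := pow_ne_zero (C.q - 1) C.mon.ne_zero
  rw [natDegree_mul (left_ne_zero_of_mul k) (right_ne_zero_of_mul k),
    natDegree_mul (pow_ne_zero _ u0) (mul_ne_zero f0 (X_sub_C_ne_zero _)), natDegree_mul f0 (X_sub_C_ne_zero _),
    natDegree_pow, natDegree_pow, natDegree_X_sub_C, mul_comm (C.q - 1)] at h2
  have h3 := Nat.le_of_mul_le_mul_left ((Nat.le_add_right _ _).trans h2) C.hq.pos
  change _ ≤ _ + C.f.natDegree * _ at h3
  omega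

end Cv

end Crest.Agent.R312
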