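import Crest.Agent.R312.C2

/-!
# R312/D2: dimension counts and the companion matrix.
-/

set_option autoImplicit false

open Polynomial Finset Crest.Agent.Lib.PolyTime

noncomputable section

namespace Crest.Agent.R312

namespace Cv

variable (C : Cv)

theorem d2a_count {q n : ℕ} (d : ℕ) (hq : 2 ≤ q) (hn : q ∣ n) :
    ∑ k : Fin q, (q - k.val) * d + ((∑ b : Fin q, b.val) * n + q) <
      ∑ p : Fin q × Fin q, (((q - p.1.val) * d + (q - 1 - p.2.val) * n) / q + 1) := by
  obtain ⟨m, rfl⟩ := hn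
  have h0 : 0 < q := by omega
  have h1 : ∀ p : Fin q × Fin q, ((q - p.1.val) * d + (q - 1 - p.2.val) * (q * m)) / q + 1 =
      ((q - p.1.val) * d / q + 1) + (q - 1 - p.2.val) * m := fun p => by
    rw [mul_left_comm, Nat.add_mul_div_left _ _ h0]; ring
  have h2 : ∑ l : Fin q, (q - 1 - l.val) = ∑ b : Fin q, b.val := by
    rw [Fin.sum_univ_eq_sum_range (fun l => q - 1 - l), Fin.sum_univ_eq_sum_range (fun l => l)]
    exact Finset.sum_range_reflect (fun l => l) q
  have h3 : ∑ k : Fin q, (q - k.val) * d + q < ∑ k : Fin q, q * ((q - k.val) * d / q + 1) := by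
    have h4 : ∑ k : Fin q, (q - k.val) * d + q =
        ∑ k : Fin q, ((q - k.val) * d + if k = ⟨0, h0⟩ then q else 0) := by
      rw [Finset.sum_add_distrib, Finset.sum_ite_eq' univ, if_pos (mem_univ _)]
    rw [h4]
    refine Finset.sum_lt_sum (fun k _ => ?_) ⟨⟨1, hq⟩, mem_univ _, ?_⟩
    · split_ifs with hk
      · subst hk
        rw [Nat.sub_zero, Nat.mul_div_cancel_left _ h0, mul_add, mul_one]
      · exact (Nat.lt_mul_div_succ _ h0).le
    · rw [if_neg (by simp)]
      exact Nat.lt_mul_div_succ _ h0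
  simp only [h1, Fintype.sum_prod_type, Finset.sum_add_distrib (f := fun _ => _ / q + 1), Finset.sum_const, card_univ,
    Fintype.card_fin, smul_eq_mul, ← Finset.sum_mul, h2]
  rw [← Finset.sum_mul] at h3
  nlinarith

/-- `glue` is linear -/
def d2aG (r : C.K[X]) (b m : ℕ) : (Fin C.q → C.R) →ₗ[C.K] C.K[X] :=
  ∑ k : Fin C.q, (LinearMap.mulLeft C.K (Polynomial.C (C.ζ ^ ((C.q - k.val) * b)) * r ^ k.val)) ∘ₗ C.coL m ∘ₗ
    LinearMap.proj k

theorem d2a_coord {J : Ideal C.R} (h : J ≠ ⊥) :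
    ∃ L : C.R →ₗ[C.K] (Fin (C.nd J) → C.K), ∀ z, L z = 0 → z ∈ J := by
  have := C.fin_quot h
  refine ⟨(Module.finBasis C.K (C.R ⧸ J)).equivFun.toLinearMap ∘ₗ (Ideal.Quotient.mkₐ C.K J).toLinearMap, fun z hz => ?_⟩
  exact Ideal.Quotient.eq_zero_iff_mem.1 ((Module.finBasis C.K (C.R ⧸ J)).equivFun.map_eq_zero_iff.1 hz)

theorem d2aG_apply (r : C.K[X]) (b m : ℕ) (e : Fin C.q → C.R) : C.d2aG r b m e = C.glue r e b m := by
  simp only [d2aG, glue, LinearMap.sum_apply]
  rfl

theorem d2a_lin {K V W α β γ : Type} [Field K] [AddCommGroup V] [Module K V] [Module.Finite K V] [AddCommGroup W]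
    [Module K W] [Fintype α] [Fintype β] [Fintype γ] (Φ : V →ₗ[K] W) (f : α → W →ₗ[K] K) (g : β → W →ₗ[K] K)
    (h : γ → W →ₗ[K] K) (hlt : Fintype.card α + (Fintype.card β + Fintype.card γ) < Module.finrank K V) :
    ∃ v, v ≠ 0 ∧ (∀ x, f x (Φ v) = 0) ∧ (∀ x, g x (Φ v) = 0) ∧ ∀ x, h x (Φ v) = 0 := by
  obtain ⟨c, hc, hc0⟩ := Submodule.exists_mem_ne_zero_of_ne_bot
    ((LinearMap.pi (Sum.elim f (Sum.elim g h)) ∘ₗ Φ).ker_ne_bot_of_finrank_lt (by simpa using hlt))
  exact ⟨c, hc0, fun x => congrFun hc (.inl x), fun x => congrFun hc (.inr (.inl x)), fun x => congrFun hc (.inr (.inr x))⟩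

theorem d2a_par (a : Fin C.q × Fin C.q → ℕ) :
    ∃ Φ : (∀ p : Fin C.q × Fin C.q, degreeLT C.K (a p)) →ₗ[C.K] (Fin C.q → C.R),
      ∀ c (k l : Fin C.q), C.co (Φ c k) l = c (k, l) := by
  refine ⟨LinearMap.pi fun k =>
    ∑ l : Fin C.q, LinearMap.mulRight C.K (C.y ^ l.val) ∘ₗ (IsScalarTower.toAlgHom C.K C.K[X] C.R).toLinearMap ∘ₗ
      (degreeLT C.K (a (k, l))).subtype ∘ₗ LinearMap.proj (k, l), fun c k l => ?_⟩
  simp only [LinearMap.pi_apply, LinearMap.sum_apply]
  exact C.c1b_co (fun l => c (k, l)) l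

/-- unknowns: the coefficients `(k, l, t)` with `q t + k d + l n ≤ q d + n (q-1)`; their number `U` satisfies
`q U ≥ ∑_{k,l} ((q-k) d + (q-1-l) n) + q * q + (q-1) q` (for `k = 0` the division is exact since `q ∣ n`).
Conditions: a linear map to `(∏ k, R ⧸ NI I k q) × (∏ m < b, K[X] ⧸ f) × (Fin q → K)` of dimension `d q (q+1)/2 + n q (q-1)/2 + q < U`
(`nd_NI`, `LinearMap.ker_ne_bot_of_finrank_lt` / `exists_ne_zero_of_finrank_lt`) -/
theorem exists_zd {I : Ideal C.R} (hI : I ≠ ⊥) (r : C.K[X]) (i : C.Ω) :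
    ∃ e : Fin C.q → C.R, e ≠ 0 ∧ C.ZD I (C.nd I) r i e := by
  let a : Fin C.q × Fin C.q → ℕ := fun p => ((C.q - p.1.val) * C.nd I + (C.q - 1 - p.2.val) * C.n) / C.q + 1
  obtain ⟨Φ, hco⟩ := C.d2a_par a
  choose L hL using fun k : Fin C.q => C.d2a_coord (C.NI_ne_bot hI k.val C.q)
  have f2 : ∀ p, Module.Finite C.K (degreeLT C.K (a p)) := fun p => Module.Finite.equiv (degreeLTEquiv C.K _).symm
  obtain ⟨c, hc0, h1, h2, h3⟩ := d2a_lin Φ
    (fun x : Σ k : Fin C.q, Fin (C.nd (C.NI I k.val C.q)) => LinearMap.proj x.2 ∘ₗ L x.1 ∘ₗ LinearMap.proj x.1)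
    (fun x : (Σ b : Fin C.q, Fin b.val) × C.Ω => leval (C.rt x.2) ∘ₗ C.d2aG r x.1.1.val x.1.2.val)
    (fun b : Fin C.q => leval (C.rt i) ∘ₗ C.d2aG r b.val b.val) (by
      rw [Module.finrank_pi_fintype C.K (M := fun p => degreeLT C.K (a p))]
      simp only [(degreeLTEquiv C.K _).finrank_eq, Module.finrank_fintype_fun_eq_card,
        Fintype.card_fin, Fintype.card_prod, Fintype.card_sigma, card_Ω, C.nd_NI hI]
      exact d2a_count _ C.hq.two_le C.dvd)
  simp only [LinearMap.comp_apply, LinearMap.proj_apply, leval_apply, d2aG_apply] at h1 h2 h3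
  refine ⟨Φ c, fun h => hc0 (funext fun p => Subtype.ext ?_), fun k => hL k _ (funext fun s => h1 ⟨k, s⟩),
    fun k l t ht => ?_, fun b m hm hb => C.f_dvd_iff.2 fun j => h2 (⟨⟨b, hb⟩, ⟨m, hm⟩⟩, j), fun b hb => h3 ⟨b, hb⟩⟩
  · rw [← hco c p.1 p.2, h]
    exact C.co_zero _
  · rcases lt_or_ge l C.q with hl | hl
    · rw [hco c k ⟨l, hl⟩]
      refine coeff_eq_zero_of_degree_lt ((mem_degreeLT.1 (c (k, ⟨l, hl⟩)).2).trans_le (Nat.cast_le.2 ?_))
      refine (Nat.div_lt_iff_lt_mul C.hq.pos).2 ?_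
      obtain ⟨k', hk'⟩ := Nat.exists_eq_add_of_le k.2.le
      obtain ⟨l', hl'⟩ := Nat.exists_eq_add_of_le (Nat.le_sub_one_of_lt hl)
      have e1 : C.q - k.val = k' := by omega
      have e2 : C.q - 1 - l = l' := by omega
      have e3 : C.q * C.nd I = (k.val + k') * C.nd I := by rw [← hk']
      rw [hl', e3] at ht
      show (C.q - k.val) * C.nd I + (C.q - 1 - l) * C.n < t * C.q
      rw [e1, e2]
      nlinarith
    · rw [C.co_of_le _ hl, coeff_zero]

theorem ZD.mem_V {C : Cv} {I : Ideal C.R} {d : ℕ} {r : C.K[X]} {i : C.Ω} {e : Fin C.q → C.R} (h : C.ZD I d r i e)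
    (k : Fin C.q) : e k ∈ C.V (d + C.n) := by
  refine C.mem_V.2 fun l => natDegree_le_iff_coeff_eq_zero.2 fun t ht => h.wt k l t ?_
  have h1 : C.q * (d + C.n + 1) ≤ C.q * t := Nat.mul_le_mul_left _ ht
  have h2 : C.n * (C.q - 1) ≤ C.n * C.q := Nat.mul_le_mul_left _ (Nat.sub_le _ _)
  have h3 := C.hq.pos
  nlinarith [Nat.zero_le (k.val * d), Nat.zero_le (l * C.n)]

/-- a subspace of dimension `≤ s` is detected by `s` coordinates -/
theorem exists_coords {L : Type} [Field L] {N : ℕ} (s : ℕ) (W : Submodule L (Fin N → L)) (h : Module.finrank L W ≤ s) :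
    ∃ T : Finset (Fin N), T.card ≤ s ∧ ∀ w ∈ W, (∀ t ∈ T, w t = 0) → w = 0 := by
  induction s generalizing W with
  | zero =>
    refine ⟨∅, le_rfl, fun w hw _ => ?_⟩
    have h0 : W = ⊥ := Submodule.finrank_eq_zero.1 (Nat.le_zero.1 h)
    rw [h0] at hw
    exact hw
  | succ s ih =>
    by_cases h0 : W = ⊥
    · refine ⟨∅, Nat.zero_le _, fun w hw _ => ?_⟩
      rw [h0] at hw
      exact hw
    obtain ⟨v, hv, hv0⟩ := Submodule.exists_mem_ne_zero_of_ne_bot h0
    obtain ⟨t, ht⟩ := Function.ne_iff.1 hv0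
    have hlt : W ⊓ LinearMap.ker (LinearMap.proj (R := L) (φ := fun _ : Fin N => L) t) < W :=
      lt_of_le_of_ne inf_le_left fun h1 => ht (by
        have h2 := hv
        rw [← h1] at h2
        exact h2.2)
    obtain ⟨T, h1, h2⟩ := ih _ (Nat.le_of_lt_succ ((Submodule.finrank_lt_finrank_of_lt hlt).trans_le h))
    refine ⟨insert t T, (card_insert_le _ _).trans (Nat.succ_le_succ h1), fun w hw h3 => ?_⟩
    exact h2 w ⟨hw, h3 t (mem_insert_self _ _)⟩ fun u hu => h3 u (mem_insert_of_mem hu)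

/-- Siegel's lemma: `s + 1` dependent vectors span at most `s` dimensions over the fraction field; `exists_coords`; count
`(s+1) q (b+1) > s q (b + D + n + 1)` for `b = N (D + n)`, `s ≤ N` (if `s > N` use only `N + 1` of the vectors) -/
theorem siegel {N s D : ℕ} (hs : s ≤ N) (w : Fin (s + 1) → Fin N → C.R) (hw : ∀ j k, w j k ∈ C.V D)
    (h : ¬ LinearIndependent C.R w) :
    ∃ g : Fin (s + 1) → C.R, g ≠ 0 ∧ (∀ j, g j ∈ C.V (N * (D + C.n))) ∧ ∀ k, ∑ j, g j * w j k = 0 := by
  have := C.isDomain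
  classical
  let L := FractionRing C.R
  let w' : Fin (s + 1) → Fin N → L := fun j k => algebraMap C.R L (w j k)
  have hinj := IsFractionRing.injective C.R L
  have h1 : ¬ LinearIndependent L w' := by
    intro h2
    refine h (Fintype.linearIndependent_iff.2 fun g hg j => hinj ?_)
    rw [map_zero]
    refine Fintype.linearIndependent_iff.1 h2 (fun j => algebraMap C.R L (g j)) ?_ j
    funext k
    have h3 := congrArg (algebraMap C.R L) (congrFun hg k)
    simpa [w', Algebra.smul_def] using h3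
  have h2 : Module.finrank L (Submodule.span L (Set.range w')) ≤ s := by
    rw [linearIndependent_iff_card_le_finrank_span, Fintype.card_fin, not_le] at h1
    exact Nat.le_of_lt_succ h1
  obtain ⟨T, hT, h3⟩ := exists_coords s _ h2
  set b := N * (D + C.n) with hb
  let φ : (Fin (s + 1) → C.V b) →ₗ[C.K] (T → C.V (b + D + C.n)) :=
    { toFun := fun g t => ⟨∑ j, (g j : C.R) * w j t, Submodule.sum_mem _ fun j _ => C.mul_mem_V (g j).2 (hw j t)⟩
      map_add' := fun g g' => by
        funext t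
        apply Subtype.ext
        simp [add_mul, sum_add_distrib]
      map_smul' := fun c g => by
        funext t
        apply Subtype.ext
        simp [smul_sum] }
  have := (C.finrank_V b).1
  have := (C.finrank_V (b + D + C.n)).1
  have hlt : Module.finrank C.K (T → C.V (b + D + C.n)) < Module.finrank C.K (Fin (s + 1) → C.V b) := by
    rw [Module.finrank_pi_fintype, Module.finrank_pi_fintype]
    simp only [(C.finrank_V _).2, sum_const, card_univ, Fintype.card_coe, Fintype.card_fin, smul_eq_mul]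
    have h4 : s * (D + C.n) ≤ b := Nat.mul_le_mul_right _ hs
    have hq := C.hq.pos
    calc T.card * (C.q * (b + D + C.n + 1)) ≤ s * (C.q * (b + D + C.n + 1)) := Nat.mul_le_mul_right _ hT
      _ = C.q * (s * (b + 1) + s * (D + C.n)) := by ring
      _ < C.q * (s * (b + 1) + (b + 1)) := Nat.mul_lt_mul_of_pos_left (by omega) hq
      _ = (s + 1) * (C.q * (b + 1)) := by ring
  obtain ⟨g, hg, hg0⟩ := Submodule.exists_mem_ne_zero_of_ne_bot (LinearMap.ker_ne_bot_of_finrank_lt (f := φ) hlt)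
  refine ⟨fun j => g j, fun h4 => hg0 (funext fun j => Subtype.ext (congrFun h4 j)), fun j => (g j).2, fun k => hinj ?_⟩
  have h4 := h3 (∑ j, algebraMap C.R L (g j) • w' j)
    (Submodule.sum_mem _ fun j _ => Submodule.smul_mem _ _ (Submodule.subset_span ⟨j, rfl⟩)) fun t ht => by
      have h5 := congrArg (algebraMap C.R L) (congrArg Subtype.val (congrFun (LinearMap.mem_ker.1 hg) ⟨t, ht⟩))
      simpa [w', φ, Algebra.smul_def] using h5
  simpa [w', Algebra.smul_def] using congrFun h4 k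

/-- `v * (v ^ j e) = v ^ (j + 1) e` in coordinates -/
theorem row_succ (u : C.K[X]) (e : Fin C.q → C.R) {j : ℕ} (hj : j < C.q) (k : Fin C.q) :
    C.row u e (j + 1) k = (if k.val = 0 then C.ι u else 1) * C.sg 1 (C.row u e j (C.ix (k.val + C.q - 1))) := by
  have hk := k.2
  have h1 : C.sg (j + 1) (e (C.ix (k.val + C.q - (j + 1)))) =
      C.sg 1 (C.sg j (e (C.ix ((k.val + C.q - 1) % C.q + C.q - j)))) := by
    rw [← sg_add, add_comm 1 j]
    congr 2
    apply Fin.ext
    change _ % C.q = _ % C.q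
    by_cases h0 : k.val = 0
    · rw [h0, Nat.mod_eq_of_lt (show 0 + C.q - 1 < C.q by omega),
        show 0 + C.q - 1 + C.q - j = 0 + C.q - (j + 1) + C.q by omega, Nat.add_mod_right]
    · rw [show k.val + C.q - 1 = k.val - 1 + C.q by omega, Nat.add_mod_right,
        Nat.mod_eq_of_lt (show k.val - 1 < C.q by omega)]
      congr 1
      omega
  rw [row, row, h1, map_mul, ← mul_assoc]
  congr 1
  change _ = _ * C.sg 1 (if (k.val + C.q - 1) % C.q < j then _ else _)
  by_cases h0 : k.val = 0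
  · rw [if_pos h0, h0, Nat.mod_eq_of_lt (show 0 + C.q - 1 < C.q by omega), if_pos (by omega),
      if_neg (by omega), map_one, mul_one]
  · rw [if_neg h0, show k.val + C.q - 1 = k.val - 1 + C.q by omega, Nat.add_mod_right,
      Nat.mod_eq_of_lt (show k.val - 1 < C.q by omega), one_mul]
    by_cases h2 : k.val < j + 1
    · rw [if_pos h2, if_pos (by omega), sg_ι]
    · rw [if_neg h2, if_neg (by omega), map_one]

theorem row_zero (u : C.K[X]) (e : Fin C.q → C.R) : C.row u e 0 = e := by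
  funext k
  rw [row, if_neg (Nat.not_lt_zero _), one_mul, sg_zero]
  congr 1
  apply Fin.ext
  change _ % C.q = _
  rw [Nat.sub_zero, Nat.add_mod_right, Nat.mod_eq_of_lt k.2]

theorem row_q (u : C.K[X]) (e : Fin C.q → C.R) (k : Fin C.q) : C.row u e C.q k = C.ι u * e k := by
  rw [row, if_pos k.2, sg_q]
  congr 2
  apply Fin.ext
  change _ % C.q = _
  rw [Nat.add_sub_cancel, Nat.mod_eq_of_lt k.2]

theorem d2c_abs {R V : Type} [CommRing R] [AddCommGroup V] [Module R V] (σ : R →+* R) (T : V →ₛₗ[σ] V)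
    {s : ℕ} {w : Fin s → V} (hw : LinearIndependent R w) (A : Matrix (Fin s) (Fin s) R) (c u : R)
    (h : ∀ i, c • T (w i) = ∑ j, A i j • w j) (q : ℕ) (hq : ∀ v, T^[q] v = u • v) :
    ∏ k ∈ range q, σ^[k] A.det = ((∏ k ∈ range q, σ^[k] c) * u) ^ s := by
  have key : ∀ m, ∃ B : Matrix (Fin s) (Fin s) R, B.det = ∏ k ∈ range m, σ^[k] A.det ∧
      ∀ i, (∏ k ∈ range m, σ^[k] c) • T^[m] (w i) = ∑ j, B i j • w j := by
    intro m
    induction m with
    | zero => exact ⟨1, by simp, fun i => by simp [Matrix.one_apply]⟩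
    | succ m ih =>
      obtain ⟨B, h1, h2⟩ := ih
      refine ⟨σ.mapMatrix B * A, ?_, fun i => ?_⟩
      · rw [Matrix.det_mul, ← RingHom.map_det, h1, prod_range_succ', map_prod]
        simp only [Function.iterate_succ_apply', Function.iterate_zero_apply]
      · have h3 := congrArg (fun v => c • T v) (h2 i)
        simp only [map_smulₛₗ, map_sum, map_prod, smul_sum, smul_comm c, h] at h3
        rw [prod_range_succ']
        simp only [Function.iterate_succ_apply', Function.iterate_zero_apply, mul_smul, h3,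
          Matrix.mul_apply, sum_smul, RingHom.mapMatrix_apply, Matrix.map_apply]
        exact sum_comm
  obtain ⟨B, h1, h2⟩ := key q
  have h3 : B = ((∏ k ∈ range q, σ^[k] c) * u) • (1 : Matrix (Fin s) (Fin s) R) := by
    ext i j
    refine (Fintype.linearIndependent_iffₛ.1 hw) (B i) _ ?_ j
    rw [← h2, hq, smul_smul]
    simp [Matrix.one_apply]
  rw [← h1, h3, Matrix.det_smul, Matrix.det_one, mul_one, Fintype.card_fin]

theorem d2c_det {R : Type} [CommRing R] (t : ℕ) (g : ℕ → R) (c : R) :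
    (Matrix.of fun i j : Fin (t + 1) => if i.val = t then -g j else if j.val = i.val + 1 then c else 0).det =
      (-1) ^ (t + 1) * g 0 * c ^ t := by
  rw [Matrix.det_succ_column_zero, sum_eq_single (Fin.last t)]
  · have : (Matrix.of fun i j : Fin (t + 1) =>
        if i.val = t then -g j else if j.val = i.val + 1 then c else 0).submatrix
        (Fin.last t).succAbove Fin.succ = Matrix.diagonal fun _ => c := by
      ext i j
      simp [Matrix.diagonal_apply, i.2.ne', Fin.ext_iff, eq_comm]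
    rw [this, Matrix.det_diagonal]
    simp [pow_succ]
  · intro i _ hi
    have : i.val ≠ t := fun h => hi (Fin.ext h)
    simp [this]
  · simp

/-- left multiplication by `v` -/
def d2c_T (u : C.K[X]) : (Fin C.q → C.R) →ₛₗ[(C.sg 1 : C.R →+* C.R)] (Fin C.q → C.R) where
  toFun w k := (if k.val = 0 then C.ι u else 1) * C.sg 1 (w (C.ix (k.val + C.q - 1)))
  map_add' w w' := by
    funext k
    simp only [Pi.add_apply, map_add, mul_add]
  map_smul' c w := by
    funext k
    simp only [Pi.smul_apply, smul_eq_mul, map_mul, RingHom.coe_coe]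
    ring

theorem d2c_iter (u : C.K[X]) (e : Fin C.q → C.R) {j : ℕ} (hj : j ≤ C.q) :
    (C.d2c_T u)^[j] e = C.row u e j := by
  induction j with
  | zero => exact (C.row_zero u e).symm
  | succ j ih =>
    rw [Function.iterate_succ_apply', ih (Nat.le_of_succ_le hj)]
    funext k
    exact (C.row_succ u e hj k).symm

theorem d2c_Nm (z : C.R) : C.Nm z = ∏ k ∈ range C.q, (C.sg 1 : C.R →+* C.R)^[k] z := by
  rw [Nm, Nz, Nat.Ico_zero_eq_range]
  refine prod_congr rfl fun k hk => ?_
  clear hk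
  induction k with
  | zero => exact C.sg_zero z
  | succ k ih => rw [Function.iterate_succ_apply', add_comm, sg_add, ih]; rfl

/-- Let `T w k = (if k = 0 then u else 1) * σ (w (k - 1))`, a `σ`-semilinear map of `R ^ q` with `T ^ q = u` (`row_succ`, `row_q` for every `e`).
The rows `w_j = T ^ j e`, `j < s`, are independent and `g s • w_s = -∑_{j<s} g j • w_j`.  So `g s • T w = A w` for the `s × s` matrix `A` with rows
`g s • e_{j+1}` and last row `-g`; applying `T` repeatedly, `Nm (g s) • u • w = (σ^(q-1) A) ⋯ (σ A) A w`, hence this product is `Nm (g s) u • 1`;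
take determinants, `det A = (-1)^s g 0 * g s ^ (s-1)`, and cancel `Nm (g s) ^ (s-1)`. -/
theorem companion (u : C.K[X]) (e : Fin C.q → C.R) {s : ℕ} (hs0 : 0 < s) (hs : s < C.q) (g : ℕ → C.R) (hg : g s ≠ 0)
    (hrel : ∀ k, ∑ j ∈ range (s + 1), g j * C.row u e j k = 0)
    (hmin : LinearIndependent C.R fun j : Fin s => C.row u e j.val) :
    C.Nm ((-1) ^ s * g 0) = C.ι u ^ s * C.Nm (g s) := by
  have := C.isDomain
  obtain ⟨t, rfl⟩ := Nat.exists_eq_succ_of_ne_zero hs0.ne'
  have h := d2c_abs _ (C.d2c_T u) hmin (Matrix.of fun i j : Fin (t + 1) =>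
    if i.val = t then -g j else if j.val = i.val + 1 then g (t + 1) else 0) (g (t + 1)) (C.ι u)
    (fun i => ?_) C.q fun v => ?_
  · rw [← d2c_Nm, ← d2c_Nm, d2c_det, Nm_mul, Nm_pow, mul_pow, pow_succ (C.Nm (g (t + 1)))] at h
    refine mul_right_cancel₀ (pow_ne_zero t (C.Nz_ne_zero hg 0 C.q)) (h.trans ?_)
    simp only [Nm]
    ring
  · have h1 : C.d2c_T u (C.row u e i) = C.row u e (i + 1) :=
      funext fun k => (C.row_succ u e (i.2.trans hs) k).symm
    rw [h1]
    by_cases hi : i.val = t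
    · funext k
      have h2 := hrel k
      rw [sum_range_succ, sum_range] at h2
      simp only [Matrix.of_apply, hi, if_true, Finset.sum_apply, Pi.smul_apply, smul_eq_mul, neg_mul,
        sum_neg_distrib]
      exact eq_neg_of_add_eq_zero_right h2
    · have h2 : i.val + 1 < t + 1 := by have := i.2; omega
      rw [sum_eq_single ⟨i.val + 1, h2⟩]
      · simp [hi]
      · intro j _ hj
        have : j.val ≠ i.val + 1 := fun h => hj (Fin.ext h)
        simp [hi, this]
      · simp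
  · rw [C.d2c_iter u v le_rfl]
    funext k
    exact C.row_q u v k

/-- the least `s` with dependent rows `0 … s` -/
theorem exists_min (u : C.K[X]) {e : Fin C.q → C.R} (he : e ≠ 0) (hd : (C.mat u e).det = 0) :
    ∃ s, 0 < s ∧ s < C.q ∧ LinearIndependent C.R (fun j : Fin s => C.row u e j.val) ∧
      ¬ LinearIndependent C.R (fun j : Fin (s + 1) => C.row u e j.val) := by
  have := C.isDomain
  classical
  have h1 : ¬ LinearIndependent C.R fun j : Fin C.q => C.row u e j.val := fun h => by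
    obtain ⟨v, hv, h2⟩ := Matrix.exists_vecMul_eq_zero_iff.2 hd
    refine hv (funext (Fintype.linearIndependent_iff.1 h v ?_))
    rw [← h2, Matrix.vecMul_eq_sum]
    rfl
  have hex : ∃ s, ¬ LinearIndependent C.R fun j : Fin s => C.row u e j.val := ⟨_, h1⟩
  have h2 := Nat.find_spec hex
  have h3 : Nat.find hex ≤ C.q := Nat.find_min' hex h1
  have h4 : ∀ m, m < Nat.find hex → LinearIndependent C.R fun j : Fin m => C.row u e j.val :=
    fun m hm => not_not.1 (Nat.find_min hex hm)
  generalize Nat.find hex = s at h2 h3 h4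
  rcases s with _ | _ | s
  · exact (h2 linearIndependent_empty_type).elim
  · refine (h2 ((linearIndependent_unique_iff (ι := Fin 1)).2 ?_)).elim
    simpa [row_zero] using he
  · exact ⟨s + 1, Nat.succ_pos _, h3, h4 _ (Nat.lt_succ_self _), h2⟩

end Cv

end Crest.Agent.R312
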