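import Crest.Agent.R312.A4
import Crest.Agent.R312.D1
import Crest.Agent.R312.D2

/-!
# R312/A6: division by `λ`.
-/

set_option autoImplicit false

open Polynomial Finset Crest.Agent.Lib.PolyTime

noncomputable section

namespace Crest.Agent.R312

variable {α α' : Type} [Enc α] [Enc α'] {C : α → Cv}

theorem Cv.a6a_lin (C : Cv) {ι : Type} [Fintype ι] {c : ℕ} (Φ : (Fin c → C.R) →ₗ[C.K] C.K[X])
    (lam : ι → C.K) (v : ι → Fin c → C.R) : ∑ x, lam x • C.ι (Φ (v x)) = 0 ↔ Φ (∑ x, lam x • v x) = 0 := by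
  have e : ∑ x, lam x • C.ι (Φ (v x)) = C.ι (Φ (∑ x, lam x • v x)) := by
    rw [map_sum, Cv.ι, map_sum]
    refine Finset.sum_congr rfl fun x _ => ?_
    rw [map_smul, smul_eq_C_mul, map_mul, C.ι_C]
  rw [e]
  exact map_eq_zero_iff _ C.ι_inj

/-- `solv_sol` for linear conditions on the value -/
theorem a6a_sol (hC : Good C) {ι κ : α → Type} [∀ a, Enc (ι a)] [∀ a, Enc (κ a)] [∀ a, Fintype (ι a)] (hι : En ι)
    (hκ : En κ) {c : α → ℕ} (hc : UN c) {m : ∀ a, ι a → Fin (c a) → (C a).RS}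
    (hm : DPT fun p : Σ a, ι a × Fin (c a) => m p.1 p.2.1 p.2.2)
    {A : ∀ a, κ a → (Fin (c a) → (C a).RS) → (C a).S1[X]}
    (hA : DPT fun p : Σ w : (Σ a, Fin (c a) → (C a).RS), κ w.1 => A p.1.1 p.2 p.1.2)
    (Φ : ∀ a, (C a).Ω → κ a → (Fin (c a) → (C a).R) →ₗ[(C a).K] (C a).K[X])
    (h : ∀ a i k w, (C a).evP i (A a k w) = Φ a i k ((C a).evT i w)) :
    Solv fun a (L : List (Fin (c a) → (C a).RS)) => ∀ i z, z ∈ (C a).spT L i ↔
      (∃ lam : ι a → (C a).K, z = ∑ x, lam x • (C a).evT i (m a x)) ∧ ∀ k, Φ a i k z = 0 := by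
  have hφ : PT fun p : Σ w : (Σ a, κ a × ι a), Fin (c w.1) => (⟨p.1.1, (p.1.2.2, p.2)⟩ : Σ a, ι a × Fin (c a)) :=
    pt_sigma_mk (pt_sigma_fst.comp pt_sigma_fst) ((dpt_sigma_snd.comp pt_sigma_fst).snd.pair dpt_sigma_snd)
  have hm₀ : DPT fun p : Σ w : (Σ a, κ a × ι a), Fin (c w.1) => m p.1.1 p.1.2.2 p.2 := (hm.comp hφ :)
  have hm' : DPT fun p : Σ a, κ a × ι a => m p.1 p.2.2 :=
    DPT.pi (β := fun p : Σ a, κ a × ι a => (C p.1).RS) (hc.comp pt_sigma_fst) hm₀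
  have hψ : PT fun p : Σ a, κ a × ι a =>
      (⟨⟨p.1, m p.1 p.2.2⟩, p.2.1⟩ : Σ w : (Σ a, Fin (c a) → (C a).RS), κ w.1) :=
    pt_sigma_mk (pt_sigma_mk pt_sigma_fst hm') dpt_sigma_snd.fst
  have hA' : DPT fun p : Σ a, κ a × ι a => A p.1 p.2.1 (m p.1 p.2.2) := hA.comp hψ
  refine (solv_sol hC hι hκ hc (A := fun a k x => (C a).ιS (A a k (m a x)))
    ((hC.comp pt_sigma_fst).dι hA') hm).mono fun a L hL i z => ?_
  have e : ∀ (lam : ι a → (C a).K) k, ∑ x, lam x • (C a).evR i ((C a).ιS (A a k (m a x))) = 0 ↔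
      Φ a i k (∑ x, lam x • (C a).evT i (m a x)) = 0 := fun lam k => by
    simp only [Cv.evR_ι, h]
    exact (C a).a6a_lin _ _ _
  rw [hL]
  simp only [e]
  exact ⟨fun ⟨lam, h1, h2⟩ => ⟨⟨lam, h2⟩, h2 ▸ h1⟩, fun ⟨⟨lam, h2⟩, h1⟩ => ⟨lam, h2 ▸ h1, h2⟩⟩

/-- `glue` over `S1` -/
def Cv.a6aS (C : Cv) (r : C.S1[X]) (e : Fin C.q → C.RS) (b m : ℕ) : C.S1[X] :=
  ∑ k : Fin C.q, Polynomial.C (algebraMap C.K C.S1 (C.ζ ^ ((C.q - k.val) * b))) * r ^ k.val * C.coS (e k) m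

/-- `glue` as a linear map -/
def Cv.a6aL (C : Cv) (r : C.K[X]) (b m : ℕ) : (Fin C.q → C.R) →ₗ[C.K] C.K[X] :=
  ∑ k : Fin C.q, LinearMap.mulLeft C.K (Polynomial.C (C.ζ ^ ((C.q - k.val) * b)) * r ^ k.val) ∘ₗ C.coL m ∘ₗ
    LinearMap.proj k

theorem Cv.a6aL_apply (C : Cv) (r : C.K[X]) (b m : ℕ) (e : Fin C.q → C.R) : C.a6aL r b m e = C.glue r e b m :=
  LinearMap.sum_apply _ _ _

theorem Cv.a6a_evC (C : Cv) (i : C.Ω) (s : C.S1) : C.evP i (Polynomial.C s) = Polynomial.C (s i) := map_C _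

theorem Cv.a6a_ev (C : Cv) (i : C.Ω) (r : C.S1[X]) (e : Fin C.q → C.RS) (b m : ℕ) :
    C.evP i (C.a6aS r e b m) = C.glue (C.evP i r) (C.evT i e) b m := by
  simp only [Cv.a6aS, Cv.glue, map_sum, map_mul, Cv.a6a_evC, map_pow (C.evP i), ← Cv.co_evR]
  rfl

theorem a6a_dglue (hC : Good C) {r : ∀ a, (C a).S1[X]} (hr : DPT r) {e : ∀ a, Fin (C a).q → (C a).RS} (he : DPT e)
    {b m : α → ℕ} (hb : PT b) (hm : PT m) : DPT fun a => (C a).a6aS (r a) (e a) (b a) (m a) := by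
  have π := pt_sigma_fst (β := fun a => Fin (C a).q)
  have h := hC.comp π
  exact hC.p1.dsum (En.fin hC.q) (h.p1.dmul (h.p1.dmul (h.s1.dC (h.dK1 (h.br.dpow h.ζ
    ((h.q.1.nat_sub (UN.fin hC.q).1).nat_mul (hb.comp π))))) (h.p1.npow (hr.comp π) (UN.fin hC.q)))
    (h.dco ((he.comp π).apply dpt_sigma_snd) (hm.comp π)))

/-- the solutions of `ZD` for a guessed degree `d`.  `L_k = solv_NI G k q M` with `M = q D + D + n` (`ZD.mem_V`); unknowns `Fin q × Fin (q (M + 1))`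
(`mem_spn_iff`), value `Pi.single k (L_k.getD x 0)`; conditions: coefficients, `ιS ((C ζ^.. * r^k * coS g m) %ₘ fS)`, values at `tS` -/
theorem solv_zd1 (hC : Good C) {G : ∀ a, List (C a).RS} (hG : DPT G) {D d : α → ℕ} (hD : UN D) (hd : UN d)
    {r : ∀ a, (C a).S1[X]} (hr : DPT r) :
    Solv fun a (L : List (Fin (C a).q → (C a).RS)) => ∀ i, (C a).idl (G a) i ≠ ⊥ →
      (C a).nd ((C a).idl (G a) i) ≤ D a → d a ≤ D a →
      ∀ e, e ∈ (C a).spT L i ↔ (C a).ZD ((C a).idl (G a) i) (d a) ((C a).evP i (r a)) i e := by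
  classical
  have hM : UN fun a => (C a).q * D a + D a + (C a).n := ((hC.q.mul hD).add hD).add hC.n
  generalize hMe : (fun a => (C a).q * D a + D a + (C a).n) = M at hM
  have eM : ∀ a, (C a).q * D a + D a + (C a).n = M a := congrFun hMe
  have hM1 := hM.add (UN.const 1)
  have hN := hC.q.mul hM1
  obtain ⟨L, hL, eL⟩ := Solv.pi hC.q (R := fun a k (L : List (C a).RS) => (C a).Bd L (M a) ∧ ∀ i,
      (C a).idl (G a) i ≠ ⊥ → ((C a).q - k.val) * (C a).nd ((C a).idl (G a) i) ≤ M a →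
      (C a).Rp L (M a) i ((C a).NI ((C a).idl (G a) i) k.val (C a).q))
    (solv_NI (hC.comp pt_sigma_fst) (hG.comp pt_sigma_fst) (UN.fin hC.q) (hC.q.comp pt_sigma_fst)
      (hM.comp pt_sigma_fst))
  have key := a6a_sol hC (ι := fun a => Fin (C a).q × Fin ((C a).q * (M a + 1)))
    (κ := fun a => (Fin (C a).q × Fin (C a).q × Fin (M a + 1)) ⊕ (Fin (C a).q × Fin (C a).q) ⊕ Fin (C a).q)
    ((En.fin hC.q).prod (En.fin hN))
    (((En.fin hC.q).prod ((En.fin hC.q).prod (En.fin hM1))).sum (((En.fin hC.q).prod (En.fin hC.q)).sum (En.fin hC.q)))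
    hC.q (m := fun a x k => if k = x.1 then (L a x.1).getD x.2.val 0 else 0)
    (DPT.ite (dpt_sigma_snd.snd.eq dpt_sigma_snd.fst.fst)
      (((hL.comp pt_sigma_fst).apply dpt_sigma_snd.fst.fst).getD dpt_sigma_snd.fst.snd.finVal
        (hC.comp pt_sigma_fst).rs.zero) (hC.comp pt_sigma_fst).rs.zero)
    (A := fun a => Sum.elim
      (fun x w => if (C a).q * d a + (C a).n * ((C a).q - 1) < (C a).q * x.2.2.val + x.1.val * d a + x.2.1.val * (C a).n
        then Polynomial.C (((C a).coS (w x.1) x.2.1.val).coeff x.2.2.val) else 0)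
      (Sum.elim (fun x w => if x.2.val < x.1.val then (C a).a6aS (r a) w x.1.val x.2.val %ₘ (C a).fS else 0)
        fun b w => Polynomial.C (((C a).a6aS (r a) w b.val b.val).eval (C a).tS)))
    ?_ (fun a i => Sum.elim
      (fun x => if (C a).q * d a + (C a).n * ((C a).q - 1) < (C a).q * x.2.2.val + x.1.val * d a + x.2.1.val * (C a).n
        then monomial 0 ∘ₗ lcoeff _ x.2.2.val ∘ₗ (C a).coL x.2.1.val ∘ₗ LinearMap.proj x.1 else 0)
      (Sum.elim (fun x => if x.2.val < x.1.val then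
          modByMonicHom (C a).f ∘ₗ (C a).a6aL ((C a).evP i (r a)) x.1.val x.2.val else 0)
        fun b => monomial 0 ∘ₗ leval ((C a).rt i) ∘ₗ (C a).a6aL ((C a).evP i (r a)) b.val b.val)) ?_
  · refine key.mono fun a L' h i h0 hnd hdD e => ?_
    have hR : ∀ k : Fin (C a).q, ∀ z, (∃ lam : Fin ((C a).q * (M a + 1)) → (C a).K,
        z = ∑ x, lam x • (C a).evR i ((L a k).getD x.val 0)) ↔
        z ∈ (C a).NI ((C a).idl (G a) i) k.val (C a).q ∧ z ∈ (C a).V (M a) := fun k z => by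
      rw [← (C a).mem_spn_iff (eL a k).1.1]
      refine (eL a k).2 i h0 ?_ z
      have := Nat.mul_le_mul (Nat.sub_le (C a).q k.val) hnd
      have := eM a
      omega
    have hs : ∀ (lam : Fin (C a).q × Fin ((C a).q * (M a + 1)) → (C a).K) (k : Fin (C a).q),
        (∑ x, lam x • (C a).evT i fun k => if k = x.1 then (L a x.1).getD x.2.val 0 else 0) k =
          ∑ x, lam (k, x) • (C a).evR i ((L a k).getD x.val 0) := fun lam k => by
      rw [Finset.sum_apply, Fintype.sum_prod_type, Finset.sum_eq_single k]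
      · simp [Cv.evT]
      · intro j _ hj
        simp [Cv.evT, hj.symm]
      · simp
    rw [h i e]
    constructor
    · rintro ⟨⟨lam, rfl⟩, h2⟩
      have h1 := fun k => (hR k _).1 ⟨_, hs lam k⟩
      generalize (∑ x, lam x • (C a).evT i fun k => if k = x.1 then (L a x.1).getD x.2.val 0 else 0) = e at h1 h2
      refine ⟨fun k => (h1 k).1, fun k l t hlt => ?_, fun b m hm hb => ?_, fun b hb => ?_⟩
      · rcases le_or_gt (C a).q l with hl | hl
        · rw [(C a).co_of_le _ hl, coeff_zero]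
        · rcases lt_or_ge (M a) t with ht | ht
          · exact coeff_eq_zero_of_natDegree_lt (((C a).mem_V.1 (h1 k).2 l).trans_lt ht)
          · have := h2 (Sum.inl (k, ⟨l, hl⟩, ⟨t, Nat.lt_succ_of_le ht⟩))
            rw [Sum.elim_inl, if_pos hlt] at this
            exact (monomial_eq_zero_iff _ _).1 this
      · have := h2 (Sum.inr (Sum.inl (⟨b, hb⟩, ⟨m, hm.trans hb⟩)))
        rw [Sum.elim_inr, Sum.elim_inl, if_pos hm, LinearMap.comp_apply, Cv.a6aL_apply] at this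
        exact (modByMonic_eq_zero_iff_dvd (C a).mon).1 this
      · have := h2 (Sum.inr (Sum.inr ⟨b, hb⟩))
        rw [Sum.elim_inr, Sum.elim_inr, LinearMap.comp_apply, LinearMap.comp_apply, Cv.a6aL_apply] at this
        exact (monomial_eq_zero_iff _ _).1 this
    · intro hz
      choose lam hlam using fun k => (hR k (e k)).2 ⟨hz.mem k, (C a).V_mono (by have := eM a; omega) (hz.mem_V k)⟩
      refine ⟨⟨fun x => lam x.1 x.2, funext fun k => (hlam k).trans (hs (fun x => lam x.1 x.2) k).symm⟩, ?_⟩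
      rintro (⟨k, l, t⟩ | ⟨b, m⟩ | b)
      · rw [Sum.elim_inl]
        split_ifs with hlt
        · exact (monomial_eq_zero_iff _ _).2 (hz.wt k l t hlt)
        · rfl
      · rw [Sum.elim_inr, Sum.elim_inl]
        split_ifs with hlt
        · rw [LinearMap.comp_apply, Cv.a6aL_apply]
          exact (modByMonic_eq_zero_iff_dvd (C a).mon).2 (hz.gl b m hlt b.2)
        · rfl
      · rw [Sum.elim_inr, Sum.elim_inr, LinearMap.comp_apply, LinearMap.comp_apply, Cv.a6aL_apply]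
        exact (monomial_eq_zero_iff _ _).2 (hz.base b b.2)
  · have π : PT fun p : Σ a, Fin (C a).q → (C a).RS => p.1 := pt_sigma_fst
    have hw : DPT fun p : Σ a, Fin (C a).q → (C a).RS => p.2 := dpt_sigma_snd
    have hC' := hC.comp π
    have hr' := hr.comp π
    have hd' := hd.comp π
    refine DPT.sumCases ?_ (DPT.sumCases ?_ ?_)
    · have π := pt_sigma_fst (β := fun p : Σ a, Fin (C a).q → (C a).RS =>
        Fin (C p.1).q × Fin (C p.1).q × Fin (M p.1 + 1))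
      have hx := dpt_sigma_snd (β := fun p : Σ a, Fin (C a).q → (C a).RS =>
        Fin (C p.1).q × Fin (C p.1).q × Fin (M p.1 + 1))
      have h2 := hC'.comp π
      have hd2 := (hd'.comp π).1
      exact DPT.ite (PT.nat_lt ((h2.q.1.nat_mul hd2).nat_add (h2.n.1.nat_mul (h2.q.1.nat_sub (PT.const 1))))
        (((h2.q.1.nat_mul hx.snd.snd.finVal).nat_add (hx.fst.finVal.nat_mul hd2)).nat_add
          (hx.snd.fst.finVal.nat_mul h2.n.1)))
        (h2.s1.dC (h2.s1.dcoeff (h2.dco ((hw.comp π).apply hx.fst) hx.snd.fst.finVal) hx.snd.snd.finVal))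
        h2.p1.zero
    · have π := pt_sigma_fst (β := fun p : Σ a, Fin (C a).q → (C a).RS => Fin (C p.1).q × Fin (C p.1).q)
      have hx := dpt_sigma_snd (β := fun p : Σ a, Fin (C a).q → (C a).RS => Fin (C p.1).q × Fin (C p.1).q)
      have h2 := hC'.comp π
      exact DPT.ite (PT.nat_lt hx.snd.finVal hx.fst.finVal)
        (h2.s1.dmod (a6a_dglue h2 (hr'.comp π) (hw.comp π) hx.fst.finVal hx.snd.finVal) h2.dfS
          fun p => (C p.1.1).mon.map _) h2.p1.zero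
    · have π := pt_sigma_fst (β := fun p : Σ a, Fin (C a).q → (C a).RS => Fin (C p.1).q)
      have hx := dpt_sigma_snd (β := fun p : Σ a, Fin (C a).q → (C a).RS => Fin (C p.1).q)
      have h2 := hC'.comp π
      exact h2.s1.dC (h2.s1.deval (a6a_dglue h2 (hr'.comp π) (hw.comp π) hx.finVal hx.finVal) h2.dt)
  · rintro a i (⟨k, l, t⟩ | ⟨b, m⟩ | b) w
    · simp only [Sum.elim_inl]
      split_ifs with hlt
      · rw [Cv.a6a_evC, ← Cv.coeff_evP, ← Cv.co_evR]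
        rfl
      · exact map_zero _
    · simp only [Sum.elim_inr, Sum.elim_inl]
      split_ifs with hlt
      · rw [LinearMap.comp_apply, Cv.a6aL_apply, ← Cv.a6a_ev, modByMonicHom_apply, ← (C a).evP_fS i]
        exact Polynomial.map_modByMonic _ ((C a).mon.map _)
      · exact map_zero _
    · simp only [Sum.elim_inr]
      rw [LinearMap.comp_apply, LinearMap.comp_apply, Cv.a6aL_apply, ← Cv.a6a_ev, Cv.a6a_evC, leval_apply,
        monomial_zero_left, Cv.evP, coe_mapRingHom, eval_map]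
      exact congrArg _ (eval₂_at_apply (Pi.evalRingHom (fun _ => (C a).K) i) (C a).tS).symm

/-- stages `d ≤ D`, each multiplied by the indicator of `natDegree u = d` (`ind_deg`); `solv_firstT`, `exists_zd`, `det_eq_zero` -/
theorem solv_zd (hC : Good C) {G : ∀ a, List (C a).RS} (hG : DPT G) {D : α → ℕ} (hD : UN D)
    {u r : ∀ a, (C a).S1[X]} (hu : DPT u) (hr : DPT r) :
    Solv fun a (e : Fin (C a).q → (C a).RS) => ∀ i,
      (C a).DH ((C a).idl (G a) i) (D a) ((C a).evP i (u a)) ((C a).evP i (r a)) →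
      (C a).evT i e ≠ 0 ∧ ((C a).mat ((C a).evP i (u a)) ((C a).evT i e)).det = 0 := by
  have hD1 : UN fun a => D a + 1 := hD.add (UN.const 1)
  have h1 : PT fun p : Σ a, Fin (D a + 1) => p.1 := pt_sigma_fst
  obtain ⟨L, hL, h⟩ := solv_zd1 (hC.comp h1) (hG.comp h1) (hD.comp h1) (UN.fin hD1) (hr.comp h1)
  have hi := (hC.comp h1).ind_deg (hu.comp h1) (UN.fin hD1).1
  have hL' : DPT fun p : Σ a, Fin (D a + 1) => (L p).map fun v k =>
      ((C p.1).ind fun i => ((C p.1).evP i (u p.1)).natDegree = p.2.val) • v k :=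
    hL.map (DPT.pi ((hC.q.comp h1).comp pt_sigma_fst)
      ((((hC.comp h1).comp pt_sigma_fst).comp pt_sigma_fst).dsmul ((hi.comp pt_sigma_fst).comp pt_sigma_fst)
        (DPT.apply (dpt_sigma_snd.comp pt_sigma_fst) dpt_sigma_snd)))
  obtain ⟨w, hw, h2⟩ := solv_firstT hC hC.q hD1 (L := fun a m => (L ⟨a, m⟩).map fun v k =>
    ((C a).ind fun i => ((C a).evP i (u a)).natDegree = m.val) • v k) (DPT.pi hD1 hL')
  refine ⟨w, hw, fun a i hd => ?_⟩
  have h0 := hd.cop.ne_bot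
  have hn := (hd.isN.natDegree h0).2
  have hs : ∀ (p : (C a).Ω → Prop) (v : Fin (C a).q → (C a).RS),
      (C a).evT i (fun k => (C a).ind p • v k) = (C a).ind p i • (C a).evT i v :=
    fun p v => funext fun k => (C a).evR_smul i _ _
  obtain ⟨m, -, ⟨_, hv, e⟩, h3⟩ := h2 a i (by
    obtain ⟨e, he, hz⟩ := (C a).exists_zd h0 ((C a).evP i (r a)) i
    have h4 := (h ⟨a, ⟨_, Nat.lt_succ_of_le hd.nd⟩⟩ i h0 hd.nd hd.nd e).2 hz
    by_contra h5
    push Not at h5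
    refine he ((Submodule.span_eq_bot.2 ?_).le h4)
    rintro _ ⟨v, hv, rfl⟩
    have h6 := h5 _ _ (List.mem_map_of_mem hv)
    rwa [hs, Cv.ind, if_pos hn, one_smul] at h6)
  obtain ⟨v, hv', rfl⟩ := List.mem_map.1 hv
  rw [hs, Cv.ind] at e
  split_ifs at e with h4
  · refine ⟨h3, (C a).det_eq_zero hd.cop hd.isN hd.root (i := i) ?_⟩
    rw [h4, e, one_smul]
    exact (h ⟨a, m⟩ i h0 hd.nd (Nat.le_of_lt_succ m.2) _).1 (Submodule.subset_span ⟨v, hv', rfl⟩)
  · exact (h3 (e.trans (zero_smul _ _))).elim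

theorem Cv.a6r_sum (C : Cv) (w : ℕ → Fin C.q → C.R) {s : ℕ} (hs : s < C.q) {z : Fin C.q → C.R}
    (hz : ∀ j : Fin C.q, s < j.val → z j = 0) (k : Fin C.q) :
    ∑ j ∈ range (s + 1), z (C.ix j) * w j k = ∑ j, z j * w j.val k := by
  have h1 : ∀ j : Fin C.q, C.ix j.val = j := fun j => Fin.ext (Nat.mod_eq_of_lt j.2)
  rw [← Finset.sum_congr rfl fun (j : Fin C.q) _ => congrArg (fun x => z x * w j.val k) (h1 j),
    Fin.sum_univ_eq_sum_range fun j => z (C.ix j) * w j k]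
  refine Finset.sum_subset (range_subset_range.2 hs) fun j hj hj' => ?_
  rw [hz _ (by rw [mem_range] at hj hj'; simp only [Cv.ix, Nat.mod_eq_of_lt hj]; omega), zero_mul]

theorem Cv.a6r_fin (C : Cv) (u : C.K[X]) (e : Fin C.q → C.R) {s : ℕ} (hs0 : 0 < s) (hs : s < C.q)
    (hmin : LinearIndependent C.R fun j : Fin s => C.row u e j.val) {z : Fin C.q → C.R} (h0 : z ≠ 0)
    (hz : ∀ j : Fin C.q, s < j.val → z j = 0) (hrel : ∀ k, ∑ j, z j * C.row u e j.val k = 0) :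
    z ⟨s, hs⟩ ≠ 0 ∧ C.Nm ((-1) ^ s * z (C.ix 0)) = C.ι u ^ s * C.Nm (z ⟨s, hs⟩) := by
  have h1 : ∀ j : Fin C.q, C.ix j.val = j := fun j => Fin.ext (Nat.mod_eq_of_lt j.2)
  have h2 : ∀ k, ∑ j ∈ range (s + 1), z (C.ix j) * C.row u e j k = 0 := fun k =>
    (C.a6r_sum _ hs hz k).trans (hrel k)
  have h3 : z ⟨s, hs⟩ ≠ 0 := fun h => h0 (funext fun j => by
    rcases lt_trichotomy j.val s with hj | hj | hj
    · have := Fintype.linearIndependent_iff.1 hmin (fun j => z (C.ix j.val)) (funext fun k => by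
        have h4 := h2 k
        rw [sum_range_succ, h1 ⟨s, hs⟩, h, zero_mul, add_zero, sum_range] at h4
        simpa only [Finset.sum_apply, Pi.smul_apply, smul_eq_mul, Pi.zero_apply] using h4) ⟨j.val, hj⟩
      rwa [h1] at this
    · exact (congrArg z (Fin.ext hj)).trans h
    · exact hz j hj)
  have h4 := C.companion u e hs0 hs (fun j => z (C.ix j)) (by rwa [h1 ⟨s, hs⟩]) h2 hmin
  rw [h1 ⟨s, hs⟩] at h4
  exact ⟨h3, h4⟩

theorem Cv.a6r_ex (C : Cv) (w : ℕ → Fin C.q → C.R) {s D : ℕ} (hs : s < C.q)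
    (hw : ∀ (j k : Fin C.q), w j.val k ∈ C.V D) (h : ¬ LinearIndependent C.R fun j : Fin (s + 1) => w j.val) :
    ∃ z : Fin C.q → C.R, z ≠ 0 ∧ (∀ j, z j ∈ C.V (C.q * (D + C.n))) ∧ (∀ j : Fin C.q, s < j.val → z j = 0) ∧
      ∀ k, ∑ j, z j * w j.val k = 0 := by
  obtain ⟨g, h0, h1, h2⟩ := C.siegel hs.le (fun j : Fin (s + 1) => w j.val)
    (fun j k => hw ⟨j.val, by have := j.2; omega⟩ k) h
  have hz : ∀ j : Fin C.q, s < j.val → (if h : j.val < s + 1 then g ⟨j.val, h⟩ else 0) = 0 :=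
    fun j hj => dif_neg (by omega)
  refine ⟨fun j => if h : j.val < s + 1 then g ⟨j.val, h⟩ else 0, fun h => h0 (funext fun j => ?_), fun j => ?_, hz,
    fun k => ?_⟩
  · simpa [j.2] using congrFun h ⟨j.val, by have := j.2; omega⟩
  · beta_reduce
    split_ifs
    · exact h1 _
    · exact Submodule.zero_mem _
  · rw [← C.a6r_sum w hs hz, sum_range, ← h2 k]
    refine Finset.sum_congr rfl fun j _ => ?_
    have : j.val % C.q = j.val := Nat.mod_eq_of_lt (by have := j.2; omega)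
    simp [Cv.ix, this, j.2]

theorem a6r_stage (hC : Good C) {u : ∀ a, (C a).S1[X]} (hu : DPT u) {e : ∀ a, Fin (C a).q → (C a).RS} (he : DPT e)
    {s b : α → ℕ} (hs : PT s) (hb : UN b) :
    Solv fun a (L : List (Fin (C a).q → (C a).RS)) => ∀ i z, z ∈ (C a).spT L i ↔ (∀ j, z j ∈ (C a).V (b a)) ∧
      (∀ j : Fin (C a).q, s a < j.val → z j = 0) ∧
        ∀ k, ∑ j, z j * (C a).row ((C a).evP i (u a)) ((C a).evT i (e a)) j.val k = 0 := by
  have hb1 : UN fun a => b a + 1 := hb.add (UN.const 1)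
  let ι : α → Type := fun a => Fin (C a).q × Fin (b a + 1) × Fin (C a).q
  let mm : ∀ a, ι a → (C a).RS := fun a x => if x.1.val ≤ s a then (C a).mono x.2.1.val x.2.2.val else 0
  have hmm : DPT fun p : Σ a, ι a => mm p.1 p.2 := by
    have hf : PT fun p : Σ a, ι a => p.1 := pt_sigma_fst
    have hx : DPT fun p : Σ a, ι a => p.2 := dpt_sigma_snd
    exact DPT.ite (PT.nat_le hx.fst.finVal (hs.comp hf))
      ((hC.comp hf).dmono (UN.of_le hx.snd.fst.finVal (hb1.2.comp hf) fun p => p.2.2.1.2.le)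
        (UN.of_le hx.snd.snd.finVal (hC.q.2.comp hf) fun p => p.2.2.2.2.le)) (hC.comp hf).rs.zero
  refine (solv_sol hC (ι := ι) (κ := fun a => Fin (C a).q) ((En.fin hC.q).prod ((En.fin hb1).prod (En.fin hC.q)))
    (En.fin hC.q) hC.q (A := fun a k x => mm a x * (C a).rowS (u a) (e a) x.1.val k) ?_
    (m := fun a x j => if j = x.1 then mm a x else 0) ?_).mono fun a L h i z => ?_
  · have hf : PT fun p : Σ a, Fin (C a).q × ι a => p.1 := pt_sigma_fst
    have hx : DPT fun p : Σ a, Fin (C a).q × ι a => p.2 := dpt_sigma_snd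
    have h1 := hmm.comp (pt_sigma_mk (β := ι) hf hx.snd)
    exact (hC.comp hf).rs.dmul h1
      ((hC.comp hf).drow (hu.comp hf) (he.comp hf) hx.snd.fst.finVal hx.fst)
  · have hf : PT fun p : Σ a, ι a × Fin (C a).q => p.1 := pt_sigma_fst
    have hx : DPT fun p : Σ a, ι a × Fin (C a).q => p.2 := dpt_sigma_snd
    have h1 := hmm.comp (pt_sigma_mk (β := ι) hf hx.fst)
    exact DPT.ite (hx.snd.eq hx.fst.fst) h1 (hC.comp hf).rs.zero
  · rw [h]
    have k1 : ∀ (lam : ι a → (C a).K) (j : Fin (C a).q),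
        (∑ x, lam x • (C a).evT i fun j => if j = x.1 then mm a x else 0) j =
          ∑ x, lam (j, x) • (C a).evR i (mm a (j, x)) := fun lam j => by
      rw [Finset.sum_apply, Fintype.sum_prod_type, Finset.sum_eq_single j]
      · simp [Cv.evT]
      · intro j' _ hj
        simp [Cv.evT, hj.symm]
      · simp
    have k2 : ∀ (lam : ι a → (C a).K) (k : Fin (C a).q),
        ∑ x, lam x • (C a).evR i (mm a x * (C a).rowS (u a) (e a) x.1.val k) =
          ∑ j, (∑ x, lam (j, x) • (C a).evR i (mm a (j, x))) *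
            (C a).row ((C a).evP i (u a)) ((C a).evT i (e a)) j.val k := fun lam k => by
      rw [Fintype.sum_prod_type]
      refine Finset.sum_congr rfl fun j _ => ?_
      rw [Finset.sum_mul]
      exact Finset.sum_congr rfl fun x _ => by rw [map_mul, Cv.evR_rowS, smul_mul_assoc]
    have k3 : ∀ j : Fin (C a).q, s a < j.val → ∀ x, (C a).evR i (mm a (j, x)) = 0 := fun j hj x => by
      simp [mm, hj.not_ge]
    have k4 : ∀ j : Fin (C a).q, j.val ≤ s a → ∀ x, (C a).evR i (mm a (j, x)) =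
        (C a).ι (X ^ x.1.val) * (C a).y ^ x.2.val := fun j hj x => by
      simp only [mm, hj, if_true, Cv.evR_mono]
    constructor
    · rintro ⟨lam, h1, rfl⟩
      simp only [k1]
      refine ⟨fun j => ?_, fun j hj => by simp [k3 j hj], fun k => by rw [← k2, h1]⟩
      rcases le_or_gt j.val (s a) with hj | hj
      · simp only [k4 j hj]
        exact (C a).sum_mono_mem_V _
      · simp [k3 j hj]
    · rintro ⟨h1, h2, h3⟩
      have k5 : ∀ j, z j = ∑ x : Fin (b a + 1) × Fin (C a).q,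
          ((C a).co (z j) x.2.val).coeff x.1.val • (C a).evR i (mm a (j, x)) := fun j => by
        rcases le_or_gt j.val (s a) with hj | hj
        · simp only [k4 j hj]
          exact (C a).eq_sum_mono (h1 j)
        · simp [k3 j hj, h2 j hj]
      refine ⟨fun x => ((C a).co (z x.1) x.2.2.val).coeff x.2.1.val, fun k => ?_, funext fun j => ?_⟩
      · rw [k2, ← h3 k]
        exact Finset.sum_congr rfl fun j _ => by rw [← k5]
      · rw [k1, ← k5]

/-- stage `s < q`: the relations `∑_{j ≤ s} g j * row j = 0` with `g j ∈ V b`, padded by zeros (`solv_sol`, unknowns `Fin q × monomials`, value `0` for `j > s`);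
`solv_firstT`, `exists_min`, `siegel`, `companion` -/
theorem solv_rel (hC : Good C) {u : ∀ a, (C a).S1[X]} (hu : DPT u) {e : ∀ a, Fin (C a).q → (C a).RS} (he : DPT e) :
    Solv fun a (g : Fin (C a).q → (C a).RS) => ∀ i, (C a).evT i (e a) ≠ 0 →
      ((C a).mat ((C a).evP i (u a)) ((C a).evT i (e a))).det = 0 →
      ∃ s : Fin (C a).q, 0 < s.val ∧ (C a).evR i (g s) ≠ 0 ∧ (∀ j, s < j → (C a).evR i (g j) = 0) ∧
        (C a).Nm ((-1) ^ s.val * (C a).evR i (g ((C a).ix 0))) =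
          (C a).ι ((C a).evP i (u a)) ^ s.val * (C a).Nm ((C a).evR i (g s)) := by
  have hG : DPT fun a => (List.finRange (C a).q).flatMap fun j => (List.finRange (C a).q).map fun k =>
      (C a).rowS (u a) (e a) j.val k := by
    refine (dpt_finRange hC.q).flatMap ?_
    have hf : PT fun p : Σ a, Fin (C a).q => p.1 := pt_sigma_fst
    refine (dpt_finRange (hC.q.comp hf)).map ?_
    have hf' : PT fun p : Σ p : Σ a, Fin (C a).q, Fin (C p.1).q => p.1 := pt_sigma_fst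
    exact (hC.comp (hf.comp hf')).drow (hu.comp (hf.comp hf')) (he.comp (hf.comp hf'))
      ((dpt_sigma_snd (β := fun a => Fin (C a).q)).comp hf').finVal dpt_sigma_snd
  obtain ⟨D, hD, hV⟩ := hC.exists_V hG
  have hb : UN fun a => (C a).q * (D a + (C a).n) := hC.q.mul (hD.add hC.n)
  have hf : PT fun p : Σ a, Fin (C a).q => p.1 := pt_sigma_fst
  obtain ⟨L, hL, hL'⟩ := a6r_stage (hC.comp hf) (hu.comp hf) (he.comp hf) hC.q.fin.1 (hb.comp hf)
  refine (solv_firstT hC hC.q hC.q (L := fun a m => L ⟨a, m⟩) (DPT.pi hC.q hL)).mono fun a w h i h0 hd => ?_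
  obtain ⟨s, hs0, hs, hmin, hdep⟩ := (C a).exists_min _ h0 hd
  obtain ⟨z, z0, z1, z2, z3⟩ := (C a).a6r_ex _ hs (D := D a) (fun j k => by
    rw [← Cv.evR_rowS]
    exact hV a _ (List.mem_flatMap.2 ⟨j, List.mem_finRange j, List.mem_map.2 ⟨k, List.mem_finRange k, rfl⟩⟩) i) hdep
  have h1 : ∃ v ∈ L ⟨a, ⟨s, hs⟩⟩, (C a).evT i v ≠ 0 := by
    by_contra hc
    push Not at hc
    have := (hL' ⟨a, ⟨s, hs⟩⟩ i z).2 ⟨z1, z2, z3⟩
    rw [Cv.spT, Submodule.span_eq_bot.2 (by rintro _ ⟨v, hv, rfl⟩; exact hc v hv)] at this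
    exact z0 this
  obtain ⟨m, m1, ⟨v, hv, m2⟩, m3⟩ := h i ⟨_, h1⟩
  have hm : m.val ≤ s := by
    by_contra hc
    obtain ⟨v, hv, hv'⟩ := h1
    exact hv' (m1 ⟨s, hs⟩ (by simpa [Fin.lt_def] using hc) v hv)
  obtain ⟨-, w2, w3⟩ := (hL' ⟨a, m⟩ i ((C a).evT i w)).1 (m2 ▸ Submodule.subset_span ⟨v, hv, rfl⟩)
  have w4 : ∀ j : Fin (C a).q, s < j.val → (C a).evT i w j = 0 := fun j hj => w2 j (hm.trans_lt hj)
  obtain ⟨r1, r2⟩ := (C a).a6r_fin _ _ hs0 hs hmin m3 w4 w3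
  exact ⟨⟨s, hs⟩, hs0, r1, w4, r2⟩

theorem a6n_inv {q : ℕ} (hq : q.Prime) (s : Fin q) : ∃ k : Fin q, s.val = 0 ∨ k.val * s.val % q = 1 := by
  by_cases h : s.val = 0
  · exact ⟨s, Or.inl h⟩
  obtain ⟨m, hm, e⟩ := Nat.exists_mul_mod_eq_one_of_coprime
    ((Nat.coprime_of_lt_prime h s.2 hq).symm) hq.one_lt
  exact ⟨⟨m, hm⟩, Or.inr (by rw [mul_comm]; exact e)⟩

theorem a6n_sum (hC : Good C) {x : ∀ a, Fin (C a).q → (C a).RS}
    (hx : DPT fun p : Σ a, Fin (C a).q => x p.1 p.2) : DPT fun a => ∑ s, x a s :=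
  hC.rs.dsum (En.fin hC.q) hx

/-- indicator of "`t` is the last nonzero position" -/
def a6n_ind (C : Cv) (g : Fin C.q → C.RS) (t : Fin C.q) : C.S1 :=
  C.ind fun i => ¬ C.evR i (g t) = 0 ∧ ∀ j : Fin C.q, ¬ (t.val < j.val ∧ ¬ C.evR i (g j) = 0)

theorem a6n_sel (C : Cv) {i : C.Ω} {g : Fin C.q → C.RS} (s : Fin C.q) (s1 : C.evR i (g s) ≠ 0)
    (s2 : ∀ j, s < j → C.evR i (g j) = 0) (x : Fin C.q → C.RS) :
    C.evR i (∑ t : Fin C.q, a6n_ind C g t • x t) = C.evR i (x s) := by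
  rw [map_sum, Finset.sum_eq_single s]
  · rw [C.evR_smul, a6n_ind, Cv.ind, if_pos ⟨s1, fun j hj => hj.2 (s2 j hj.1)⟩, one_smul]
  · intro t _ ht
    rw [C.evR_smul, a6n_ind, Cv.ind, if_neg, zero_smul]
    rintro ⟨h1, h2⟩
    rcases lt_or_gt_of_ne ht with h | h
    · exact h2 s ⟨h, s1⟩
    · exact h1 (s2 t h)
  · simp

/-- with `a s = 1 + b q`: `h⁺ = ∑_s ind_s • ((-1)^s g 0) ^ a`, `h⁻ = ∑_s ind_s • g s ^ a * u ^ b`, `ind_s` = indicator of "`s` is the last nonzero position" -/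
theorem solv_nrm (hC : Good C) {u : ∀ a, (C a).S1[X]} (hu : DPT u) {e : ∀ a, Fin (C a).q → (C a).RS} (he : DPT e) :
    Solv fun a (h : (C a).RS × (C a).RS) => ∀ i, (C a).evP i (u a) ≠ 0 → (C a).evT i (e a) ≠ 0 →
      ((C a).mat ((C a).evP i (u a)) ((C a).evT i (e a))).det = 0 →
      (C a).evR i h.1 ≠ 0 ∧ (C a).evR i h.2 ≠ 0 ∧
        (C a).Nm ((C a).evR i h.1) = (C a).ι ((C a).evP i (u a)) * (C a).Nm ((C a).evR i h.2) := by
  obtain ⟨g, hg, H⟩ := solv_rel hC hu he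
  have hq : UN fun p : Σ a, Fin (C a).q => (C p.1).q := hC.q.comp pt_sigma_fst
  have hs : UN fun p : Σ a, Fin (C a).q => p.2.val := hC.q.fin
  have hj : PT fun x : Σ p : Σ a, Fin (C a).q, Fin (C p.1).q => x.2.val := hq.fin.1
  have hs' : PT fun x : Σ p : Σ a, Fin (C a).q, Fin (C p.1).q => x.1.2.val := hs.1.comp pt_sigma_fst
  have hq' : PT fun x : Σ p : Σ a, Fin (C a).q, Fin (C p.1).q => (C x.1.1).q := hq.1.comp pt_sigma_fst
  obtain ⟨A₀, hA₀, HA₀⟩ := Solv.choose (ι := fun p : Σ a, Fin (C a).q => Fin (C p.1).q) (En.fin hq)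
    (p := fun p k => p.2.val = 0 ∨ k.val * p.2.val % (C p.1).q = 1)
    ((hs'.eq (PT.const 0)).or (((hj.nat_mul hs').nat_mod hq').eq (PT.const 1)))
    fun p => a6n_inv (C p.1).hq p.2
  obtain ⟨A, hA', HA⟩ : ∃ A : ∀ a, Fin (C a).q → ℕ, (UN fun p : Σ a, Fin (C a).q => A p.1 p.2) ∧
      ∀ a s, s.val = 0 ∨ A a s * s.val % (C a).q = 1 :=
    ⟨fun a s => (A₀ ⟨a, s⟩).val, UN.of_le hA₀.finVal hq.2 fun p => (A₀ p).2.le, fun a s => HA₀ ⟨a, s⟩⟩
  have hB : UN fun p : Σ a, Fin (C a).q => A p.1 p.2 * p.2.val / (C p.1).q :=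
    UN.of_le ((hA'.mul hs).1.nat_div hq.1) (hA'.mul hs).2 fun p => Nat.div_le_self _ _
  have hC' : Good fun p : Σ a, Fin (C a).q => C p.1 := hC.comp pt_sigma_fst
  have hg' : DPT fun p : Σ a, Fin (C a).q => g p.1 := hg.comp pt_sigma_fst
  have hgs : DPT fun p : Σ a, Fin (C a).q => g p.1 p.2 := hg'.apply dpt_sigma_snd
  have hC'' : Good fun x : Σ p : Σ a, Fin (C a).q, Fin (C p.1).q => C x.1.1 := hC'.comp pt_sigma_fst
  have hgj : DPT fun x : Σ p : Σ a, Fin (C a).q, Fin (C p.1).q => g x.1.1 x.2 :=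
    DPT.apply (F := fun x : Σ p : Σ a, Fin (C a).q, Fin (C p.1).q => g x.1.1) (hg'.comp pt_sigma_fst) dpt_sigma_snd
  have i1 : DPT fun x : Σ p : Σ a, Fin (C a).q, Fin (C p.1).q => (C x.1.1).ind fun i =>
      ¬ (x.1.2.val < x.2.val ∧ ¬ (C x.1.1).evR i (g x.1.1 x.2) = 0) :=
    hC''.ind_not (hC''.ind_and (hC''.ind_const (hs'.nat_lt hj)) (hC''.ind_not (hC''.ind_R hgj)))
  have i2 : DPT fun p : Σ a, Fin (C a).q => (C p.1).ind fun i =>
      ∀ j : Fin (C p.1).q, ¬ (p.2.val < j.val ∧ ¬ (C p.1).evR i (g p.1 j) = 0) :=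
    hC'.ind_all (En.fin hq) (p := fun p j i => ¬ (p.2.val < j.val ∧ ¬ (C p.1).evR i (g p.1 j) = 0)) i1
  have hi : DPT fun p : Σ a, Fin (C a).q => a6n_ind (C p.1) (g p.1) p.2 :=
    hC'.ind_and (hC'.ind_not (hC'.ind_R hgs)) i2
  have hg0 : DPT fun p : Σ a, Fin (C a).q => g p.1 ((C p.1).ix 0) :=
    hg'.apply (DPT.finMk ((PT.const 0).nat_mod hq.1) _)
  have x1 : DPT fun p : Σ a, Fin (C a).q =>
      a6n_ind (C p.1) (g p.1) p.2 • ((-1) ^ p.2.val * g p.1 ((C p.1).ix 0)) ^ A p.1 p.2 :=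
    hC'.dsmul hi (hC'.rs.npow (hC'.rs.dmul (hC'.rs.npow (hC'.rs.dneg hC'.rs.one) hs) hg0) hA')
  have hu' : DPT fun p : Σ a, Fin (C a).q => u p.1 := hu.comp pt_sigma_fst
  have x2 : DPT fun p : Σ a, Fin (C a).q => a6n_ind (C p.1) (g p.1) p.2 •
      (g p.1 p.2 ^ A p.1 p.2 * (C p.1).ιS (u p.1) ^ (A p.1 p.2 * p.2.val / (C p.1).q)) :=
    hC'.dsmul hi (hC'.rs.dmul (hC'.rs.npow hgs hA') (hC'.rs.npow (hC'.dι hu') hB))
  have y1 : DPT fun a => ∑ s : Fin (C a).q, a6n_ind (C a) (g a) s •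
    ((-1) ^ s.val * g a ((C a).ix 0)) ^ A a s := by apply a6n_sum hC; exact x1
  have y2 : DPT fun a => ∑ s : Fin (C a).q, a6n_ind (C a) (g a) s •
    (g a s ^ A a s * (C a).ιS (u a) ^ (A a s * s.val / (C a).q)) := by apply a6n_sum hC; exact x2
  refine Solv.of_dpt (y1.pair y2) fun a i h0 h1 h2 => ?_
  obtain ⟨s, s0, s1, s2, s3⟩ := H a i h1 h2
  dsimp only
  rw [a6n_sel _ s s1 s2, a6n_sel _ s s1 s2]
  simp only [map_pow, map_mul, map_neg, map_one, Cv.evR_ι]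
  have hu0 : (C a).ι ((C a).evP i (u a)) ≠ 0 := fun h => h0 ((C a).ι_inj (h.trans (map_zero _).symm))
  have k0 : (C a).evR i (g a s) ^ A a s *
      (C a).ι ((C a).evP i (u a)) ^ (A a s * s.val / (C a).q) ≠ 0 :=
    mul_ne_zero (pow_ne_zero _ s1) (pow_ne_zero _ hu0)
  have k1 : (C a).Nm (((-1) ^ s.val * (C a).evR i (g a ((C a).ix 0))) ^ A a s) =
      (C a).ι ((C a).evP i (u a)) * (C a).Nm ((C a).evR i (g a s) ^ A a s *
        (C a).ι ((C a).evP i (u a)) ^ (A a s * s.val / (C a).q)) := by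
    have e := Nat.mod_add_div (A a s * s.val) (C a).q
    rw [(HA a s).resolve_left s0.ne'] at e
    rw [Cv.Nm_pow, s3, Cv.Nm_mul, Cv.Nm_pow, Cv.Nm_pow, Cv.Nm_ι, mul_pow, ← pow_mul, ← pow_mul, mul_comm s.val]
    conv_lhs => rw [← e]
    ring
  refine ⟨fun h => ?_, k0, k1⟩
  rw [h, Cv.Nm_eq, zero_mul] at k1
  exact mul_ne_zero hu0 ((C a).Nz_ne_zero k0 _ _) k1.symm

/-- `solv_zd`, `solv_nrm`, the lists `solv_NI G 0 k (q D)`, `idl_map_mul`, `idl_flat`, `h90`, `solv_red` -/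
theorem solv_div (hC : Good C) {G : ∀ a, List (C a).RS} (hG : DPT G) {D : α → ℕ} (hD : UN D)
    {u r : ∀ a, (C a).S1[X]} (hu : DPT u) (hr : DPT r) :
    Solv fun a (L : List (C a).RS) => (C a).Bd L (C a).gm ∧ ∀ i,
      (C a).DH ((C a).idl (G a) i) (D a) ((C a).evP i (u a)) ((C a).evP i (r a)) →
      (C a).Red ((C a).idl L i) ∧ (C a).lam ((C a).cl ((C a).idl L i)) = (C a).cl ((C a).idl (G a) i) := by
  obtain ⟨e, he, h1⟩ := solv_zd hC hG hD hu hr
  obtain ⟨h, hh, h2⟩ := solv_nrm hC hu he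
  have hf : PT fun p : Σ a, Fin (C a).q => p.1 := pt_sigma_fst
  obtain ⟨L, hL, h3⟩ := solv_NI (hC.comp hf) (hG.comp hf) (UN.const 0) (UN.fin hC.q) ((hC.q.mul hD).comp hf)
  have hz : DPT fun p : Σ a, Fin (C a).q =>
      (C p.1).NzS (h p.1).2 0 p.2.val * (C p.1).NzS (h p.1).1 p.2.val (C p.1).q :=
    (hC.comp hf).rs.dmul ((hC.comp hf).dNz (hh.snd.comp hf) (UN.const 0).1 (UN.fin hC.q))
      ((hC.comp hf).dNz (hh.fst.comp hf) (UN.fin hC.q).1 (hC.q.comp hf))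
  have hL' : DPT fun p : Σ a, Fin (C a).q => (L p).map fun g =>
      g * ((C p.1).NzS (h p.1).2 0 p.2.val * (C p.1).NzS (h p.1).1 p.2.val (C p.1).q) :=
    hL.map (((hC.comp hf).comp pt_sigma_fst).rs.dmul dpt_sigma_snd (hz.comp pt_sigma_fst))
  refine (solv_red hC (DPT.ofFn.1 (DPT.pi hC.q (F := fun a k => (L ⟨a, k⟩).map fun g =>
    g * ((C a).NzS (h a).2 0 k.val * (C a).NzS (h a).1 k.val (C a).q)) hL')).flatten).mono fun a M hM =>
      ⟨hM.1, fun i hd => ?_⟩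
  have h0 := hd.cop.ne_bot
  obtain ⟨k1, k2, k3⟩ := h2 a i (hd.isN.natDegree h0).1 (h1 a i hd).1 (h1 a i hd).2
  have h4 := (C a).h90 h0 hd.isN k1 k2 k3
  have h5 : ∀ k : Fin (C a).q, (C a).idl (L ⟨a, k⟩) i = (C a).NI ((C a).idl (G a) i) 0 k.val := fun k => by
    have h6 : (k.val - 0) * (C a).nd ((C a).idl (G a) i) ≤ (C a).q * D a := Nat.mul_le_mul k.2.le hd.nd
    exact ((h3 ⟨a, k⟩).2 i h0 h6).idl ((C a).NI_ne_bot h0 _ _) (((C a).nd_NI h0 _ _).trans_le h6)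
  have h7 := hM.2 i
  simp only [Cv.idl_flat, Cv.idl_map_mul, map_mul, Cv.evR_NzS, h5] at h7
  exact ⟨(h7 h4.1).1, by rw [(h7 h4.1).2, h4.2]⟩

end Crest.Agent.R312
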