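import Crest.Agent.R312.T2

/-!
# R312/T3: division by monic polynomials and the rings `S[X] / (m)`.
Loop: from the top degree down, `(q, r) ↦ (q + c X^j, r - c X^j m)` with `c = r.coeff (j + deg m)` (`DPT.natRec`); `μ` of the coefficients
grows by at most `μ m + c` per round.  `div_modByMonic_unique` identifies the result (the trivial ring is a special case).
-/

set_option autoImplicit false

open Polynomial Finset Crest.Agent.Lib.PolyTime

noncomputable section

namespace Crest.Agent.R312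

variable {α α' : Type} [Enc α] [Enc α']
variable {S : α → Type} [∀ a, CommRing (S a)] [∀ a, Enc (S a)] {μ : ∀ a, S a → ℕ}

/-- long division, `k` rounds -/
def t3It {T : Type} [CommRing T] (g m : T[X]) : ℕ → T[X] × T[X]
  | 0 => (0, g)
  | k + 1 => ((t3It g m k).1 + monomial (g.natDegree - k) ((t3It g m k).2.coeff (g.natDegree - k + m.natDegree)),
      (t3It g m k).2 - monomial (g.natDegree - k) ((t3It g m k).2.coeff (g.natDegree - k + m.natDegree)) * m)

theorem t3_coeff {T : Type} [CommRing T] (m : T[X]) (j i : ℕ) (c : T) :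
    (monomial j c * m).coeff i = if j ≤ i then c * m.coeff (i - j) else 0 := by
  rw [← C_mul_X_pow_eq_monomial, mul_assoc, coeff_C_mul, coeff_X_pow_mul', mul_ite, mul_zero]

theorem t3_sum {T : Type} [CommRing T] (g m : T[X]) (k : ℕ) : (t3It g m k).2 + m * (t3It g m k).1 = g := by
  induction k with
  | zero => simp [t3It]
  | succ k ih =>
    simp only [t3It]
    linear_combination ih

theorem t3_van {T : Type} [CommRing T] (g : T[X]) {m : T[X]} (hm : m.Monic) (k : ℕ) (hk : k ≤ g.natDegree + 1) (i : ℕ)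
    (hi : g.natDegree + 1 - k + m.natDegree ≤ i) : (t3It g m k).2.coeff i = 0 := by
  induction k generalizing i with
  | zero => exact coeff_eq_zero_of_natDegree_lt (p := g) (by omega)
  | succ k ih =>
    simp only [t3It]
    rw [coeff_sub, t3_coeff, if_pos (by omega)]
    rcases (show g.natDegree - k + m.natDegree ≤ i by omega).eq_or_lt with e | e
    · rw [← e, Nat.add_sub_cancel_left, hm.coeff_natDegree, mul_one, sub_self]
    · rw [ih (by omega) i (by omega), coeff_eq_zero_of_natDegree_lt (p := m) (by omega), mul_zero, sub_zero]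

theorem t3_fin {T : Type} [CommRing T] (g : T[X]) {m : T[X]} (hm : m.Monic) :
    t3It g m (g.natDegree + 1) = (g /ₘ m, g %ₘ m) := by
  nontriviality T
  obtain ⟨h1, h2⟩ := div_modByMonic_unique _ _ hm ⟨t3_sum g m (g.natDegree + 1), by
    rw [degree_eq_natDegree hm.ne_zero, degree_lt_iff_coeff_zero]
    exact fun i hi => t3_van g hm _ le_rfl i (by simpa using hi)⟩
  rw [h1, h2]

theorem t3_deg {T : Type} [CommRing T] (g m : T[X]) (k : ℕ) :
    (t3It g m k).1.natDegree ≤ g.natDegree ∧ (t3It g m k).2.natDegree ≤ g.natDegree + m.natDegree := by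
  induction k with
  | zero => simp [t3It]
  | succ k ih =>
    simp only [t3It]
    exact ⟨natDegree_add_le_of_degree_le ih.1 ((natDegree_monomial_le _).trans (Nat.sub_le _ _)),
      (natDegree_sub_le _ _).trans (max_le ih.2 (natDegree_mul_le.trans
        (Nat.add_le_add_right ((natDegree_monomial_le _).trans (Nat.sub_le _ _)) _)))⟩

theorem t3_mu (h : MR S μ) : ∃ c : α → ℕ, PB c ∧ ∀ a (g m : (S a)[X]) (k i : ℕ),
    μ a ((t3It g m k).1.coeff i) ≤ muP (μ a) g + k * (muP (μ a) m + c a) ∧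
    μ a ((t3It g m k).2.coeff i) ≤ muP (μ a) g + k * (muP (μ a) m + c a) := by
  obtain ⟨c, e, hc, hb⟩ := h.bd
  refine ⟨c, hc, fun a g m k => ?_⟩
  have hg := ((muP_le (h.mu_zero a) (g := g)).1 le_rfl).2
  have hm := ((muP_le (h.mu_zero a) (g := m)).1 le_rfl).2
  induction k with
  | zero => exact fun i => ⟨by simp [t3It, h.mu_zero], by simpa [t3It] using hg i⟩
  | succ k ih =>
    intro i
    simp only [t3It]
    rw [coeff_add, coeff_sub, t3_coeff, coeff_monomial, sub_eq_add_neg, Nat.succ_mul]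
    have h1 := ih i
    have h2 := (ih (g.natDegree - k + m.natDegree)).2
    refine ⟨(h.mu_add a _ _).trans (max_le (by omega) ?_), (h.mu_add a _ _).trans (max_le (by omega)
      ((h.mu_neg a _).trans ?_))⟩
    · split_ifs
      · omega
      · simp [h.mu_zero]
    · split_ifs
      · have h3 := hm (i - (g.natDegree - k))
        exact ((hb a _).2 _).trans (by omega)
      · simp [h.mu_zero]

/-- `μ` of the remainder -/
theorem MR.mu_mod (h : MR S μ) : ∃ c : α → ℕ, PB c ∧ ∀ a (g m : (S a)[X]), m.Monic →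
    muP (μ a) (g %ₘ m) ≤ muP (μ a) g + (g.natDegree + 1) * (muP (μ a) m + c a) := by
  obtain ⟨c, hc, hb⟩ := t3_mu h
  refine ⟨c, hc, fun a g m hm => (muP_le (h.mu_zero a)).2 ⟨?_, fun i => ?_⟩⟩
  · exact (natDegree_modByMonic_le_left.trans (le_max_left _ _)).trans (Nat.le_add_right _ _)
  · have := (hb a g m (g.natDegree + 1) i).2
    rwa [t3_fin g hm] at this

theorem MR.divMod (h : MR S μ) {g m : ∀ a, (S a)[X]} (hg : DPT g) (hm : DPT m) (hmon : ∀ a, (m a).Monic) :
    DPT fun a => (g a /ₘ m a, g a %ₘ m a) := by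
  obtain ⟨c, hc, hb⟩ := t3_mu h
  obtain ⟨B, hB, hs⟩ := h.poly.exists_size
    (m := fun a => esize (g a) + esize (m a) + (esize (g a) + 1) * (esize (m a) + c a))
    ((hg.esize.add hm.esize).add ((hg.esize.add (PB.const 1)).mul (hm.esize.add hc)))
  have hn := un_natDegree hg
  have hf : PT fun p : Σ a, Fin ((g a).natDegree + 1) × (S a)[X] × (S a)[X] => p.1 := pt_sigma_fst
  have hp : DPT fun p : Σ a, Fin ((g a).natDegree + 1) × (S a)[X] × (S a)[X] => p.2 := dpt_sigma_snd
  have hj := (hn.comp hf).sub hp.fst.finVal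
  have h' := h.comp hf
  have ht := h'.dmonomial (h'.dcoeff hp.snd.snd (hj.add ((un_natDegree hm).comp hf)).1) hj
  refine (DPT.natRec (F := fun a k => t3It (g a) (m a) k) (hn.add (UN.const 1)) (h.poly.zero.pair hg)
    (s := fun a k p => (p.1 + monomial ((g a).natDegree - k) (p.2.coeff ((g a).natDegree - k + (m a).natDegree)),
      p.2 - monomial ((g a).natDegree - k) (p.2.coeff ((g a).natDegree - k + (m a).natDegree)) * m a))
    ((h'.poly.dadd hp.snd.fst ht).pair (h'.poly.dsub hp.snd.snd (h'.poly.dmul ht (hm.comp hf))))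
    (fun _ _ => rfl) ((hB.add hB).add (PB.const 1)) fun a k hk => ?_).of_eq fun a => t3_fin _ (hmon a)
  have h1 : muP (μ a) (g a) ≤ esize (g a) := h.poly.mu_le a _
  have h2 : muP (μ a) (m a) ≤ esize (m a) := h.poly.mu_le a _
  have h3 : (g a).natDegree ≤ muP (μ a) (g a) := le_max_left _ _
  have h4 : (m a).natDegree ≤ muP (μ a) (m a) := le_max_left _ _
  have h5 : k * (muP (μ a) (m a) + c a) ≤ (esize (g a) + 1) * (esize (m a) + c a) :=
    Nat.mul_le_mul (by omega) (by omega)
  have h6 := t3_deg (g a) (m a) k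
  rw [esize_prod]
  exact Nat.add_le_add_right (Nat.add_le_add
    (hs a _ ((muP_le (h.mu_zero a)).2 ⟨by omega, fun i => (hb a _ _ k i).1.trans (by omega)⟩))
    (hs a _ ((muP_le (h.mu_zero a)).2 ⟨by omega, fun i => (hb a _ _ k i).2.trans (by omega)⟩))) 1

theorem MR.dmod (h : MR S μ) {g m : ∀ a, (S a)[X]} (hg : DPT g) (hm : DPT m) (hmon : ∀ a, (m a).Monic) :
    DPT fun a => g a %ₘ m a := (h.divMod hg hm hmon).snd

theorem MR.ddiv (h : MR S μ) {g m : ∀ a, (S a)[X]} (hg : DPT g) (hm : DPT m) (hmon : ∀ a, (m a).Monic) :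
    DPT fun a => g a /ₘ m a := (h.divMod hg hm hmon).fst

variable {m : ∀ a, (S a)[X]} [∀ a, Fact (m a).Monic]

theorem dpt_rep {z : ∀ a, AdjoinRoot (m a)} (hz : DPT z) : DPT fun a => rep (m a) (z a) := by
  exact hz

theorem MR.dmk (h : MR S μ) (hm : DPT m) {g : ∀ a, (S a)[X]} (hg : DPT g) : DPT fun a => AdjoinRoot.mk (m a) (g a) := by
  exact h.dmod hg hm fun a => Fact.out

theorem MR.dof (h : MR S μ) (hm : DPT m) {x : ∀ a, S a} (hx : DPT x) :
    DPT fun a => algebraMap (S a) (AdjoinRoot (m a)) (x a) := by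
  exact h.dmk hm (h.dC hx)

theorem MR.droot (h : MR S μ) (hm : DPT m) : DPT fun a => AdjoinRoot.root (m a) := by
  exact h.dmk hm h.dX

theorem natDegree_rep_le {T : Type} [CommRing T] (f : T[X]) [Fact f.Monic] (z : AdjoinRoot f) :
    (rep f z).natDegree ≤ f.natDegree := by
  obtain ⟨g, rfl⟩ := AdjoinRoot.mk_surjective z
  rw [rep_mk]
  exact natDegree_modByMonic_le g Fact.out

theorem MR.adj (h : MR S μ) (hm : DPT m) : MR (fun a => AdjoinRoot (m a)) fun a => muA (μ a) (m a) := by
  have hp := h.poly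
  obtain ⟨c₀, hc₀, h₀⟩ := h.mu_mod
  obtain ⟨c₁, k, hc₁, h₁⟩ := hp.bd
  have e : ∀ a (x y : AdjoinRoot (m a)),
      AdjoinRoot.mk (m a) (rep (m a) x * rep (m a) y) = x * y := fun a x y => by
    rw [map_mul, mk_rep, mk_rep]
  refine ⟨?_, ?_, ?_, ?_, ?_, fun a x y => ?_, fun a x => ?_, fun a => ?_, fun a => ?_,
    fun a x => hp.mu_le a (rep (m a) x),
    fun a => c₁ a + (2 * (m a).natDegree + 1) * (esize (m a) + c₀ a), k,
    hc₁.add ((((PB.const 2).mul (un_natDegree hm).2).add (PB.const 1)).mul (hm.esize.add hc₀)),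
    fun a x => ⟨?_, fun y => ?_⟩⟩
  · exact ((hp.comp pt_sigma_fst).dadd (dpt_rep dpt_sigma_snd.fst) (dpt_rep dpt_sigma_snd.snd)).of_eq
      fun p => (map_add (rep (m p.1)) p.2.1 p.2.2).symm
  · exact ((h.comp pt_sigma_fst).dmk (hm.comp pt_sigma_fst) ((hp.comp pt_sigma_fst).dmul
      (dpt_rep dpt_sigma_snd.fst) (dpt_rep dpt_sigma_snd.snd))).of_eq fun p => e p.1 p.2.1 p.2.2
  · exact ((hp.comp pt_sigma_fst).dneg (dpt_rep dpt_sigma_snd)).of_eq
      fun p => (map_neg (rep (m p.1)) p.2).symm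
  · exact (h.dmk hm hp.zero).of_eq fun a => map_zero _
  · exact (h.dmk hm hp.one).of_eq fun a => map_one _
  · simp only [muA, map_add]
    exact hp.mu_add a _ _
  · simp only [muA, map_neg]
    exact hp.mu_neg a _
  · simp only [muA, map_zero]
    exact hp.mu_zero a
  · have hmon : (m a).Monic := Fact.out
    rw [muA, ← map_one (AdjoinRoot.mk (m a)), rep_mk]
    by_cases h1 : m a = 1
    · rw [h1, modByMonic_one]
      exact hp.mu_zero a
    · have : Nontrivial (S a) := Polynomial.Nontrivial.of_polynomial_ne h1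
      rw [(modByMonic_eq_self_iff hmon).2 (by rw [degree_one]; exact hmon.degree_pos.2 h1)]
      exact hp.mu_one a
  · exact (h₁ a (rep (m a) x)).1.trans (Nat.pow_le_pow_left (Nat.add_le_add_right (Nat.le_add_right _ _) _) _)
  · have h2 := h₀ a (rep (m a) x * rep (m a) y) (m a) Fact.out
    have h3 := (h₁ a (rep (m a) x)).2 (rep (m a) y)
    have h4 : (rep (m a) x * rep (m a) y).natDegree ≤ 2 * (m a).natDegree := by
      rw [two_mul]
      exact natDegree_mul_le_of_le (natDegree_rep_le _ _) (natDegree_rep_le _ _)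
    have h5 := Nat.mul_le_mul (Nat.add_le_add_right h4 1) (Nat.add_le_add_right (hp.mu_le a (m a)) (c₀ a))
    rw [muA, ← e, rep_mk, muA, muA]
    beta_reduce
    omega

theorem BR.adj (h : BR S) (hm : DPT m) : BR fun a => AdjoinRoot (m a) := by
  exact (MR.adj h hm).toBR (un_natDegree hm).2 fun a x =>
    (muP_le rfl).2 ⟨natDegree_rep_le _ _, fun _ => Nat.zero_le _⟩

end Crest.Agent.R312
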