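import Crest.Agent.R312.T5

/-!
# R312/T6: the branch-free `q`-th root `qrt` (definition in `TDefs`).
`Q - 1 = q ^ s * m` with `q ∤ m`, `g = γ ^ m`, `g ^ q ^ (s - 1) = γ ^ ((Q-1)/q) = ω` has order `q`.  Invariant after `k` rounds:
`R ≠ 0` and `(R ^ q / x) ^ q ^ (s - 1 - k) = 1`; a `q`-th root of unity is a power of `ω` (`IsPrimitiveRoot.eq_pow_of_pow_eq_one`).
-/

set_option autoImplicit false

open Polynomial Finset Crest.Agent.Lib.PolyTime

noncomputable section

namespace Crest.Agent.R312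

variable {α α' : Type} [Enc α] [Enc α']
variable {S : α → Type} [∀ a, CommRing (S a)] [∀ a, Enc (S a)] {μ : ∀ a, S a → ℕ}

theorem t6a_step {T F : Type} [CommRing T] [CommRing F] (φ : T →+* F) (Q q : ℕ) (x h : T) (j : ℕ) (R : T) :
    φ (qstep Q q x h j R) = qstep Q q (φ x) (φ h) j (φ R) := by
  simp only [qstep, map_sum, map_mul, map_pow, map_fw, List.map_map, Function.comp_def, map_sub, map_one]

theorem t6a_iter {T F : Type} [CommRing T] [CommRing F] (φ : T →+* F) (Q q s : ℕ) (x g R₀ : T) (k : ℕ) :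
    φ (qiter Q q s x g R₀ k) = qiter Q q s (φ x) (φ g) (φ R₀) k := by
  induction k with
  | zero => rfl
  | succ k ih => rw [qiter, qiter, t6a_step, ih, map_pow]

theorem map_qrt {T F : Type} [CommRing T] [CommRing F] (φ : T →+* F) (Q q : ℕ) (γ x : T) :
    φ (qrt Q q γ x) = qrt Q q (φ γ) (φ x) := by
  simp only [qrt, t6a_iter, map_pow]

theorem t6q_count {Q q s m : ℕ} (hq : q.Prime) (hQ : 1 < Q) (hm : ¬ q ∣ m) (hsm : Q - 1 = q ^ s * m) :
    ((List.range Q.size).countP fun k => decide (q ^ (k + 1) ∣ Q - 1)) = s := by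
  have h1 : ∀ k, q ^ (k + 1) ∣ Q - 1 ↔ k < s := fun k => by
    rw [hsm, (Nat.Coprime.pow_left _ ((Nat.Prime.coprime_iff_not_dvd hq).2 hm)).dvd_mul_right,
      Nat.pow_dvd_pow_iff_le_right hq.one_lt]
    omega
  have hm0 : 0 < m := Nat.pos_of_ne_zero (by rintro rfl; exact hm (dvd_zero _))
  have h2 : s ≤ Q.size := by
    have a : 2 ^ s ≤ q ^ s := Nat.pow_le_pow_left hq.two_le _
    have b : q ^ s ≤ q ^ s * m := Nat.le_mul_of_pos_right _ hm0
    exact (Nat.lt_size.2 (by omega)).le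
  simp only [h1]
  generalize Q.size = n at h2
  have : ∀ n, (List.range n).countP (fun k => decide (k < s)) = min n s := fun n => by
    induction n with
    | zero => simp
    | succ n ih =>
      rw [List.range_succ, List.countP_append, ih]
      by_cases h : n < s
      · simp [h]
        omega
      · simp [h]
        omega
  rw [this, min_eq_right h2]

theorem t6q_find {q m : ℕ} (hq : q.Prime) (hm : ¬ q ∣ m) :
    q ∣ m * ((List.range q).find? fun b => decide (q ∣ m * b + 1)).getD 0 + 1 := by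
  have hex : ∃ b < q, q ∣ m * b + 1 := by
    have := Fact.mk hq
    have h0 : (m : ZMod q) ≠ 0 := fun h => hm ((ZMod.natCast_eq_zero_iff m q).1 h)
    refine ⟨(-(m : ZMod q)⁻¹).val, ZMod.val_lt _, (ZMod.natCast_eq_zero_iff _ q).1 ?_⟩
    push_cast
    rw [ZMod.natCast_zmod_val, mul_neg, mul_inv_cancel₀ h0, neg_add_cancel]
  rcases h : (List.range q).find? fun b => decide (q ∣ m * b + 1) with _ | b
  · obtain ⟨b, hb, hd⟩ := hex
    rw [List.find?_eq_none] at h
    exact absurd (by simpa using hd) (h b (List.mem_range.2 hb))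
  · simpa using List.find?_some h

theorem t6q_iter_zero {T : Type} [CommRing T] (Q q s : ℕ) (x g : T) (k : ℕ) : qiter Q q s x g 0 k = 0 := by
  induction k with
  | zero => rfl
  | succ k ih => simp [qiter, ih, qstep]

theorem t6q_step {F : Type} [Field F] [Fintype F] {q : ℕ} (hq : q.Prime) {x h R : F} {j : ℕ}
    (hω : IsPrimitiveRoot (h ^ q ^ (j + 1)) q)
    (hR : (R ^ q * x ^ (Fintype.card F - 2)) ^ q ^ (j + 1) = 1) :
    (qstep (Fintype.card F) q x h j R ^ q * x ^ (Fintype.card F - 2)) ^ q ^ j = 1 := by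
  set Q := Fintype.card F with hQ
  have hQ1 : 1 < Q := Fintype.one_lt_card
  set a : ℕ → F := fun c => ((R * h ^ c) ^ q * x ^ (Q - 2)) ^ q ^ j with ha
  have hl : ∀ c, (a c = 1 ∧ 1 - (a c - 1) ^ (Q - 1) = 1) ∨ (a c ≠ 1 ∧ 1 - (a c - 1) ^ (Q - 1) = 0) := fun c => by
    by_cases hc : a c = 1
    · exact Or.inl ⟨hc, by rw [hc, sub_self, zero_pow (by omega), sub_zero]⟩
    · exact Or.inr ⟨hc, by rw [FiniteField.pow_card_sub_one_eq_one _ (sub_ne_zero.2 hc), sub_self]⟩
  have hex : ∃ c < q, a c = 1 := by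
    have : NeZero q := ⟨hq.ne_zero⟩
    have hu : ((R ^ q * x ^ (Q - 2)) ^ q ^ j) ^ q = 1 := by rw [← pow_mul, ← pow_succ, hR]
    have hu0 : (R ^ q * x ^ (Q - 2)) ^ q ^ j ≠ 0 := fun h0 => by
      rw [h0, zero_pow hq.ne_zero] at hu
      exact zero_ne_one hu
    obtain ⟨c, hc, e⟩ := hω.eq_pow_of_pow_eq_one (ξ := ((R ^ q * x ^ (Q - 2)) ^ q ^ j)⁻¹)
      (by rw [inv_pow, hu, inv_one])
    refine ⟨c, hc, ?_⟩
    have : a c = (R ^ q * x ^ (Q - 2)) ^ q ^ j * (h ^ q ^ (j + 1)) ^ c := by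
      simp only [ha, mul_pow, ← pow_mul]
      rw [show c * q * q ^ j = q ^ (j + 1) * c by ring]
      ring
    rw [this, e, mul_inv_cancel₀ hu0]
  have hget : ∀ c < q, ((List.range q).map fun c => 1 - (a c - 1) ^ (Q - 1)).getD c 0 =
      1 - (a c - 1) ^ (Q - 1) := fun c hc => by
    simp [List.getD_eq_getElem?_getD, List.getElem?_range hc]
  rcases fw_spec ((List.range q).map fun c => 1 - (a c - 1) ^ (Q - 1)) (fun z hz => by
      obtain ⟨c, -, rfl⟩ := List.mem_map.1 hz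
      rcases hl c with h1 | h1
      · exact Or.inr h1.2
      · exact Or.inl h1.2) with ⟨h1, -⟩ | ⟨k₀, hk, h1, -, h2⟩
  · obtain ⟨c, hc, e⟩ := hex
    have := h1 _ (List.mem_map.2 ⟨c, List.mem_range.2 hc, rfl⟩)
    rw [e, sub_self, zero_pow (by omega), sub_zero] at this
    exact absurd this one_ne_zero
  · rw [List.length_map, List.length_range] at hk
    rw [hget _ hk] at h1
    have e : qstep Q q x h j R = R * h ^ k₀ := by
      change ∑ c ∈ range q, fw ((List.range q).map fun c => 1 - (a c - 1) ^ (Q - 1)) c * (R * h ^ c) = _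
      simp only [h2, ite_mul, one_mul, zero_mul, Finset.sum_ite_eq', Finset.mem_range, hk, if_true]
    rw [e]
    rcases hl k₀ with h3 | h3
    · exact h3.1
    · rw [h3.2] at h1
      exact absurd h1 zero_ne_one

theorem qrt_spec {F : Type} [Field F] [Fintype F] {q : ℕ} (hq : q.Prime) (hd : q ∣ Fintype.card F - 1) {γ : F}
    (h0 : γ ≠ 0) (hγ : γ ^ ((Fintype.card F - 1) / q) ≠ 1) (y : F) :
    qrt (Fintype.card F) q γ (y ^ q) ^ q = y ^ q := by
  set Q := Fintype.card F with hQ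
  have hQ1 : 1 < Q := Fintype.one_lt_card
  obtain ⟨s, m, hm, hsm⟩ := Nat.exists_eq_pow_mul_and_not_dvd (n := Q - 1) (by omega) q hq.ne_one
  have hs : ((List.range Q.size).countP fun k => decide (q ^ (k + 1) ∣ Q - 1)) = s :=
    t6q_count hq hQ1 hm hsm
  have hm' : (Q - 1) / q ^ s = m := by
    rw [hsm, Nat.mul_div_cancel_left _ (pow_pos hq.pos _)]
  have hs1 : 1 ≤ s := by
    rcases Nat.eq_zero_or_pos s with rfl | h
    · rw [hsm, pow_zero, one_mul] at hd
      exact absurd hd hm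
    · exact h
  have hb := t6q_find hq hm
  simp only [qrt, hs, hm']
  generalize ((List.range q).find? fun b => decide (q ∣ m * b + 1)).getD 0 = b at hb ⊢
  obtain ⟨e, he⟩ := hb
  rw [he, Nat.mul_div_cancel_left _ hq.pos]
  have he0 : e ≠ 0 := by
    rintro rfl
    omega
  rcases eq_or_ne y 0 with rfl | hy
  · rw [zero_pow hq.ne_zero, zero_pow he0, t6q_iter_zero, zero_pow hq.ne_zero]
  have hx : y ^ q ≠ 0 := pow_ne_zero _ hy
  have hinv : y ^ q * (y ^ q) ^ (Q - 2) = 1 := by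
    rw [← pow_succ', show Q - 2 + 1 = Q - 1 by omega]
    exact FiniteField.pow_card_sub_one_eq_one _ hx
  have hω : (γ ^ m) ^ q ^ (s - 1) = γ ^ ((Q - 1) / q) := by
    obtain ⟨s', rfl⟩ : ∃ s', s = s' + 1 := ⟨s - 1, by omega⟩
    rw [← pow_mul, hsm, pow_succ, mul_right_comm, Nat.mul_div_cancel _ hq.pos, Nat.add_sub_cancel, mul_comm]
  have hprim : IsPrimitiveRoot ((γ ^ m) ^ q ^ (s - 1)) q := by
    have := Fact.mk hq
    rw [hω]
    have h1 : (γ ^ ((Q - 1) / q)) ^ q = 1 := by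
      rw [← pow_mul, Nat.div_mul_cancel hd]
      exact FiniteField.pow_card_sub_one_eq_one _ h0
    have := orderOf_eq_prime h1 hγ
    have h2 := IsPrimitiveRoot.orderOf (γ ^ ((Q - 1) / q))
    rwa [this] at h2
  have key : ∀ k, k ≤ s - 1 →
      (qiter Q q s (y ^ q) (γ ^ m) ((y ^ q) ^ e) k ^ q * (y ^ q) ^ (Q - 2)) ^ q ^ (s - 1 - k) = 1 := by
    intro k
    induction k with
    | zero =>
      intro _
      obtain ⟨s', rfl⟩ : ∃ s', s = s' + 1 := ⟨s - 1, by omega⟩
      have h1 : ((y ^ q) ^ e) ^ q * (y ^ q) ^ (Q - 2) = (y ^ q) ^ (m * b) := by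
        rw [← pow_mul, mul_comm e q, ← he, pow_succ, mul_assoc, hinv, mul_one]
      simp only [qiter, h1, Nat.add_sub_cancel, Nat.sub_zero]
      rw [← pow_mul, ← pow_mul, show q * (m * b * q ^ s') = (Q - 1) * b by rw [hsm]; ring, pow_mul,
        FiniteField.pow_card_sub_one_eq_one _ hy, one_pow]
    | succ k ih =>
      intro hk
      have h1 := ih (by omega)
      rw [show s - 1 - k = s - 2 - k + 1 by omega] at h1
      rw [show s - 1 - (k + 1) = s - 2 - k by omega]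
      refine t6q_step hq ?_ h1
      rwa [← pow_mul, ← pow_add, show k + (s - 2 - k + 1) = s - 1 by omega]
  have := key (s - 1) le_rfl
  rw [Nat.sub_self, pow_zero, pow_one] at this
  calc _ = qiter Q q s (y ^ q) (γ ^ m) ((y ^ q) ^ e) (s - 1) ^ q * (y ^ q * (y ^ q) ^ (Q - 2)) := by
        rw [hinv, mul_one]
    _ = y ^ q := by rw [mul_left_comm, this, mul_one]

/-- Euler's criterion (the unit group is cyclic) -/
theorem exists_pow_eq {F : Type} [Field F] [Fintype F] {q : ℕ} (hd : q ∣ Fintype.card F - 1) {x : F}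
    (h : x ^ ((Fintype.card F - 1) / q) = 1) : ∃ y, y ^ q = x := by
  classical
  have hQ1 : 1 < Fintype.card F := Fintype.one_lt_card
  obtain ⟨n, hn⟩ := hd
  have hq : q ≠ 0 := by
    rintro rfl
    omega
  have hn0 : n ≠ 0 := by
    rintro rfl
    omega
  rw [hn, Nat.mul_div_cancel_left _ (Nat.pos_of_ne_zero hq)] at h
  have hx : x ≠ 0 := by
    rintro rfl
    rw [zero_pow hn0] at h
    exact zero_ne_one h
  obtain ⟨g, hg⟩ := IsCyclic.exists_monoid_generator (α := Fˣ)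
  obtain ⟨k, hk⟩ := hg (Units.mk0 x hx)
  have ho : orderOf g = q * n := by
    rw [← hn, ← Fintype.card_units, ← Nat.card_eq_fintype_card]
    exact orderOf_eq_card_of_forall_mem_powers hg
  have h1 : g ^ (k * n) = 1 := by
    rw [pow_mul]
    simp only at hk
    rw [hk]
    exact Units.ext (by simpa using h)
  obtain ⟨c, hc⟩ := Nat.dvd_of_mul_dvd_mul_right (Nat.pos_of_ne_zero hn0) (ho ▸ orderOf_dvd_of_pow_eq_one h1)
  refine ⟨((g ^ c : Fˣ) : F), ?_⟩
  have := congrArg Units.val hk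
  simp only [Units.val_mk0] at this
  rw [← this, hc, mul_comm, pow_mul, Units.val_pow_eq_pow_val (g ^ c)]

theorem BR.t6a_dstep (hS : BR S) {Q q j : α → ℕ} (hQ : PT Q) (hq : UN q) (hj : UN j) {x h R : ∀ a, S a}
    (hx : DPT x) (hh : DPT h) (hR : DPT R) : DPT fun a => qstep (Q a) (q a) (x a) (h a) (j a) (R a) := by
  have hS₁ : BR fun p : α × ℕ => S p.1 := hS.comp PT.fst'
  have hS₂ : BR fun p : Σ a, Fin (q a) => S p.1 := hS.comp pt_sigma_fst
  have hL : DPT fun a => (List.range (q a)).map fun c =>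
      1 - (((R a * h a ^ c) ^ q a * x a ^ (Q a - 2)) ^ q a ^ j a - 1) ^ (Q a - 1) :=
    DPT.rangeMap hq (hS₁.dsub hS₁.one (hS₁.dpow (hS₁.dsub (hS₁.dpow (hS₁.dmul
      (hS₁.dpow (hS₁.dmul (hR.comp PT.fst') (hS₁.dpow (hh.comp PT.fst') PT.snd')) (hq.1.comp PT.fst'))
      (hS₁.dpow (hx.comp PT.fst') ((hQ.nat_sub (PT.const 2)).comp PT.fst')))
      ((hq.1.nat_pow hj.1 hj.2).comp PT.fst')) hS₁.one) ((hQ.nat_sub (PT.const 1)).comp PT.fst')))
  exact hS.rangeSum hq (x := fun a c => fw ((List.range (q a)).map fun c =>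
      1 - (((R a * h a ^ c) ^ q a * x a ^ (Q a - 2)) ^ q a ^ j a - 1) ^ (Q a - 1)) c * (R a * h a ^ c))
    (hS₂.dmul (hS₂.dfw (hL.comp pt_sigma_fst) hq.fin.1)
      (hS₂.dmul (hR.comp pt_sigma_fst) (hS₂.dpow (hh.comp pt_sigma_fst) hq.fin.1)))

theorem BR.t6a_diter (hS : BR S) {Q q s n : α → ℕ} (hQ : PT Q) (hq : UN q) (hs : UN s) (hn : UN n)
    {x g R : ∀ a, S a} (hx : DPT x) (hg : DPT g) (hR : DPT R) :
    DPT fun a => qiter (Q a) (q a) (s a) (x a) (g a) (R a) (n a) := by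
  obtain ⟨B, hB, H⟩ := hS.size
  have hS₁ : BR fun p : Σ a, Fin (n a) × S a => S p.1 := hS.comp pt_sigma_fst
  have hk : UN fun p : Σ a, Fin (n a) × S a => p.2.1.val :=
    UN.of_le (dpt_sigma_snd (β := fun a => Fin (n a) × S a)).fst.finVal (hn.2.comp pt_sigma_fst)
      fun p => p.2.1.2.le
  exact DPT.natRec hn (F := fun a k => qiter (Q a) (q a) (s a) (x a) (g a) (R a) k) hR
    (s := fun a k y => qstep (Q a) (q a) (x a) (g a ^ q a ^ k) (s a - 2 - k) y)
    (hS₁.t6a_dstep (hQ.comp pt_sigma_fst) (hq.comp pt_sigma_fst)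
      (((hs.comp pt_sigma_fst).sub (PT.const 2)).sub hk.1) (hx.comp pt_sigma_fst)
      (hS₁.dpow (hg.comp pt_sigma_fst) ((hq.1.comp pt_sigma_fst).nat_pow hk.1 hk.2))
      (dpt_sigma_snd (β := fun a => Fin (n a) × S a)).snd)
    (fun _ _ => rfl) hB fun a k _ => H a _

theorem BR.dqrt (hS : BR S) {Q q : α → ℕ} (hQ : PT Q) (hq : UN q) {γ x : ∀ a, S a} (hγ : DPT γ) (hx : DPT x) :
    DPT fun a => qrt (Q a) (q a) (γ a) (x a) := by
  have h1 := (UN.size hQ).fin.add (UN.const 1)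
  have h2 : PT fun a => (List.range (Q a).size).map fun k => decide (q a ^ (k + 1) ∣ Q a - 1) :=
    (DPT.rangeMap' (β := fun _ => Bool) (UN.size hQ) (f := fun a k => decide (q a ^ (k + 1) ∣ Q a - 1))
      (DPT.of_pt (((hq.1.comp pt_sigma_fst).nat_pow h1.1 h1.2).nat_dvd
        ((hQ.nat_sub (PT.const 1)).comp pt_sigma_fst)).decide)).pt
  have hs : UN fun a => (List.range (Q a).size).countP fun k => decide (q a ^ (k + 1) ∣ Q a - 1) :=
    UN.of_le ((h2.countP (f := fun _ b => b) PT.snd').of_eq fun a => by rw [List.countP_map]; rfl)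
      (UN.size hQ).2 fun a => List.countP_le_length.trans List.length_range.le
  have hm := (hQ.nat_sub (PT.const 1)).nat_div (hq.1.nat_pow hs.1 hs.2)
  have hb := ((PT.range hq.1 hq.2).find? (f := fun a b => decide (q a ∣ (Q a - 1) /
      q a ^ ((List.range (Q a).size).countP fun k => decide (q a ^ (k + 1) ∣ Q a - 1)) * b + 1))
    (((hq.1.comp PT.fst').nat_dvd
    (((hm.comp PT.fst').nat_mul PT.snd').nat_add (PT.const 1))).decide)).option_getD (PT.const 0)
  exact hS.t6a_diter hQ hq hs (hs.sub (PT.const 1)) hx (hS.dpow hγ hm)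
    (hS.dpow hx (((hm.nat_mul hb).nat_add (PT.const 1)).nat_div hq.1))

end Crest.Agent.R312
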