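import Crest.Agent.R312.GDefs
import Crest.Agent.R312.T3
import Crest.Agent.R312.T6

/-!
# R312/ADefs: definitions for the algorithms on the curve (owner helper40; do not edit).
-/

set_option autoImplicit false

open Polynomial Finset Crest.Agent.Lib.PolyTime

noncomputable section

namespace Crest.Agent.R312

namespace Cv

variable (C : Cv)

open Classical in
/-- indicator of a set of base roots -/
def ind (p : C.Ω → Prop) : C.S1 := fun i => if p i then 1 else 0

open Classical in
/-- indicator of a set of pairs (second root `j`, base root `i`) -/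
def ind2 (p : C.Ω → C.Ω → Prop) : C.S2 := fun j i => if p j i then 1 else 0

/-- specialise the base root in a tuple -/
def evT {c : ℕ} (i : C.Ω) (v : Fin c → C.RS) : Fin c → C.R := fun k => C.evR i (v k)

/-- the `K`-span of a list of tuples at the base root `i` -/
def spT {c : ℕ} (L : List (Fin c → C.RS)) (i : C.Ω) : Submodule C.K (Fin c → C.R) :=
  Submodule.span C.K {v | ∃ w ∈ L, C.evT i w = v}

/-- `row` over `S1` -/
def rowS (u : C.S1[X]) (e : Fin C.q → C.RS) (j : ℕ) (k : Fin C.q) : C.RS :=
  (if k.val < j then C.ιS u else 1) * C.sgS j (e (C.ix (k.val + C.q - j)))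

/-- `Nz` over `S1` -/
def NzS (z : C.RS) (a b : ℕ) : C.RS := ∏ k ∈ Ico a b, C.sgS k z

/-- the degree function on `RS` -/
abbrev muR : C.RS → ℕ := muA (muP fun _ => 0) C.PS

/-- the hypotheses of the division by `λ` at the base root `i` -/
structure DH (I : Ideal C.R) (D : ℕ) (u r : C.K[X]) : Prop where
  cop : C.Cop I
  nd : C.nd I ≤ D
  isN : C.IsN I u
  root : ∀ j, r.eval (C.rt j) ^ C.q = u.eval (C.rt j)

end Cv

end Crest.Agent.R312
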