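/-!
# Row 312 (S0484): deterministic polynomial-time factoring over prime fields.  Route (owner helper40).

Top (helper61, `R312/Top/*`): Berlekamp reduction to split squarefree `f`; table of fields `F_p(ζ_q)` built bottom-up;
non-residues from rows 17 and 27 (helper98, `R312/N/*`).  Core (`R312/Core.lean`): for `q ∣ n = deg f`, `ζ_q ∈ K`, a non-residue `γ`,
compute a function on the roots that is non-constant and idempotent or non-injective.

* `R = K[x][y]/(y^q - f)` is Dedekind (R2) with automorphism `σ`, ramified primes `P_j` (R4), finite class group (G2), `λ = 1 - σ`.
* An ideal `I` prime to `y` has a norm `u(x)`; `∏_j u(a_j)` is a `q`-th power (C2).  If all `u(a_j)` are `q`-th powers then `[I] = λ [J]`: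
  a dimension count (D2) gives `e ≠ 0` in the cyclic algebra with `det = 0` (D1); the first relation among `v^j e` solves `N(h) = u^s` (D2);
  Hilbert 90 for ideals gives `J` (G1).
* All computations are done for all base roots `i` at once in `S1 = Ω → K`, encoded by interpolation (F1, A0), by branch-free linear algebra
  (T5, A1, A2), with a partition of the pairs of roots that is refined when a label is not constant on a part (H1).
* `t` classes `∏_{j ∈ part} P_j`, labels in a space of dimension `t - 1`: there is always a dependency, so the total `λ`-depth grows in each round;
  at depth `B` the formal socle vector is a relation `∏ P_j ^ c_j ~ 1` (H3).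
* Relations form the span of `1` and one vector `c` (U1, U2: the unit lattice is an ideal of `ℤ[ζ]`), so row `i` of the table is `κ_i (c_j - c_i)`;
  equivalence relations or a Lagrange resolvent finish (E1).
-/
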