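import Crest.Agent.R312.R4

/-!
# R312/C1: codimension and characteristic polynomial of ideals.
For `I ≠ ⊥` the quotient `R ⧸ I` is finite over `K` (it is a quotient of `R ⧸ (ι u)` for a nonzero polynomial `u ∈ I`).
Multiplicativity: `IsDedekindDomain.exists_sup_span_eq` gives `a` with `I * J ⊔ (a) = I`; multiplication by `a` gives an exact
sequence `0 → R ⧸ J → R ⧸ I * J → R ⧸ I → 0` of `R`-modules.
-/

set_option autoImplicit false

open Polynomial Finset Crest.Agent.Lib.PolyTime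

noncomputable section

namespace Crest.Agent.R312

namespace Cv

variable (C : Cv)

theorem fin_quot {I : Ideal C.R} (h : I ≠ ⊥) : Module.Finite C.K (C.R ⧸ I) := by
  exact Module.Finite.equiv (Ideal.quotientEquivDirectSum C.K (AdjoinRoot.powerBasis' (Fact.out : C.P.Monic)).basis h).symm

/-- determinant of multiplication by `z` on `R ⧸ I` -/
def dt (I : Ideal C.R) (z : C.R) : C.K := LinearMap.det (LinearMap.mulLeft C.K (Ideal.Quotient.mk I z))

theorem dt_mul (I : Ideal C.R) (z w : C.R) : C.dt I (z * w) = C.dt I z * C.dt I w := by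
  rw [dt, dt, dt, map_mul, LinearMap.mulLeft_mul, LinearMap.det_comp]

/-- the exact sequence -/
theorem exists_ses {I J : Ideal C.R} (hI : I ≠ ⊥) (hJ : J ≠ ⊥) :
    ∃ (φ : (C.R ⧸ J) →ₗ[C.R] (C.R ⧸ I * J)) (ψ : (C.R ⧸ I * J) →ₗ[C.R] (C.R ⧸ I)),
      Function.Injective φ ∧ Function.Surjective ψ ∧ LinearMap.range φ = LinearMap.ker ψ := by
  obtain ⟨a, ha⟩ := IsDedekindDomain.exists_sup_span_eq (Ideal.mul_le_left : I * J ≤ I) (mul_ne_zero hI hJ)
  have haI : a ∈ I := ha ▸ Ideal.mem_sup_right (Ideal.mem_span_singleton_self a)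
  refine ⟨Submodule.mapQ J (I * J) (LinearMap.mulLeft C.R a) fun x hx => Ideal.mul_mem_mul haI hx,
    Submodule.factor Ideal.mul_le_left, ?_, Submodule.factor_surjective _, ?_⟩
  · refine LinearMap.ker_eq_bot.1 (Submodule.ker_liftQ_eq_bot _ _ _ fun x hx => ?_)
    have h1 : a * x ∈ I * J := (Submodule.Quotient.mk_eq_zero _).1 hx
    have h2 : I * Ideal.span {x} ≤ I * J := by
      conv_lhs => rw [← ha]
      rw [Ideal.sup_mul, Ideal.span_singleton_mul_span_singleton]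
      exact sup_le Ideal.mul_le_left ((Ideal.span_singleton_le_iff_mem _).2 h1)
    exact (Ideal.span_singleton_le_iff_mem _).1 (Ideal.dvd_iff_le.1 ((mul_dvd_mul_iff_left hI).1 (Ideal.dvd_iff_le.2 h2)))
  · ext x
    obtain ⟨x, rfl⟩ := Submodule.Quotient.mk_surjective _ x
    refine ⟨?_, fun hx => ?_⟩
    · rintro ⟨y, hy⟩
      obtain ⟨y, rfl⟩ := Submodule.Quotient.mk_surjective _ y
      rw [← hy]
      exact (Submodule.Quotient.mk_eq_zero _).2 (I.mul_mem_right y haI)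
    · have h1 : x ∈ I * J ⊔ Ideal.span {a} := ha.symm ▸ (Submodule.Quotient.mk_eq_zero _).1 hx
      obtain ⟨u, hu, v, hv, rfl⟩ := Submodule.mem_sup.1 h1
      obtain ⟨c, rfl⟩ := Ideal.mem_span_singleton'.1 hv
      refine ⟨Submodule.Quotient.mk c, (Submodule.Quotient.eq _).2 ?_⟩
      simpa [mul_comm] using hu

theorem nd_mul {I J : Ideal C.R} (hI : I ≠ ⊥) (hJ : J ≠ ⊥) : C.nd (I * J) = C.nd I + C.nd J := by
  obtain ⟨φ, ψ, h1, h2, h3⟩ := C.exists_ses hI hJ
  have := C.fin_quot (mul_ne_zero hI hJ)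
  have h4 : LinearMap.range (φ.restrictScalars C.K) = LinearMap.ker (ψ.restrictScalars C.K) := by
    rw [LinearMap.range_restrictScalars, LinearMap.ker_restrictScalars, h3]
  rw [nd, nd, nd, ← (ψ.restrictScalars C.K).finrank_range_add_finrank_ker, ← h4,
    LinearMap.finrank_range_of_inj (f := φ.restrictScalars C.K) h1,
    LinearMap.range_eq_top.2 (show Function.Surjective (ψ.restrictScalars C.K) from h2), finrank_top]

theorem nd_top : C.nd ⊤ = 0 := by
  have := Ideal.Quotient.subsingleton_iff.2 (rfl : (⊤ : Ideal C.R) = ⊤)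
  exact Module.finrank_zero_of_subsingleton

theorem nd_map (k : ℕ) (I : Ideal C.R) : C.nd (I.map (C.sg k)) = C.nd I := by
  exact (Ideal.quotientEquivAlg I _ ((AlgEquiv.ofBijective (C.sg k) (C.sg_bij k)).restrictScalars C.K)
    rfl).toLinearEquiv.finrank_eq.symm

theorem nd_NI {I : Ideal C.R} (h : I ≠ ⊥) (a b : ℕ) : C.nd (C.NI I a b) = (b - a) * C.nd I := by
  induction b with
  | zero => simp [NI, nd_top]
  | succ b ih =>
    rcases le_or_gt a b with hab | hab
    · rw [NI, prod_Ico_succ_top hab, ← NI, C.nd_mul (C.NI_ne_bot h a b) fun e =>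
        h ((Ideal.map_eq_bot_iff_of_injective (C.sg_bij b).1).1 e), ih, nd_map, Nat.succ_sub hab, Nat.succ_mul]
    · rw [NI, Ico_eq_empty (by omega), Nat.sub_eq_zero_of_le hab]
      simp [nd_top]

theorem c1b_co (p : Fin C.q → C.K[X]) (l : Fin C.q) :
    C.co (∑ k : Fin C.q, C.ι (p k) * C.y ^ k.val) l = p l := by
  rw [co_sum, Finset.sum_eq_single l]
  · rw [co_ι_mul, C.co_y_pow l.2, if_pos rfl, mul_one]
  · intro k _ hk
    rw [co_ι_mul, C.co_y_pow k.2, if_neg (fun e => hk (Fin.ext e.symm)), mul_zero]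
  · simp


/-- `R ⧸ (ι u) ≃ (K[X] ⧸ u) ^ q` through the coordinates -/
theorem nd_span_ι {u : C.K[X]} (hu : u ≠ 0) : C.nd (Ideal.span {C.ι u}) = C.q * u.natDegree := by
  let φ : C.R →ₗ[C.K] (Fin C.q → C.K[X] ⧸ Ideal.span {u}) := LinearMap.pi fun l =>
    (Ideal.Quotient.mkₐ C.K (Ideal.span {u})).toLinearMap.comp (C.coL l)
  have hφ : ∀ z l, φ z l = Ideal.Quotient.mk _ (C.co z l) := fun z l => rfl
  have hs : Function.Surjective φ := fun g => by
    choose p hp using fun l => Ideal.Quotient.mk_surjective (g l)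
    refine ⟨∑ l : Fin C.q, C.ι (p l) * C.y ^ l.val, funext fun l => ?_⟩
    rw [hφ, C.c1b_co, hp]
  have hk : LinearMap.ker φ = (Ideal.span {C.ι u}).restrictScalars C.K := by
    ext z
    rw [LinearMap.mem_ker, Submodule.restrictScalars_mem, Ideal.mem_span_singleton, funext_iff]
    simp only [hφ, Pi.zero_apply, Ideal.Quotient.eq_zero_iff_mem, Ideal.mem_span_singleton]
    refine ⟨fun h => ?_, ?_⟩
    · rw [← C.sum_co z]
      exact Finset.dvd_sum fun l hl => (map_dvd (algebraMap C.K[X] C.R) (h ⟨l, mem_range.1 hl⟩)).mul_right _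
    · rintro ⟨w, rfl⟩ l
      rw [co_ι_mul]
      exact dvd_mul_right _ _
  have e := (φ.quotKerEquivOfSurjective hs).finrank_eq
  rw [hk, (Submodule.Quotient.restrictScalarsEquiv C.K (Ideal.span {C.ι u})).finrank_eq] at e
  have : Module.Finite C.K (C.K[X] ⧸ Ideal.span {u}) := (AdjoinRoot.powerBasis hu).finite
  rw [nd, e, Module.finrank_pi_fintype, finrank_quotient_span_eq_natDegree]
  simp

theorem IsN.natDegree {C : Cv} {I : Ideal C.R} {u : C.K[X]} (hu : C.IsN I u) (h : I ≠ ⊥) :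
    u ≠ 0 ∧ u.natDegree = C.nd I := by
  have h1 := C.NI_ne_bot h 0 C.q
  have h2 := C.nd_NI h 0 C.q
  rw [show C.NI I 0 C.q = _ from hu] at h1 h2
  have h0 : u ≠ 0 := fun e => h1 (by rw [e, Ideal.span_singleton_eq_bot]; exact map_zero _)
  rw [C.nd_span_ι h0, Nat.sub_zero] at h2
  exact ⟨h0, Nat.eq_of_mul_eq_mul_left C.hq.pos h2⟩

theorem nd_span_le {z : C.R} (h0 : z ≠ 0) {D : ℕ} (hz : z ∈ C.V D) : C.nd (Ideal.span {z}) ≤ C.q * (D + C.n) := by
  have h : C.IsN (Ideal.span {z}) (C.co (C.Nm z) 0) := by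
    rw [IsN, NI_span, ← Nm_eq_ι, Nm]
  rw [← (h.natDegree (mt Ideal.span_singleton_eq_bot.1 h0)).2]
  exact C.natDegree_Nm_le hz

/-- `1, x, …, x ^ nd` are dependent modulo `I` -/
theorem exists_poly_mem {I : Ideal C.R} (h : I ≠ ⊥) : ∃ u : C.K[X], u ≠ 0 ∧ u.natDegree ≤ C.nd I ∧ C.ι u ∈ I := by
  have := C.fin_quot h
  refine ⟨minpoly C.K (Ideal.Quotient.mk I (C.ι X)), minpoly.ne_zero (IsIntegral.of_finite _ _),
    minpoly.natDegree_le _, ?_⟩
  have e : ∀ p : C.K[X], aeval (Ideal.Quotient.mk I (C.ι X)) p = Ideal.Quotient.mk I (C.ι p) := fun p => by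
    have := aeval_algHom_apply ((Ideal.Quotient.mkₐ C.K I).comp (IsScalarTower.toAlgHom C.K C.K[X] C.R)) X p
    rw [aeval_X_left_apply] at this
    exact this
  rw [← Ideal.Quotient.eq_zero_iff_mem, ← e, minpoly.aeval]

/-- reduce the coordinates modulo the polynomial of `exists_poly_mem` -/
theorem span_inter_V {I : Ideal C.R} (h : I ≠ ⊥) {M : ℕ} (hM : C.nd I ≤ M) :
    Ideal.span {z | z ∈ I ∧ z ∈ C.V M} = I := by
  refine le_antisymm (Ideal.span_le.2 fun z hz => hz.1) fun z hz => ?_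
  obtain ⟨u, u0, hd, hu⟩ := C.exists_poly_mem h
  have hu' : C.ι u ∈ Ideal.span {z | z ∈ I ∧ z ∈ C.V M} := by
    refine Ideal.subset_span ⟨hu, ?_⟩
    simpa using C.ι_mul_mem_V (hd.trans hM) (C.one_mem_V 0)
  have e : z = C.ι u * (∑ l ∈ range C.q, C.ι (C.co z l / u) * C.y ^ l) +
      ∑ l ∈ range C.q, C.ι (C.co z l % u) * C.y ^ l := by
    conv_lhs => rw [← C.sum_co z]
    rw [Finset.mul_sum, ← Finset.sum_add_distrib]
    refine Finset.sum_congr rfl fun l _ => ?_
    rw [← mul_assoc, ← add_mul, ← map_mul, ← map_add, EuclideanDomain.div_add_mod]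
  rw [e] at hz ⊢
  refine add_mem (Ideal.mul_mem_right _ _ hu') (Ideal.subset_span ⟨?_, ?_⟩)
  · exact (add_mem_cancel_left (Ideal.mul_mem_right _ _ hu)).1 hz
  · refine Submodule.sum_mem _ fun l hl => ?_
    simpa using C.ι_mul_mem_V ((natDegree_le_natDegree (degree_mod_lt (C.co z l) u0).le).trans (hd.trans hM))
      (C.r3a_y (D := 0) (mem_range.1 hl))

theorem exists_mem_V {I : Ideal C.R} (h : I ≠ ⊥) {m : ℕ} (hm : C.nd I < C.q * (m + 1)) :
    ∃ z ∈ I, z ≠ 0 ∧ z ∈ C.V m := by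
  have := C.fin_quot h
  obtain ⟨h1, h2⟩ := C.finrank_V m
  obtain ⟨z, hz, z0⟩ := Submodule.exists_mem_ne_zero_of_ne_bot (LinearMap.ker_ne_bot_of_finrank_lt
    (f := (Ideal.Quotient.mkₐ C.K I).toLinearMap.comp (C.V m).subtype) (by rw [h2]; exact hm))
  exact ⟨z, Ideal.Quotient.eq_zero_iff_mem.1 hz, fun e => z0 (Subtype.ext e), z.2⟩

/-- an element of least degree gives a small complementary ideal: `q m ≤ nd I` by `exists_mem_V` -/
theorem nd_col_le {I : Ideal C.R} {h : C.R} (hI : h ∈ I) (h0 : h ≠ 0) {m : ℕ} (hm : h ∈ C.V m)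
    (hmin : ∀ m' < m, ∀ z ∈ I, z ∈ C.V m' → z = 0) : C.nd (C.col h I) ≤ C.n * C.q := by
  have I0 : I ≠ ⊥ := fun e => h0 (by rwa [e] at hI)
  have e := C.col_mul hI h0
  have c0 : C.col h I ≠ ⊥ := fun e' => h0 (by
    rw [e', Ideal.bot_mul, eq_comm, Ideal.span_singleton_eq_bot] at e; exact e)
  have h1 := C.nd_mul c0 I0
  have h2 := C.nd_span_le h0 hm
  have h3 : C.q * m ≤ C.nd I := by
    rcases m with _ | m
    · simp
    by_contra hlt
    obtain ⟨z, hz, z0, hV⟩ := C.exists_mem_V I0 (not_le.1 hlt)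
    exact z0 (hmin m m.lt_succ_self z hz hV)
  rw [e] at h1
  rw [mul_add] at h2
  rw [mul_comm]
  omega

theorem Rp.idl {C : Cv} {G : List C.RS} {M : ℕ} {i : C.Ω} {I : Ideal C.R} (h : C.Rp G M i I) (h0 : I ≠ ⊥)
    (hM : C.nd I ≤ M) : C.idl G i = I := by
  rw [← C.span_inter_V h0 hM]
  have e : {z | z ∈ I ∧ z ∈ C.V M} = (C.spn G i : Set C.R) := Set.ext fun z => (h z).symm
  rw [e, Cv.idl, spn]
  exact (Submodule.span_span_of_tower _ _ _).symm

end Cv

end Crest.Agent.R312
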