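import Crest.Agent.R312.C1

/-!
# R312/C2: reciprocity.  Let `χ I` be the characteristic polynomial of multiplication by `x` on `R ⧸ I`; `(χ I).eval a = ± dt I (ι (X - C a))`.
One may avoid `χ`: over `K[T]`... simplest is `dt_ses` for all `z`, applied after base change, or `LinearMap.charpoly` with a block
triangular matrix (`LinearMap.charpoly_prodMap`, `Matrix.charpoly_fromBlocks_zero₂₁`, `LinearMap.det_eq_det_mul_det`).
-/

set_option autoImplicit false

open Polynomial Finset Crest.Agent.Lib.PolyTime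

noncomputable section

namespace Crest.Agent.R312

namespace Cv

variable (C : Cv)

/-- characteristic polynomial of `x` on `R ⧸ I` -/
def chi (I : Ideal C.R) (h : I ≠ ⊥) : C.K[X] :=
  haveI := C.fin_quot h
  (LinearMap.mulLeft C.K (Ideal.Quotient.mk I (C.ι X))).charpoly

section C2a

variable {K U V W M : Type} [Field K] [AddCommGroup U] [Module K U] [AddCommGroup V] [Module K V]
  [AddCommGroup W] [Module K W] [AddCommGroup M] [Module K M]

theorem c2a_ses [Module.Finite K U] [Module.Finite K V] [Module.Finite K W] (φ : U →ₗ[K] V) (ψ : V →ₗ[K] W)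
    (hφ : Function.Injective φ) (hψ : Function.Surjective ψ) (h : LinearMap.range φ = LinearMap.ker ψ)
    {f : U →ₗ[K] U} {g : V →ₗ[K] V} {k : W →ₗ[K] W} (h1 : ∀ u, g (φ u) = φ (f u)) (h2 : ∀ v, ψ (g v) = k (ψ v)) :
    g.charpoly = f.charpoly * k.charpoly := by
  obtain ⟨s, hs⟩ := ψ.exists_rightInverse_of_surjective (LinearMap.range_eq_top.2 hψ)
  have hs' : ∀ w, ψ (s w) = w := fun w => LinearMap.congr_fun hs w
  have h0 : ∀ u, ψ (φ u) = 0 := fun u => LinearMap.mem_ker.1 (h ▸ LinearMap.mem_range_self φ u)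
  have hb : Function.Bijective (φ.coprod s) := by
    refine ⟨(injective_iff_map_eq_zero _).2 fun x hx => ?_, fun v => ?_⟩
    · have e1 := congrArg ψ hx
      rw [LinearMap.coprod_apply, map_add, h0, hs', zero_add, map_zero] at e1
      rw [LinearMap.coprod_apply, e1, map_zero, add_zero, ← map_zero φ] at hx
      exact Prod.ext (hφ hx) e1
    · obtain ⟨u, hu⟩ : v - s (ψ v) ∈ LinearMap.range φ := by
        rw [h, LinearMap.mem_ker, map_sub, hs', sub_self]
      exact ⟨(u, ψ v), by rw [LinearMap.coprod_apply, hu, sub_add_cancel]⟩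
  set e := LinearEquiv.ofBijective _ hb
  have e1 : ∀ u, e.symm (φ u) = (u, 0) := fun u => e.symm_apply_eq.2 (by simp [e])
  have e2 : ∀ v, (e.symm v).2 = ψ v := fun v => by
    obtain ⟨x, rfl⟩ := e.surjective v
    rw [e.symm_apply_apply]
    simp [e, h0, hs']
  let b₁ := Module.Free.chooseBasis K U
  let b₂ := Module.Free.chooseBasis K W
  rw [← e.symm.charpoly_conj g, ← LinearMap.charpoly_toMatrix _ (b₁.prod b₂), ← f.charpoly_toMatrix b₁,
    ← k.charpoly_toMatrix b₂, ← Matrix.charpoly_fromBlocks_zero₂₁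
      (M₁₂ := (LinearMap.toMatrix (b₁.prod b₂) (b₁.prod b₂) (e.symm.conj g)).toBlocks₁₂)]
  congr 1
  ext (i | i) (j | j)
  · simp [LinearMap.toMatrix_apply, e, h1, e1]
  · simp [Matrix.toBlocks₁₂]
  · simp [LinearMap.toMatrix_apply, e, h1, e1]
  · simp [LinearMap.toMatrix_apply, e, h2, e2, hs']

theorem c2a_surj [Module.Finite K U] [Module.Finite K V] (p : M →ₗ[K] U) (q : M →ₗ[K] V)
    (hp : Function.Surjective p) (hq : Function.Surjective q) (h : LinearMap.ker p = LinearMap.ker q)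
    {f : U →ₗ[K] U} {g : V →ₗ[K] V} (k : M → M) (h1 : ∀ m, f (p m) = p (k m)) (h2 : ∀ m, g (q m) = q (k m)) :
    f.charpoly = g.charpoly := by
  let e : U ≃ₗ[K] V := (p.quotKerEquivOfSurjective hp).symm ≪≫ₗ Submodule.quotEquivOfEq _ _ h ≪≫ₗ
    q.quotKerEquivOfSurjective hq
  have he : ∀ m, e (p m) = q m := fun m => by
    simp [e, LinearMap.quotKerEquivOfSurjective_symm_apply]
  rw [← e.charpoly_conj f]
  congr 1
  ext v
  obtain ⟨m, rfl⟩ := hq v
  rw [LinearEquiv.conj_apply_apply, h2, ← he m, e.symm_apply_apply, h1, he]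

theorem c2a_pi [Module.Finite K U] (n : ℕ) (f : U →ₗ[K] U) :
    (LinearMap.pi fun i : Fin n => f.comp (LinearMap.proj i)).charpoly = f.charpoly ^ n := by
  let b := Module.Free.chooseBasis K U
  let B := (Pi.basis fun _ : Fin n => b).reindex ((Equiv.sigmaEquivProd _ _).trans (Equiv.prodComm _ _))
  rw [← LinearMap.charpoly_toMatrix _ B, ← f.charpoly_toMatrix b, Matrix.charpoly, Matrix.charpoly]
  have : (LinearMap.toMatrix B B (LinearMap.pi fun i : Fin n => f.comp (LinearMap.proj i))).charmatrix =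
      Matrix.blockDiagonal fun _ : Fin n => (LinearMap.toMatrix b b f).charmatrix := by
    ext1 ⟨i₁, i₂⟩ ⟨j₁, j₂⟩
    rw [Matrix.charmatrix_apply, LinearMap.toMatrix_apply, Module.Basis.repr_reindex_apply]
    by_cases h : i₂ = j₂
    · subst h
      simp [B, Matrix.charmatrix_apply, LinearMap.toMatrix_apply, Matrix.blockDiagonal_apply, Matrix.diagonal_apply]
    · simp [B, Matrix.blockDiagonal_apply, h]
  rw [this, Matrix.det_blockDiagonal, Finset.prod_const, Finset.card_univ, Fintype.card_fin]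

end C2a

theorem chi_mul {I J : Ideal C.R} (hI : I ≠ ⊥) (hJ : J ≠ ⊥) (h : I * J ≠ ⊥) :
    C.chi (I * J) h = C.chi I hI * C.chi J hJ := by
  obtain ⟨φ, ψ, h1, h2, h3⟩ := C.exists_ses hI hJ
  have := C.fin_quot hI
  have := C.fin_quot hJ
  have := C.fin_quot h
  rw [mul_comm (C.chi I hI)]
  refine c2a_ses (φ.restrictScalars C.K) (ψ.restrictScalars C.K) h1 h2 ?_ (fun u => ?_) fun v => ?_
  · ext v
    exact SetLike.ext_iff.1 h3 v
  · exact (φ.map_smul (C.ι X) u).symm
  · exact ψ.map_smul (C.ι X) v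

theorem chi_map (k : ℕ) {I : Ideal C.R} (hI : I ≠ ⊥) (h : I.map (C.sg k) ≠ ⊥) :
    C.chi (I.map (C.sg k)) h = C.chi I hI := by
  have := C.fin_quot hI
  have := C.fin_quot h
  refine c2a_surj ((Ideal.Quotient.mkₐ C.K _).toLinearMap ∘ₗ ((C.sg k).restrictScalars C.K).toLinearMap)
    (Ideal.Quotient.mkₐ C.K I).toLinearMap (Ideal.Quotient.mk_surjective.comp (C.sg_bij k).2)
    Ideal.Quotient.mk_surjective ?_ (fun z => C.ι X * z) (fun z => ?_) fun z => rfl
  · ext z
    change Ideal.Quotient.mk _ (C.sg k z) = 0 ↔ Ideal.Quotient.mk I z = 0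
    rw [Ideal.Quotient.eq_zero_iff_mem, Ideal.Quotient.eq_zero_iff_mem, ← Ideal.mem_comap,
      Ideal.comap_map_of_bijective _ (C.sg_bij k)]
  · change _ * Ideal.Quotient.mk _ (C.sg k z) = Ideal.Quotient.mk _ (C.sg k (C.ι X * z))
    rw [map_mul, map_mul, sg_ι]

/-- `R ⧸ (ι u) ≃ (K[X] ⧸ u) ^ q` and the characteristic polynomial of `x` on `K[X] ⧸ u` is `u`
(`AdjoinRoot.powerBasis`, `charpoly_leftMulMatrix`) -/
theorem chi_span {u : C.K[X]} (hu : u.Monic) (h : Ideal.span {C.ι u} ≠ ⊥) :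
    C.chi (Ideal.span {C.ι u}) h = u ^ C.q := by
  have := C.fin_quot h
  let pb := AdjoinRoot.powerBasis hu.ne_zero
  have := pb.finite
  have e1 : (LinearMap.mulLeft C.K (AdjoinRoot.root u)).charpoly = u := by
    rw [← LinearMap.charpoly_toMatrix _ pb.basis]
    exact (charpoly_leftMulMatrix pb).trans (AdjoinRoot.minpoly_powerBasis_gen_of_monic hu)
  refine Eq.trans ?_ ((c2a_pi C.q _).trans (congrArg (· ^ C.q) e1))
  have hc : ∀ (g : Fin C.q → C.K[X]) (l : Fin C.q), C.co (∑ m, C.ι (g m) * C.y ^ m.val) l = g l := fun g l => by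
    simp [co_sum, co_ι_mul, C.co_y_pow (Fin.is_lt _), Fin.val_inj]
  refine c2a_surj (Ideal.Quotient.mkₐ C.K _).toLinearMap
    (LinearMap.pi fun l : Fin C.q => (AdjoinRoot.mkₐ u).toLinearMap ∘ₗ C.coL l) Ideal.Quotient.mk_surjective
    (fun v => ?_) ?_ (fun z => C.ι X * z) (fun z => rfl) fun z => funext fun l => ?_
  · choose g hg using fun l => AdjoinRoot.mk_surjective (v l)
    exact ⟨∑ m, C.ι (g m) * C.y ^ m.val, funext fun l => (congrArg (AdjoinRoot.mk u) (hc g l)).trans (hg l)⟩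
  · ext z
    change Ideal.Quotient.mk _ z = 0 ↔ (fun l : Fin C.q => AdjoinRoot.mk u (C.co z l)) = 0
    rw [Ideal.Quotient.eq_zero_iff_mem, Ideal.mem_span_singleton, funext_iff]
    simp only [Pi.zero_apply, AdjoinRoot.mk_eq_zero]
    refine ⟨fun ⟨w, hw⟩ l => ⟨_, by rw [hw, co_ι_mul]⟩, fun hz => ?_⟩
    rw [← C.sum_co z]
    exact Finset.dvd_sum fun l hl => (_root_.map_dvd _ (hz ⟨l, mem_range.1 hl⟩)).mul_right _
  · change AdjoinRoot.root u * AdjoinRoot.mk u (C.co z l) = AdjoinRoot.mk u (C.co (C.ι X * z) l)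
    rw [co_ι_mul, map_mul, AdjoinRoot.mk_X]

theorem c2b_congr {I J : Ideal C.R} (e : I = J) (hI : I ≠ ⊥) (hJ : J ≠ ⊥) : C.chi I hI = C.chi J hJ := by
  subst e
  rfl

theorem c2b_monic {I : Ideal C.R} (h : I ≠ ⊥) : (C.chi I h).Monic :=
  haveI := C.fin_quot h
  LinearMap.charpoly_monic _

theorem c2b_NI {I : Ideal C.R} (h : I ≠ ⊥) (b : ℕ) :
    C.chi (C.NI I 0 b) (C.NI_ne_bot h 0 b) = C.chi I h ^ b := by
  induction b with
  | zero =>
    have e : C.NI I 0 0 = Ideal.span {C.ι 1} := by simp [NI]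
    rw [C.c2b_congr e _ (e ▸ C.NI_ne_bot h 0 0), C.chi_span monic_one, one_pow, pow_zero]
  | succ b ih =>
    have e : C.NI I 0 (b + 1) = C.NI I 0 b * I.map (C.sg b) := Finset.prod_Ico_succ_top (Nat.zero_le b) _
    have h1 : C.NI I 0 b * I.map (C.sg b) ≠ ⊥ := e ▸ C.NI_ne_bot h 0 (b + 1)
    have h2 : I.map (C.sg b) ≠ ⊥ := fun h0 => h1 (by rw [h0, Ideal.mul_bot])
    rw [C.c2b_congr e _ h1, C.chi_mul (C.NI_ne_bot h 0 b) h2, ih, C.chi_map b h, pow_succ]

/-- `χ ^ q = (monic u) ^ q` for monic polynomials gives equality -/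
theorem IsN.eq_chi {C : Cv} {I : Ideal C.R} {u : C.K[X]} (hu : C.IsN I u) (h : I ≠ ⊥) :
    u = Polynomial.C u.leadingCoeff * C.chi I h := by
  obtain ⟨h0, -⟩ := hu.natDegree h
  have hc : u.leadingCoeff ≠ 0 := leadingCoeff_ne_zero.2 h0
  have hm : (u * Polynomial.C u.leadingCoeff⁻¹).Monic := monic_mul_leadingCoeff_inv h0
  have e : C.NI I 0 C.q = Ideal.span {C.ι (u * Polynomial.C u.leadingCoeff⁻¹)} := by
    rw [show C.NI I 0 C.q = _ from hu, ι, ι, map_mul, Ideal.span_singleton_mul_right_unit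
      ((isUnit_C.2 (IsUnit.mk0 _ (inv_ne_zero hc))).map _)]
  have k : C.chi I h ^ C.q = (u * Polynomial.C u.leadingCoeff⁻¹) ^ C.q := by
    rw [← C.c2b_NI h, C.c2b_congr e _ (e ▸ C.NI_ne_bot h 0 C.q), C.chi_span hm]
  have k1 : C.chi I h = u * Polynomial.C u.leadingCoeff⁻¹ :=
    eq_of_monic_of_associated (C.c2b_monic h) hm (associated_of_dvd_dvd
      ((IsIntegrallyClosed.pow_dvd_pow_iff C.hq.ne_zero).1 k.dvd)
      ((IsIntegrallyClosed.pow_dvd_pow_iff C.hq.ne_zero).1 k.symm.dvd))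
  rw [k1, mul_comm, mul_assoc, ← C_mul, inv_mul_cancel₀ hc, C_1, mul_one]

/-- `LinearMap.eval_charpoly` -/
theorem eval_chi {I : Ideal C.R} (h : I ≠ ⊥) (a : C.K) :
    (C.chi I h).eval a = (-1) ^ C.nd I * C.dt I (C.ι (X - Polynomial.C a)) := by
  have := C.fin_quot h
  rw [chi, LinearMap.eval_charpoly, dt, nd, ← LinearMap.det_smul]
  congr 1
  refine LinearMap.ext fun z => ?_
  obtain ⟨z, rfl⟩ := Ideal.Quotient.mk_surjective z
  have e : Ideal.Quotient.mk I (C.ι (X - Polynomial.C a)) * Ideal.Quotient.mk I z =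
      Ideal.Quotient.mk I (C.ι X) * Ideal.Quotient.mk I z - a • Ideal.Quotient.mk I z := by
    rw [← map_mul, ι, map_sub, sub_mul, map_sub, map_mul, C.ι_C]
    rfl
  simp only [LinearMap.sub_apply, LinearMap.smul_apply, LinearMap.mulLeft_apply, e,
    Module.algebraMap_end_apply, neg_smul, one_smul, neg_sub]

theorem c2b_dt_prod (I : Ideal C.R) {β : Type} (s : Finset β) (z : β → C.R) :
    C.dt I (∏ b ∈ s, z b) = ∏ b ∈ s, C.dt I (z b) := by
  classical
  induction s using Finset.induction_on with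
  | empty =>
    rw [Finset.prod_empty, Finset.prod_empty, dt, map_one, LinearMap.mulLeft_one]
    exact LinearMap.det_id
  | insert b s hb ih => rw [Finset.prod_insert hb, Finset.prod_insert hb, C.dt_mul, ih]

/-- `∏_j dt I (x - a_j) = dt I f = dt I y ^ q`; `c ^ n` and `(-1) ^ n` are `q`-th powers because `q ∣ n` -/
theorem recip {I : Ideal C.R} {u : C.K[X]} (hu : C.IsN I u) (h : I ≠ ⊥) :
    ∃ ρ : C.K, ∏ j, u.eval (C.rt j) = ρ ^ C.q := by
  obtain ⟨m, hm⟩ := C.dvd
  refine ⟨(u.leadingCoeff * (-1) ^ C.nd I) ^ m * C.dt I C.y, ?_⟩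
  have e : ∀ j, u.eval (C.rt j) =
      u.leadingCoeff * (-1) ^ C.nd I * C.dt I (C.ι (X - Polynomial.C (C.rt j))) := fun j => by
    conv_lhs => rw [hu.eq_chi h, eval_mul, eval_C, C.eval_chi h]
    rw [mul_assoc]
  simp only [e]
  rw [Finset.prod_mul_distrib, Finset.prod_const, Finset.card_univ, C.card_Ω, ← C.c2b_dt_prod, ← map_prod,
    ← C.f_eq_prod, mul_pow _ (C.dt I C.y), ← pow_mul, mul_comm m, ← hm]
  congr 1
  rw [← Finset.card_range C.q, ← Finset.prod_const, ← C.c2b_dt_prod, Finset.prod_const, Finset.card_range,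
    y_pow]

end Cv

end Crest.Agent.R312
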