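import Crest.Agent.R312.TDefs

/-!
# R312/CDefs: the curve `y ^ q = f(x)` and its rings (owner helper40; do not edit).
`C.R = K[x][y] / (y ^ q - f)`.  `C.S1 = Ω → K` (functions of the base root `i`), `C.S2 = Ω → Ω → K`
(`W j i`: second root `j`, base root `i`).  `C.RS` is the same ring over `S1`; `C.evR i : RS →+* R`.
-/

set_option autoImplicit false

open Polynomial Finset Crest.Agent.Lib.PolyTime

noncomputable section

namespace Crest.Agent.R312

/-- the data: a finite field with a primitive `q`-th root of unity `ζ` and a `q`-th power non-residue `γ`,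
a monic separable split polynomial `f` whose degree is a positive multiple of the prime `q` -/
structure Cv where
  K : Type
  [fK : Field K]
  [fin : Fintype K]
  [eK : Enc K]
  q : ℕ
  hq : q.Prime
  ζ : K
  hζ : IsPrimitiveRoot ζ q
  γ : K
  hγ0 : γ ≠ 0
  hγ : γ ^ ((Fintype.card K - 1) / q) ≠ 1
  f : K[X]
  mon : f.Monic
  sep : f.Separable
  spl : f.Splits
  dvd : q ∣ f.natDegree
  pos : 0 < f.natDegree

attribute [instance] Cv.fK Cv.fin Cv.eK

namespace Cv

variable (C : Cv)

instance : Fact C.q.Prime := ⟨C.hq⟩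
instance : NeZero C.q := ⟨C.hq.ne_zero⟩

/-- degree of `f` -/
abbrev n : ℕ := C.f.natDegree
/-- number of elements of `K` -/
abbrev Q : ℕ := Fintype.card C.K

/-- the roots of `f` -/
def Ω : Type := {a : C.K // C.f.IsRoot a}

/-- the root as an element of `K` -/
def rt (j : C.Ω) : C.K := j.1

theorem rt_inj : Function.Injective C.rt := Subtype.val_injective
theorem rt_root (j : C.Ω) : C.f.eval (C.rt j) = 0 := j.2

instance : Finite C.Ω := Finite.of_injective _ C.rt_inj
instance : Fintype C.Ω := Fintype.ofFinite _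
instance : DecidableEq C.Ω := Classical.decEq _

/-- Lagrange interpolation of a function on the roots with values in a `K`-algebra -/
def itp {S : Type} [CommRing S] [Algebra C.K S] (g : C.Ω → S) : S[X] :=
  ∑ j, Polynomial.C (g j) * (Lagrange.basis univ C.rt j).map (algebraMap C.K S)

theorem eval_itp {S : Type} [CommRing S] [Algebra C.K S] (g : C.Ω → S) (j : C.Ω) :
    (C.itp g).eval (algebraMap C.K S (C.rt j)) = g j := by
  unfold itp
  rw [eval_finsetSum, Finset.sum_eq_single j]
  · rw [eval_mul, eval_C, eval_map_algebraMap, aeval_algebraMap_apply_eq_algebraMap_eval,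
      Lagrange.eval_basis_self C.rt_inj.injOn (mem_univ j), map_one, mul_one]
  · intro k _ hk
    rw [eval_mul, eval_map_algebraMap, aeval_algebraMap_apply_eq_algebraMap_eval,
      Lagrange.eval_basis_of_ne hk (mem_univ j), map_zero, mul_zero]
  · simp

theorem itp_inj {S : Type} [CommRing S] [Algebra C.K S] :
    Function.Injective (C.itp : (C.Ω → S) → S[X]) := fun g h e => by
  funext j
  rw [← C.eval_itp g j, e, C.eval_itp]

instance encFn {S : Type} [CommRing S] [Algebra C.K S] [Enc S] : Enc (C.Ω → S) :=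
  Enc.ofInj C.itp C.itp_inj

/-- functions of the base root -/
abbrev S1 : Type := C.Ω → C.K
/-- functions `W j i` of the second root `j` and the base root `i` -/
abbrev S2 : Type := C.Ω → C.S1

/-- `Y ^ q - f` -/
def P : C.K[X][X] := X ^ C.q - Polynomial.C C.f

instance : Fact C.P.Monic := ⟨monic_X_pow_sub_C _ C.hq.ne_zero⟩

/-- the coordinate ring of the affine curve -/
abbrev R : Type := AdjoinRoot C.P

def y : C.R := AdjoinRoot.root C.P

/-- polynomials in `x` as elements of `R` -/
abbrev ι (g : C.K[X]) : C.R := algebraMap C.K[X] C.R g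

theorem y_pow : C.y ^ C.q = C.ι C.f := by
  have h := AdjoinRoot.eval₂_root C.P
  rw [P, eval₂_sub, eval₂_X_pow, eval₂_C, sub_eq_zero] at h
  exact h

/-- the coefficient of `y ^ l` -/
def co (z : C.R) (l : ℕ) : C.K[X] := (rep C.P z).coeff l

/-- `co` as a `K`-linear map -/
def coL (l : ℕ) : C.R →ₗ[C.K] C.K[X] := ((lcoeff C.K[X] l).comp (rep C.P)).restrictScalars C.K

/-- the elements whose coordinates have degree at most `D` -/
def V (D : ℕ) : Submodule C.K C.R := ⨅ l : ℕ, (degreeLE C.K (D : WithBot ℕ)).comap (C.coL l)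

theorem mem_V {D : ℕ} {z : C.R} : z ∈ C.V D ↔ ∀ l, (C.co z l).natDegree ≤ D := by
  simp only [V, Submodule.mem_iInf, Submodule.mem_comap, mem_degreeLE, natDegree_le_iff_degree_le]
  rfl

/-- `σ ^ k : y ↦ ζ ^ k y` -/
def sg (k : ℕ) : C.R →ₐ[C.K[X]] C.R :=
  AdjoinRoot.liftAlgHom C.P (Algebra.ofId _ _) (C.ι (Polynomial.C (C.ζ ^ k)) * C.y) (by
    show eval₂ _ _ (X ^ C.q - Polynomial.C C.f) = 0
    rw [eval₂_sub, eval₂_X_pow, eval₂_C, mul_pow, y_pow, ← map_pow, ← map_pow, ← pow_mul, mul_comm k,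
      pow_mul, C.hζ.pow_eq_one, one_pow, map_one, map_one, one_mul]
    exact sub_self _)

/-- the product of the conjugates `σ ^ k z`, `a ≤ k < b` -/
def Nz (z : C.R) (a b : ℕ) : C.R := ∏ k ∈ Ico a b, C.sg k z

/-- the norm -/
def Nm (z : C.R) : C.R := C.Nz z 0 C.q

/-- the product of the conjugate ideals `σ ^ k I`, `a ≤ k < b` -/
def NI (I : Ideal C.R) (a b : ℕ) : Ideal C.R := ∏ k ∈ Ico a b, I.map (C.sg k)

/-- `u` generates the norm of `I` -/
def IsN (I : Ideal C.R) (u : C.K[X]) : Prop := C.NI I 0 C.q = Ideal.span {C.ι u}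

/-- evaluation at the ramification point `(a_j, 0)` -/
def ev (j : C.Ω) : C.R →+* C.K :=
  AdjoinRoot.lift (evalRingHom (C.rt j)) 0 (by
    rw [P, eval₂_sub, eval₂_X_pow, eval₂_C, zero_pow C.hq.ne_zero, coe_evalRingHom, rt_root, sub_zero])

/-- the ramified prime -/
def Pj (j : C.Ω) : Ideal C.R := Ideal.span {C.ι (X - Polynomial.C (C.rt j)), C.y}

/-- coprime to all ramified primes -/
def Cop (I : Ideal C.R) : Prop := I ⊔ Ideal.span {C.y} = ⊤

/-- codimension of an ideal -/
def nd (I : Ideal C.R) : ℕ := Module.finrank C.K (C.R ⧸ I)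

/-- `(h) : I` -/
def col (h : C.R) (I : Ideal C.R) : Ideal C.R := (Ideal.span {h}).colon I

/-- `m mod q` -/
def ix (m : ℕ) : Fin C.q := ⟨m % C.q, Nat.mod_lt _ C.hq.pos⟩

/-- the coordinates of `v ^ j * e` in the cyclic algebra `⊕ R v ^ k`, `v z = σ(z) v`, `v ^ q = u` -/
def row (u : C.K[X]) (e : Fin C.q → C.R) (j : ℕ) (k : Fin C.q) : C.R :=
  (if k.val < j then C.ι u else 1) * C.sg j (e (C.ix (k.val + C.q - j)))

/-- the matrix of right multiplication by `e` -/
def mat (u : C.K[X]) (e : Fin C.q → C.R) : Matrix (Fin C.q) (Fin C.q) C.R :=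
  Matrix.of fun j k => C.row u e j.val k

/-- `∑_k ζ^(-k b) r^k e_{k,m}` -/
def glue (r : C.K[X]) (e : Fin C.q → C.R) (b m : ℕ) : C.K[X] :=
  ∑ k : Fin C.q, Polynomial.C (C.ζ ^ ((C.q - k.val) * b)) * r ^ k.val * C.co (e k) m

/-- the linear conditions that force `det (mat u e) = 0` (`d` is the degree of `u`, `i` the base root) -/
structure ZD (I : Ideal C.R) (d : ℕ) (r : C.K[X]) (i : C.Ω) (e : Fin C.q → C.R) : Prop where
  mem : ∀ k : Fin C.q, e k ∈ C.NI I k.val C.q
  wt : ∀ (k : Fin C.q) (l t : ℕ), C.q * d + C.n * (C.q - 1) < C.q * t + k.val * d + l * C.n →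
    (C.co (e k) l).coeff t = 0
  gl : ∀ b m : ℕ, m < b → b < C.q → C.f ∣ C.glue r e b m
  base : ∀ b : ℕ, b < C.q → (C.glue r e b b).eval (C.rt i) = 0

/-! ## the rings over `S1` -/

/-- `f` over `S1` -/
def fS : C.S1[X] := C.f.map (algebraMap C.K C.S1)

def PS : C.S1[X][X] := X ^ C.q - Polynomial.C C.fS

instance : Fact C.PS.Monic := ⟨monic_X_pow_sub_C _ C.hq.ne_zero⟩

abbrev RS : Type := AdjoinRoot C.PS

def yS : C.RS := AdjoinRoot.root C.PS

abbrev ιS (g : C.S1[X]) : C.RS := algebraMap C.S1[X] C.RS g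

theorem yS_pow : C.yS ^ C.q = C.ιS C.fS := by
  have h := AdjoinRoot.eval₂_root C.PS
  rw [PS, eval₂_sub, eval₂_X_pow, eval₂_C, sub_eq_zero] at h
  exact h

/-- specialise the base root in a polynomial -/
def evP (i : C.Ω) : C.S1[X] →+* C.K[X] := mapRingHom (Pi.evalRingHom (fun _ => C.K) i)

theorem evP_fS (i : C.Ω) : C.evP i C.fS = C.f := by
  rw [evP, fS, coe_mapRingHom, Polynomial.map_map]
  exact Polynomial.map_id

theorem map_PS (i : C.Ω) : C.PS.map (C.evP i) = C.P := by
  rw [PS, P, Polynomial.map_sub, Polynomial.map_pow, map_X, map_C, evP_fS]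

/-- specialise the base root -/
def evR (i : C.Ω) : C.RS →+* C.R := AdjoinRoot.map (C.evP i) C.PS C.P (by rw [map_PS])

/-- the coefficient of `y ^ l` -/
def coS (z : C.RS) (l : ℕ) : C.S1[X] := (rep C.PS z).coeff l

/-- `σ ^ k` on `RS` -/
def sgS (k : ℕ) : C.RS →+* C.RS :=
  AdjoinRoot.lift (AdjoinRoot.of C.PS) (C.ιS (Polynomial.C (algebraMap C.K C.S1 (C.ζ ^ k))) * C.yS) (by
    show eval₂ _ _ (X ^ C.q - Polynomial.C C.fS) = 0
    rw [eval₂_sub, eval₂_X_pow, eval₂_C, mul_pow, yS_pow, ← map_pow, ← map_pow, ← map_pow, ← pow_mul,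
      mul_comm k, pow_mul, C.hζ.pow_eq_one, one_pow, map_one, map_one, map_one, one_mul]
    exact sub_self _)

/-- the base root as a function -/
def tS : C.S1 := C.rt

/-- a polynomial over `S1` as a function of the second root -/
def at2 (g : C.S1[X]) : C.S2 := fun j => g.eval (algebraMap C.K C.S1 (C.rt j))

/-- the monomial `x ^ t y ^ l` -/
def mono (t l : ℕ) : C.RS := C.ιS (X ^ t) * C.yS ^ l

/-- the ideal generated by a list at the base root `i` -/
def idl (G : List C.RS) (i : C.Ω) : Ideal C.R := Ideal.span {z | ∃ g ∈ G, C.evR i g = z}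

/-- the `K`-span of a list at the base root `i` -/
def spn (G : List C.RS) (i : C.Ω) : Submodule C.K C.R := Submodule.span C.K {z | ∃ g ∈ G, C.evR i g = z}

/-- a list of bounded size -/
def Bd (G : List C.RS) (M : ℕ) : Prop := G.length ≤ C.q * (M + 1) ∧ ∀ g ∈ G, ∀ i, C.evR i g ∈ C.V M

/-- the list spans `I ∩ V M` -/
def Rp (G : List C.RS) (M : ℕ) (i : C.Ω) (I : Ideal C.R) : Prop :=
  ∀ z, z ∈ C.spn G i ↔ z ∈ I ∧ z ∈ C.V M

/-- the bound for reduced ideals -/
def gm : ℕ := C.q * (C.n * C.q + 3 * C.n)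

/-- reduced ideals -/
def Red (I : Ideal C.R) : Prop := I ≠ ⊥ ∧ C.Cop I ∧ C.nd I ≤ C.gm

/-- the depth at which `λ` kills the `λ`-primary part of the class group -/
def B : ℕ := C.Q.size * (C.q * (C.n * C.q + 1)) ^ 2

/-- a partition of the pairs of distinct roots, given by indicator functions -/
structure IsPart (E : List C.S2) : Prop where
  ne : ∀ e ∈ E, e ≠ 0
  idem : ∀ e ∈ E, ∀ j i, e j i = 0 ∨ e j i = 1
  diag : ∀ e ∈ E, ∀ i, e i i = 0
  uniq : ∀ j i, j ≠ i → ∃! b : Fin E.length, E.get b j i = 1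

open Classical in
/-- the function on the roots `j` given by values on the parts (zero at the base root) -/
def tab (E : List C.S2) (s : Fin E.length → ZMod C.q) (i j : C.Ω) : ZMod C.q :=
  ∑ b, if E.get b j i = 1 then s b else 0

/-- the field generated by the roots -/
def F0 : Subfield C.K := Subfield.closure (Set.range C.rt)

/-- the result of one step: non-constant, and idempotent or non-injective -/
def Nice (b : C.S1) : Prop :=
  (∀ i, b i ∈ C.F0) ∧ (∃ i j, b i ≠ b j) ∧ (b * b = b ∨ ¬ Function.Injective b)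

end Cv

variable {α : Type} [Enc α]

/-- a polynomial-time family of curves -/
structure Good (C : α → Cv) : Prop where
  br : BR fun a => (C a).K
  card : PT fun a => (C a).Q
  q : UN fun a => (C a).q
  ζ : DPT fun a => (C a).ζ
  γ : DPT fun a => (C a).γ
  f : DPT fun a => (C a).f

end Crest.Agent.R312
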