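import Crest.Agent.R312.CDefs

/-!
# R312/U1: the lattice lemma.  Send `v ↦ ∑ v k ζ ^ k` into `𝓞 = 𝓞 (CyclotomicField q ℚ)` (any `q`-th cyclotomic field): injective on vectors with sum zero
(the relations among `1, ζ, …, ζ^(q-1)` are the multiples of `(1, …, 1)`), the image of `U` is an ideal `𝔞` since `𝓞 = ℤ[ζ]`
(`IsPrimitiveRoot.adjoinEquivRingOfIntegers`/`integralPowerBasis`; or work in `AdjoinRoot (cyclotomic q ℤ)`).  If `𝔞 ≠ 0`,
`IsDedekindDomain.exists_sup_span_eq` gives `a` with `𝔞 = (a) + (1 - ζ) 𝔞`; every element of `ℤ[ζ]` is an integer modulo `1 - ζ`; `(1 - ζ) ∣ q`.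
-/

set_option autoImplicit false

open Polynomial Finset Crest.Agent.Lib.PolyTime

noncomputable section

namespace Crest.Agent.R312

theorem u1_ab {q : ℕ} (hq : q.Prime) (m n : ℤ) : ∃ a b : ℕ, ¬ (q ∣ a ∧ q ∣ b) ∧ (q : ℤ) ∣ a * m + b * n := by
  by_cases h : (q : ℤ) ∣ m
  · exact ⟨1, 0, fun h => hq.not_dvd_one h.1, by simpa using h⟩
  · have h0 : (q : ℤ) ≠ 0 := by exact_mod_cast hq.ne_zero
    refine ⟨(-n % q).toNat, (m % q).toNat, fun h1 => h ?_, ?_⟩
    · have h2 := Int.natCast_dvd_natCast.2 h1.2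
      rw [Int.toNat_of_nonneg (Int.emod_nonneg _ h0), Int.emod_def] at h2
      exact (dvd_sub_left (dvd_mul_right _ _)).1 h2
    · rw [Int.toNat_of_nonneg (Int.emod_nonneg _ h0), Int.toNat_of_nonneg (Int.emod_nonneg _ h0),
        Int.emod_def, Int.emod_def]
      exact ⟨-(-n / q) * m - m / q * n, by ring⟩

theorem u1_ring (q : ℕ) [Fact q.Prime] : ∃ (O : Type) (_ : CommRing O) (_ : IsDedekindDomain O) (z : O),
    IsPrimitiveRoot z q ∧ Algebra.adjoin ℤ {z} = ⊤ ∧ 1 - z ∣ q ∧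
      ∀ v : ZMod q → ℤ, ∑ k, v k = 0 → ∑ k, (v k : O) * z ^ (-k).val = 0 → v = 0 := by
  have hq : q.Prime := Fact.out
  have hK : IsCyclotomicExtension {q} ℚ (CyclotomicField q ℚ) := CyclotomicField.isCyclotomicExtension q ℚ
  have hζ := IsCyclotomicExtension.zeta_spec q ℚ (CyclotomicField q ℚ)
  refine ⟨NumberField.RingOfIntegers (CyclotomicField q ℚ), inferInstance, inferInstance, hζ.toInteger,
    hζ.toInteger_isPrimitiveRoot, IsCyclotomicExtension.Rat.adjoin_singleton_eq_top hζ, ?_, fun v h1 h2 => ?_⟩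
  · rw [← neg_sub, neg_dvd]
    exact hζ.toInteger_sub_one_dvd_prime'
  · set P : ℤ[X] := ∑ k : ZMod q, monomial (-k).val (v k) with hP
    have hc : ∀ k, P.coeff (-k).val = v k := fun k => by
      rw [hP, finsetSum_coeff, Finset.sum_eq_single k]
      · simp
      · intro j _ hj
        rw [coeff_monomial, if_neg fun e => hj (neg_injective (ZMod.val_injective q e))]
      · simp
    have hd : P.natDegree < q := by
      refine lt_of_le_of_lt (natDegree_sum_le_of_forall_le _ _ fun k _ =>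
        (natDegree_monomial_le _).trans (Nat.le_sub_one_of_lt (ZMod.val_lt _))) (Nat.sub_one_lt hq.ne_zero)
    have ha : aeval (IsCyclotomicExtension.zeta q ℚ (CyclotomicField q ℚ)) P = 0 := by
      have := congrArg (algebraMap _ (CyclotomicField q ℚ)) h2
      simpa [hP, aeval_monomial] using this
    obtain ⟨R, hR⟩ := minpoly.isIntegrallyClosed_dvd (hζ.isIntegral hq.pos) ha
    rw [← cyclotomic_eq_minpoly hζ hq.pos] at hR
    have h3 : P.eval 1 = 0 := by simpa [hP, eval_finsetSum] using h1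
    rw [hR, eval_mul, eval_one_cyclotomic_prime, mul_eq_zero] at h3
    obtain ⟨S, hS⟩ := dvd_iff_isRoot.2 (h3.resolve_left (by exact_mod_cast hq.ne_zero))
    rw [hS, ← mul_assoc, C_1, cyclotomic_prime_mul_X_sub_one] at hR
    have h4 : P = 0 := eq_zero_of_dvd_of_natDegree_lt ⟨S, hR⟩ (by rwa [← C_1, natDegree_X_pow_sub_C])
    funext k
    rw [← hc, h4, coeff_zero, Pi.zero_apply]

theorem lattice {q : ℕ} [Fact q.Prime] (U : AddSubgroup (ZMod q → ℤ)) (hsh : ∀ u ∈ U, (fun k => u (k + 1)) ∈ U)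
    (hsum : ∀ u ∈ U, ∑ k, u k = 0) {u₁ u₂ : ZMod q → ℤ} (h₁ : u₁ ∈ U) (h₂ : u₂ ∈ U) :
    ∃ a b : ℕ, ¬ (q ∣ a ∧ q ∣ b) ∧ ∃ w ∈ U, ∀ k, a * u₁ k + b * u₂ k = w k - w (k + 1) := by
  obtain ⟨O, _, _, z, hz, htop, hdvd, hinj⟩ := u1_ring q
  have hq : q.Prime := Fact.out
  let Φ : (ZMod q → ℤ) →+ O :=
    { toFun := fun v => ∑ k, (v k : O) * z ^ (-k).val
      map_zero' := by simp
      map_add' := fun v w => by simp [add_mul, Finset.sum_add_distrib] }
  have hT : ∀ v, Φ (fun k => v (k + 1)) = z * Φ v := fun v => by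
    change ∑ k, (v (k + 1) : O) * z ^ (-k).val = z * ∑ k, (v k : O) * z ^ (-k).val
    rw [Finset.mul_sum, ← Equiv.sum_comp (Equiv.addRight (1 : ZMod q)) fun k => z * ((v k : O) * z ^ (-k).val)]
    refine Finset.sum_congr rfl fun k _ => ?_
    have e : z ^ (-k).val = z ^ ((-(k + 1)).val + 1) := by
      rw [← pow_mod_orderOf z (_ + 1), ← hz.eq_orderOf, ← ZMod.val_natCast]
      congr 2
      push_cast
      rw [ZMod.natCast_zmod_val]
      ring
    rw [e, Equiv.coe_addRight]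
    ring
  have hmul : ∀ c : O, ∀ x ∈ U.map Φ, c * x ∈ U.map Φ := fun c => by
    have hc : c ∈ Algebra.adjoin ℤ {z} := htop ▸ Algebra.mem_top
    induction hc using Algebra.adjoin_induction with
    | mem c hc =>
      rintro _ ⟨u, hu, rfl⟩
      rw [hc]
      exact ⟨_, hsh u hu, hT u⟩
    | algebraMap n =>
      intro x hx
      rw [← Algebra.smul_def]
      exact zsmul_mem hx n
    | add a b _ _ ha hb =>
      intro x hx
      rw [add_mul]
      exact add_mem (ha x hx) (hb x hx)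
    | mul a b _ _ ha hb =>
      intro x hx
      rw [mul_assoc]
      exact ha _ (hb x hx)
  have hint : ∀ c : O, ∃ n : ℤ, 1 - z ∣ c - n := fun c => by
    have hc : c ∈ Algebra.adjoin ℤ {z} := htop ▸ Algebra.mem_top
    induction hc using Algebra.adjoin_induction with
    | mem c hc => exact ⟨1, -1, by rw [hc]; push_cast; ring⟩
    | algebraMap n => exact ⟨n, by simp⟩
    | add a b _ _ ha hb =>
      obtain ⟨m, hm⟩ := ha
      obtain ⟨n, hn⟩ := hb
      exact ⟨m + n, by convert hm.add hn using 1; push_cast; ring⟩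
    | mul a b _ _ ha hb =>
      obtain ⟨m, hm⟩ := ha
      obtain ⟨n, hn⟩ := hb
      exact ⟨m * n, by convert (hm.mul_right b).add (hn.mul_left m) using 1; push_cast; ring⟩
  let A : Ideal O := { (U.map Φ).toAddSubmonoid with smul_mem' := fun c x hx => hmul c x hx }
  have hz1 : 1 - z ≠ 0 := sub_ne_zero.2 (hz.ne_one hq.one_lt).symm
  obtain ⟨g, hg, hgen⟩ : ∃ g ∈ A, ∀ x ∈ A, ∃ n : ℤ, x - n * g ∈ Ideal.span {1 - z} * A := by
    by_cases h0 : A = 0
    · refine ⟨0, A.zero_mem, fun x hx => ⟨0, ?_⟩⟩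
      rw [h0] at hx
      rw [(Submodule.mem_bot O).1 hx, mul_zero, sub_zero]
      exact Ideal.zero_mem _
    · obtain ⟨g, hg⟩ := IsDedekindDomain.exists_sup_span_eq (I := Ideal.span {1 - z} * A) (J := A)
        Ideal.mul_le_right (mul_ne_zero (by simpa using hz1) h0)
      have hgA : g ∈ A := hg ▸ Submodule.mem_sup_right (Ideal.mem_span_singleton_self g)
      refine ⟨g, hgA, fun x hx => ?_⟩
      rw [← hg] at hx
      obtain ⟨y, hy, t, ht, rfl⟩ := Submodule.mem_sup.1 hx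
      obtain ⟨c, rfl⟩ := Ideal.mem_span_singleton'.1 ht
      obtain ⟨n, hn⟩ := hint c
      refine ⟨n, ?_⟩
      rw [add_sub_assoc, ← sub_mul]
      exact Ideal.add_mem _ hy (Ideal.mul_mem_mul (Ideal.mem_span_singleton.2 hn) hgA)
  obtain ⟨n₁, e₁⟩ := hgen (Φ u₁) ⟨u₁, h₁, rfl⟩
  obtain ⟨n₂, e₂⟩ := hgen (Φ u₂) ⟨u₂, h₂, rfl⟩
  obtain ⟨a, b, hab, m, hm⟩ := u1_ab hq n₁ n₂
  have hx : (a : O) * Φ u₁ + b * Φ u₂ ∈ Ideal.span {1 - z} * A := by
    have e : (a : O) * Φ u₁ + b * Φ u₂ = a * (Φ u₁ - n₁ * g) + b * (Φ u₂ - n₂ * g) + q * m * g := by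
      have := congrArg (Int.cast : ℤ → O) hm
      push_cast at this
      linear_combination g * this
    rw [e]
    exact Ideal.add_mem _ (Ideal.add_mem _ (Ideal.mul_mem_left _ _ e₁) (Ideal.mul_mem_left _ _ e₂))
      (Ideal.mul_mem_mul (Ideal.mem_span_singleton.2 (hdvd.mul_right _)) hg)
  obtain ⟨_, ⟨w, hw, rfl⟩, hx⟩ := Ideal.mem_span_singleton_mul.1 hx
  refine ⟨a, b, hab, w, hw, fun k => ?_⟩
  have hmem : a • u₁ + b • u₂ - (w - fun k => w (k + 1)) ∈ U :=
    sub_mem (add_mem (nsmul_mem h₁ a) (nsmul_mem h₂ b)) (sub_mem hw (hsh w hw))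
  have h0 : Φ (a • u₁ + b • u₂ - (w - fun k => w (k + 1))) = 0 := by
    rw [map_sub, map_add, map_nsmul, map_nsmul, map_sub, hT, nsmul_eq_mul, nsmul_eq_mul, ← hx]
    ring
  have := congrFun (hinj _ (hsum _ hmem) h0) k
  simpa [sub_eq_zero] using this

end Crest.Agent.R312
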