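import Crest.Agent.R312.G1
import Crest.Agent.R312.U1

/-!
# R312/U2: the places at infinity; the relations among the `P_j` form a space of dimension at most two.
-/

set_option autoImplicit false

open Polynomial Finset Crest.Agent.Lib.PolyTime

noncomputable section

namespace Crest.Agent.R312

namespace Cv

variable (C : Cv)

/-- a power series `1 + …` has a `q`-th root when `q ≠ 0` in `K` (Hensel / `PowerSeries` recursion, or
`HenselianLocalRing`, `IsAdicComplete (IsLocalRing.maximalIdeal K⟦X⟧) K⟦X⟧`) -/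
theorem exists_root_series (g : PowerSeries C.K) (hg : PowerSeries.constantCoeff g = 1) :
    ∃ h : PowerSeries C.K, PowerSeries.constantCoeff h = 1 ∧ h ^ C.q = g := by
  have hq := C.hq.pos
  obtain ⟨a, ha, ha1⟩ := HenselianRing.is_henselian (I := (Ideal.span {PowerSeries.X} : Ideal (PowerSeries C.K)))
    (X ^ C.q - Polynomial.C g) (monic_X_pow_sub_C _ hq.ne') 1
    (by
      rw [Ideal.mem_span_singleton, PowerSeries.X_dvd_iff]
      simp [hg])
    (by
      refine IsUnit.map _ ?_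
      rw [PowerSeries.isUnit_iff_constantCoeff]
      simpa [derivative_X_pow] using C.q_ne_zero)
  rw [Ideal.mem_span_singleton, PowerSeries.X_dvd_iff, map_sub, map_one, sub_eq_zero] at ha1
  refine ⟨a, ha1, ?_⟩
  simpa [sub_eq_zero] using ha

theorem u2_ord0 {K : Type} [Field K] {p : PowerSeries K} (h : PowerSeries.constantCoeff p ≠ 0) :
    HahnSeries.ofPowerSeries ℤ K p ≠ 0 ∧ (HahnSeries.ofPowerSeries ℤ K p).order = 0 := by
  have h1 : (HahnSeries.ofPowerSeries ℤ K p).coeff 0 ≠ 0 := by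
    have := HahnSeries.ofPowerSeries_apply_coeff (Γ := ℤ) p 0
    rw [Nat.cast_zero] at this
    rw [this]
    simpa using h
  have h2 := HahnSeries.ne_zero_of_coeff_ne_zero h1
  refine ⟨h2, le_antisymm (HahnSeries.order_le_of_coeff_ne_zero h1) ((HahnSeries.le_order_iff_forall h2).2 fun j hj => ?_)⟩
  rw [PowerSeries.coeff_coe, if_pos hj]

theorem u2_eval {K : Type} [Field K] (g : K[X]) :
    eval₂ HahnSeries.C (HahnSeries.single (-1 : ℤ) (1 : K)) g =
      HahnSeries.ofPowerSeries ℤ K (g.reverse : PowerSeries K) * HahnSeries.single (-1 : ℤ) (1 : K) ^ g.natDegree := by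
  let : Invertible (HahnSeries.single (-1 : ℤ) (1 : K)) :=
    ⟨HahnSeries.single 1 1, by simp [HahnSeries.single_mul_single], by simp [HahnSeries.single_mul_single]⟩
  rw [← eval₂_reverse_mul_pow, ← eval₂_C_X_eq_coe, hom_eval₂, HahnSeries.ofPowerSeries_X]
  congr 2
  ext1 r
  exact (HahnSeries.ofPowerSeries_C r).symm

theorem u2_mul {K : Type} [Field K] {p : PowerSeries K} (h : PowerSeries.constantCoeff p ≠ 0) (m : ℕ) :
    HahnSeries.ofPowerSeries ℤ K p * HahnSeries.single (-1 : ℤ) (1 : K) ^ m ≠ 0 ∧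
      (HahnSeries.ofPowerSeries ℤ K p * HahnSeries.single (-1 : ℤ) (1 : K) ^ m).order = -m := by
  have h1 : HahnSeries.single (-1 : ℤ) (1 : K) ^ m ≠ 0 := pow_ne_zero _ (HahnSeries.single_ne_zero one_ne_zero)
  refine ⟨mul_ne_zero (u2_ord0 h).1 h1, ?_⟩
  rw [HahnSeries.order_mul (u2_ord0 h).1 h1, (u2_ord0 h).2, HahnSeries.order_pow, HahnSeries.order_single one_ne_zero]
  simp

theorem u2_rev {K : Type} [Field K] (g : K[X]) :
    PowerSeries.constantCoeff (g.reverse : PowerSeries K) = g.leadingCoeff := by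
  rw [constantCoeff_coe, coeff_zero_reverse]

/-- expansion at one point at infinity: `x ↦ T⁻¹`, `y ↦ T ^ (-n/q) h` with `h ^ q = reverse f`; `ord z` is the order of the Laurent series
(`HahnSeries.order` / `HahnSeries.addVal`).  Injective because `z ∣ Nm z = ι g`. -/
theorem exists_ord : ∃ ord : C.R → ℤ, (∀ z w, z ≠ 0 → w ≠ 0 → ord (z * w) = ord z + ord w) ∧
    (∀ g : C.K[X], g ≠ 0 → ord (C.ι g) = -g.natDegree) ∧ C.q * ord C.y = -C.n ∧
    ∀ {β : Type} (s : Finset β) (z : β → C.R) (m : ℤ), (∀ b ∈ s, z b ≠ 0 → m ≤ ord (z b)) → ∑ b ∈ s, z b ≠ 0 →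
      m ≤ ord (∑ b ∈ s, z b) := by
  obtain ⟨h, h1, hh⟩ := C.exists_root_series (C.f.reverse : PowerSeries C.K) (by rw [u2_rev, C.mon.leadingCoeff])
  obtain ⟨m, hm⟩ := C.dvd
  let φ₀ : C.K[X] →+* HahnSeries ℤ C.K := eval₂RingHom HahnSeries.C (HahnSeries.single (-1 : ℤ) (1 : C.K))
  let φ : C.R →+* HahnSeries ℤ C.K := AdjoinRoot.lift φ₀
    (HahnSeries.ofPowerSeries ℤ C.K h * HahnSeries.single (-1 : ℤ) (1 : C.K) ^ m) (by
      rw [P, eval₂_sub, eval₂_X_pow, eval₂_C, mul_pow, ← map_pow, hh, ← pow_mul, mul_comm m, ← hm, sub_eq_zero]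
      exact (u2_eval C.f).symm)
  have hι : ∀ g : C.K[X], g ≠ 0 → φ (C.ι g) ≠ 0 ∧ (φ (C.ι g)).order = -g.natDegree := fun g hg => by
    have : φ (C.ι g) = eval₂ HahnSeries.C (HahnSeries.single (-1 : ℤ) (1 : C.K)) g := AdjoinRoot.lift_of _
    rw [this, u2_eval]
    exact u2_mul (by rw [u2_rev]; exact leadingCoeff_ne_zero.2 hg) _
  have hne : ∀ z, z ≠ 0 → φ z ≠ 0 := fun z hz h0 => by
    obtain ⟨b', g, hg, e⟩ := C.r2d_norm hz
    refine (hι g hg).1 ?_
    rw [← e, map_mul, h0, zero_mul]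
  refine ⟨fun z => (φ z).order, fun z w hz hw => ?_, fun g hg => (hι g hg).2, ?_, fun s z k hk hs => ?_⟩
  · simp only [map_mul]
    exact HahnSeries.order_mul (hne z hz) (hne w hw)
  · have : φ C.y = HahnSeries.ofPowerSeries ℤ C.K h * HahnSeries.single (-1 : ℤ) (1 : C.K) ^ m :=
      AdjoinRoot.lift_root _
    simp only [this, (u2_mul (h1 ▸ one_ne_zero) m).2, n, hm]
    push_cast
    ring
  · refine (HahnSeries.le_order_iff_forall (hne _ hs)).2 fun j hj => ?_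
    rw [map_sum, HahnSeries.coeff_sum]
    refine Finset.sum_eq_zero fun b hb => ?_
    by_cases h0 : z b = 0
    · simp [h0]
    · exact HahnSeries.coeff_eq_zero_of_lt_order (hj.trans_le (hk b hb h0))

theorem u2b_mod (k : ℕ) : C.sg (k % C.q) = C.sg k :=
  AdjoinRoot.algHom_ext (show C.sg _ C.y = C.sg _ C.y by rw [sg_y, sg_y, ← pow_eq_pow_mod k C.hζ.pow_eq_one])

/-- the valuation vector of a unit, `w η k = ord (sg k.val η)`; by `dft` an element with all orders `≥ 0` is a constant -/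
theorem exists_val : ∃ w : C.Rˣ → ZMod C.q → ℤ, (∀ η ε, w (η * ε) = w η + w ε) ∧ (∀ η, ∑ k, w η k = 0) ∧
    (∀ η ε : C.Rˣ, (ε : C.R) = C.sg 1 η → ∀ k, w ε k = w η (k + 1)) ∧
    ∀ η, w η = 0 → ∃ c : C.K, (η : C.R) = C.ι (Polynomial.C c) := by
  obtain ⟨ord, h1, h2, h3, h4⟩ := C.exists_ord
  have hC : ∀ c : C.K, c ≠ 0 → ∀ z, z ≠ 0 → c • z ≠ 0 ∧ ord (c • z) = ord z := fun c hc z hz => by
    have h0 : C.ι (Polynomial.C c) ≠ 0 := fun e => C_ne_zero.2 hc (C.ι_inj (e.trans (map_zero _).symm))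
    rw [← ι_C, h1 _ _ h0 hz, h2 _ (C_ne_zero.2 hc)]
    exact ⟨mul_ne_zero h0 hz, by simp⟩
  have h0 : ord 1 = 0 := by simpa using h2 1 one_ne_zero
  have hp : ∀ (z : ℕ → C.R) (m : ℕ), (∀ k, z k ≠ 0) → ord (∏ k ∈ range m, z k) = ∑ k ∈ range m, ord (z k) :=
    fun z m hz => by
      induction m with
      | zero => simpa using h0
      | succ m ih => rw [prod_range_succ, sum_range_succ, h1 _ _ (prod_ne_zero_iff.2 fun k _ => hz k) (hz m), ih]
  have hu : ∀ k (η : C.Rˣ), C.sg k η ≠ 0 := fun k η => (η.isUnit.map _).ne_zero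
  refine ⟨fun η k => ord (C.sg k.val η), fun η ε => funext fun k => ?_, fun η => ?_, fun η ε h k => ?_,
    fun η h => ?_⟩
  · simp only [Units.val_mul, map_mul, Pi.add_apply, h1 _ _ (hu _ _) (hu _ _)]
  · have e : C.co (C.Nm η) 0 * C.co (C.Nm (η⁻¹ : C.Rˣ)) 0 = 1 := C.ι_inj (by
      rw [ι, map_mul, ← ι, ← ι, ← Nm_eq_ι, ← Nm_eq_ι, ← Nm_mul, Units.mul_inv]
      simpa using C.Nm_ι 1)
    calc _ = ∑ k ∈ range C.q, ord (C.sg k η) :=
          sum_nbij' ZMod.val Nat.cast (by simp [ZMod.val_lt]) (by simp) (by simp)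
            (fun k hk => ZMod.val_cast_of_lt (mem_range.1 hk)) fun _ _ => rfl
      _ = ord (C.Nm η) := by rw [Nm, Nz, ← range_eq_Ico, hp _ _ fun k => hu k η]
      _ = 0 := by
          rw [Nm_eq_ι, h2 _ (left_ne_zero_of_mul_eq_one e), natDegree_eq_zero_of_isUnit (.of_mul_eq_one _ e)]
          simp
  · simp only [h, ← sg_add, ZMod.val_add, ZMod.val_one, u2b_mod]
  · have hy : ord C.y < 0 := by
      have := C.pos
      have := C.hq.pos
      by_contra hy
      have : (0 : ℤ) ≤ C.q * ord C.y := mul_nonneg (by positivity) (not_lt.1 hy)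
      simp only [n] at h3
      omega
    have key : ∀ l < C.q, C.co η l ≠ 0 → l = 0 ∧ (C.co η l).natDegree = 0 := fun l hl hc => by
      have e0 : C.ι (C.co η l) ≠ 0 := fun e => hc (C.ι_inj (e.trans (map_zero _).symm))
      have e1 := hC _ C.q_ne_zero _ (mul_ne_zero e0 (pow_ne_zero l C.y_ne_zero))
      have e2 := h4 (range C.q) (fun k => C.ζ ^ ((C.q - k) * l) • C.sg k η) 0 (fun k hk _ => by
        rw [(hC _ (pow_ne_zero _ (C.hζ.ne_zero C.hq.ne_zero)) _ (hu k η)).2]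
        have : ord (C.sg (k : ZMod C.q).val η) = 0 := congrFun h k
        rw [ZMod.val_cast_of_lt (mem_range.1 hk)] at this
        exact this.ge) (C.dft η hl ▸ e1.1)
      have e3 := hp (fun _ => C.y) l fun _ => C.y_ne_zero
      rw [prod_const, sum_const, card_range, nsmul_eq_mul] at e3
      rw [← C.dft η hl, e1.2, h1 _ _ e0 (pow_ne_zero l C.y_ne_zero), h2 _ hc, e3] at e2
      constructor <;> nlinarith [Int.natCast_nonneg l, Int.natCast_nonneg (C.co η l).natDegree]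
    refine ⟨(C.co η 0).coeff 0, ?_⟩
    rw [← eq_C_of_natDegree_eq_zero (by
      by_cases h5 : C.co η 0 = 0
      exacts [by rw [h5, natDegree_zero], (key 0 C.hq.pos h5).2])]
    conv_lhs => rw [← C.sum_co η]
    rw [sum_eq_single 0 (fun l hl h5 => ?_) fun h5 => (h5 (mem_range.2 C.hq.pos)).elim, pow_zero, mul_one]
    rw [not_not.1 fun h6 => h5 (key l (mem_range.1 hl) h6).1, ι, map_zero, zero_mul]

theorem u2b_gen {c : C.Ω → ZMod C.q} (hc : C.fc c = 1) :
    ∃ (h : C.R) (η : C.Rˣ), ∏ j, C.Pj j ^ (c j).val = Ideal.span {h} ∧ C.sg 1 h = h * η := by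
  obtain ⟨h, e⟩ := C.fc_eq_one.1 hc
  have e1 := congrArg (Ideal.mapHom (C.sg 1)) e
  simp only [map_prod, map_pow, Ideal.mapHom_apply, map_sg_Pj, Ideal.map_span, Set.image_singleton] at e1
  obtain ⟨η, hη⟩ := Ideal.span_singleton_eq_span_singleton.1 (e.symm.trans e1)
  exact ⟨h, η, e, hη.symm⟩

/-- `(h_k) = ∏ P_j ^ c^k_j`, `σ h_k = η_k h_k` (`map_sg_Pj`); `lattice` for `U = range w` gives `a, b, ε`; `h = h₁ ^ a h₂ ^ b ε` has `σ h = c h`;
`eigen`, `exp_congr` -/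
theorem rel_dim {c d : C.Ω → ZMod C.q} (hc : C.fc c = 1) (hd : C.fc d = 1) :
    ∃ a b κ : ZMod C.q, (a ≠ 0 ∨ b ≠ 0) ∧ ∀ j, a * c j + b * d j = κ := by
  obtain ⟨w, h1, h2, h3, h4⟩ := C.exists_val
  obtain ⟨g₁, η₁, e₁, s₁⟩ := C.u2b_gen hc
  obtain ⟨g₂, η₂, e₂, s₂⟩ := C.u2b_gen hd
  let φ : Additive C.Rˣ →+ ZMod C.q → ℤ := AddMonoidHom.mk' (fun η => w η.toMul) fun η ε => h1 _ _
  obtain ⟨a, b, hab, _, ⟨ε, rfl⟩, h5⟩ := lattice φ.range (by
    rintro _ ⟨η, rfl⟩
    exact ⟨.ofMul (Units.map (C.sg 1 : C.R →* C.R) η.toMul), funext (h3 _ _ rfl)⟩)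
    (by rintro _ ⟨η, rfl⟩; exact h2 _) ⟨.ofMul η₁, rfl⟩ ⟨.ofMul η₂, rfl⟩
  obtain ⟨c₀, h6⟩ := h4 (a • Additive.ofMul η₁ + b • .ofMul η₂ + .ofMul (Units.map (C.sg 1 : C.R →* C.R) ε.toMul) - ε).toMul (by
    show φ _ = 0
    funext k
    have h7 : φ (.ofMul (Units.map (C.sg 1 : C.R →* C.R) ε.toMul)) k = φ ε (k + 1) := h3 _ _ rfl k
    simp only [map_sub, map_add, map_nsmul, Pi.sub_apply, Pi.add_apply, Pi.smul_apply, h7, Pi.zero_apply]
    simp only [nsmul_eq_mul]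
    linarith [h5 k])
  simp only [toMul_sub, toMul_add, toMul_nsmul, toMul_ofMul, div_eq_mul_inv, Units.val_mul, Units.val_pow_eq_pow_val,
    Units.coe_map, Units.mul_inv_eq_iff_eq_mul, MonoidHom.coe_coe] at h6
  obtain ⟨l, -, h7⟩ := C.eigen (z := g₁ ^ a * g₂ ^ b * ε.toMul) (c := c₀) (by
    rw [← ι_C, map_mul, map_mul, map_pow, map_pow, s₁, s₂]
    linear_combination g₁ ^ a * g₂ ^ b * h6)
  refine ⟨a, b, l, ?_, fun j => ?_⟩
  · simpa only [ne_eq, ZMod.natCast_eq_zero_iff, not_and_or] using hab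
  · have h8 := C.exp_congr (c := fun j => (c j).val * a + (d j).val * b) (by
      rw [← h7, Ideal.span_singleton_mul_right_unit (Units.isUnit _), ← Ideal.span_singleton_mul_span_singleton,
        ← Ideal.span_singleton_pow, ← Ideal.span_singleton_pow, ← e₁, ← e₂]
      simp only [pow_add, pow_mul, prod_mul_distrib, prod_pow]) j
    simpa [mul_comm] using h8

theorem Tab.form {C : Cv} {W : C.S2} (h : C.Tab W) : ∃ c κ : C.Ω → ZMod C.q, (∃ i j, c i ≠ c j) ∧ (∃ i, κ i ≠ 0) ∧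
    ∀ i j, W j i = C.ζ ^ (κ i * (c j - c i)).val := by
  obtain ⟨tb, h1, h2, ⟨i₀, j₀, h3⟩, h4⟩ := h
  have key : ∀ i, ∃ κ, ∀ j, tb i j = κ * (tb i₀ j - tb i₀ i) := fun i => by
    obtain ⟨a, b, κ, hab, e⟩ := C.rel_dim (h4 i) (h4 i₀)
    have ha : a ≠ 0 := by
      rintro rfl
      have e1 := (e j₀).trans (e i₀).symm
      simp only [zero_mul, zero_add, h2, mul_zero, mul_eq_zero, h3, or_false] at e1
      simp [e1] at hab
    refine ⟨-b / a, fun j => ?_⟩
    have e1 := (e j).trans (e i).symm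
    rw [h2] at e1
    field_simp
    linear_combination e1
  choose κ hκ using key
  refine ⟨tb i₀, κ, ⟨j₀, i₀, by rwa [h2]⟩, ⟨i₀, fun e => h3 (by rw [hκ, e, zero_mul])⟩, fun i j => by rw [h1, hκ]⟩

end Cv

end Crest.Agent.R312
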