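import Crest.Agent.R312.F1
import Crest.Agent.R312.U2

/-!
# R312/E1: the endgame.
-/

set_option autoImplicit false

open Polynomial Finset Crest.Agent.Lib.PolyTime

noncomputable section

namespace Crest.Agent.R312

variable {α α' : Type} [Enc α] [Enc α'] {C : α → Cv}

/-- the coefficients of the rows of a relation -/
def Cv.cf (C : Cv) (p : C.Ω → C.Ω → Prop) (k : ℕ) : C.S1 := (C.itp (C.ind2 p)).coeff k

/-- the candidates -/
def Cv.cand (C : Cv) (W : C.S2) : List C.S1 :=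
  C.ind (fun i => C.evP i (C.itp (W - 1)) = 0) ::
    ((List.range C.n).map (C.cf fun j i => W j i = 1) ++ (List.range C.n).map (C.cf fun j i => W j i * W i j = 1) ++
      (List.range C.n).flatMap fun k => (List.range C.q).map fun z => C.ind fun i =>
        (C.itp W).coeff k i = qrt C.Q C.q C.γ ((C.itp W).coeff k i ^ C.q) * C.ζ ^ z)

theorem Cv.e1a_coeff (C : Cv) (W : C.S2) (k : ℕ) (i : C.Ω) :
    (C.itp W).coeff k i = (C.itp fun j => W j i).coeff k := by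
  rw [← C.coeff_evP, C.evP_itp]

theorem Cv.e1a_ne (C : Cv) {g h : C.Ω → C.K} (e : g ≠ h) :
    ∃ k < C.n, (C.itp g).coeff k ≠ (C.itp h).coeff k := by
  by_contra hc
  push Not at hc
  refine e (C.itp_inj (Polynomial.ext fun k => ?_))
  rcases lt_or_ge k C.n with hk | hk
  · exact hc k hk
  · rw [coeff_eq_zero_of_natDegree_lt ((C.natDegree_itp_lt g).trans_le hk),
      coeff_eq_zero_of_natDegree_lt ((C.natDegree_itp_lt h).trans_le hk)]

theorem Cv.e1a_zero (C : Cv) : C.itp (0 : C.Ω → C.K) = 0 := by simp [Cv.itp]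

theorem Cv.e1a_add (C : Cv) (a b : ZMod C.q) : C.ζ ^ (a + b).val = C.ζ ^ a.val * C.ζ ^ b.val := by
  rw [ZMod.val_add, ← pow_eq_pow_mod _ C.hζ.pow_eq_one, pow_add]

theorem Cv.e1a_inj (C : Cv) {a b : ZMod C.q} (h : C.ζ ^ a.val = C.ζ ^ b.val) : a = b :=
  ZMod.val_injective _ (C.hζ.pow_inj (ZMod.val_lt a) (ZMod.val_lt b) h)

theorem Cv.e1a_one (C : Cv) {a : ZMod C.q} : C.ζ ^ a.val = 1 ↔ a = 0 :=
  ⟨fun h => C.e1a_inj (by rw [h, ZMod.val_zero, pow_zero]), fun h => by rw [h, ZMod.val_zero, pow_zero]⟩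

theorem Cv.e1a_ind (C : Cv) {p : C.Ω → Prop} {i j : C.Ω} (hi : p i) (hj : ¬ p j) :
    (∃ i j, C.ind p i ≠ C.ind p j) ∧ (C.ind p * C.ind p = C.ind p ∨ ¬ Function.Injective (C.ind p)) := by
  refine ⟨⟨i, j, by simp [Cv.ind, hi, hj]⟩, Or.inl (funext fun k => ?_)⟩
  simp only [Cv.ind, Pi.mul_apply]
  split_ifs <;> simp

theorem Cv.cand_mem (C : Cv) (W : C.S2) : ∀ b ∈ C.cand W, ∀ i, b i ∈ C.F0 := by
  have h1 : ∀ (p : C.Ω → Prop) i, C.ind p i ∈ C.F0 := fun p i => by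
    unfold Cv.ind; split_ifs; exacts [one_mem _, zero_mem _]
  have h2 : ∀ (p : C.Ω → C.Ω → Prop) k i, C.cf p k i ∈ C.F0 := fun p k i => by
    rw [Cv.cf, C.e1a_coeff]
    refine C.coeff_itp_mem (fun j => ?_) k
    unfold Cv.ind2; split_ifs; exacts [one_mem _, zero_mem _]
  intro b hb i
  simp only [Cv.cand, List.mem_cons, List.mem_append, List.mem_map, List.mem_flatMap] at hb
  rcases hb with rfl | (⟨k, -, rfl⟩ | ⟨k, -, rfl⟩) | ⟨k, -, z, -, rfl⟩
  exacts [h1 _ i, h2 _ k i, h2 _ k i, h1 _ i]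

/-- an equivalence relation that is neither trivial nor total: rows are determined by their coefficients (`evP_itp`, `itp_inj`) -/
theorem Cv.cf_good (C : Cv) {p : C.Ω → C.Ω → Prop} {β : Type} (c : C.Ω → β) (hp : ∀ j i, p j i ↔ c j = c i)
    (h1 : ∃ i j, c i ≠ c j) (h2 : ¬ Function.Injective c) :
    ∃ k < C.n, (∃ i j, C.cf p k i ≠ C.cf p k j) ∧ ¬ Function.Injective (C.cf p k) := by
  obtain ⟨i, j, hij⟩ := h1
  obtain ⟨k, hk, e⟩ := C.e1a_ne (g := fun l => C.ind2 p l i) (h := fun l => C.ind2 p l j) fun e => by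
    simpa [Cv.ind2, hp, hij] using congrFun e i
  refine ⟨k, hk, ⟨i, j, by rwa [Cv.cf, C.e1a_coeff, C.e1a_coeff]⟩, fun h => h2 fun a b hab => h ?_⟩
  rw [Cv.cf, C.e1a_coeff, C.e1a_coeff]
  have : ∀ l, C.ind2 p l a = C.ind2 p l b := fun l => by
    unfold Cv.ind2
    rw [show p l a = p l b from propext (by rw [hp, hp, hab])]
  simp only [this]

/-- the resolvent: `(itp W).coeff k i = ζ ^ (-c i) Γ_k` with `Γ = itp (ζ ^ c) ≠ 0`; `qrt_spec` -/
theorem Cv.res_good (C : Cv) {W : C.S2} {c : C.Ω → ZMod C.q} (hW : ∀ i j, W j i = C.ζ ^ (c j - c i).val)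
    (h1 : ∃ i j, c i ≠ c j) : ∃ k < C.n, ∃ z < C.q, ∃ i j,
      (C.itp W).coeff k i = qrt C.Q C.q C.γ ((C.itp W).coeff k i ^ C.q) * C.ζ ^ z ∧
      (C.itp W).coeff k j ≠ qrt C.Q C.q C.γ ((C.itp W).coeff k j ^ C.q) * C.ζ ^ z := by
  obtain ⟨i, j, hij⟩ := h1
  have z0 : C.ζ ≠ 0 := C.hζ.ne_zero C.hq.ne_zero
  obtain ⟨k, hk, e⟩ := C.e1a_ne (g := fun l => C.ζ ^ (c l).val) (h := 0) fun e =>
    pow_ne_zero _ z0 (congrFun e i)
  rw [C.e1a_zero, coeff_zero] at e
  set Γ := (C.itp fun l => C.ζ ^ (c l).val).coeff k with hΓ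
  have h2 : ∀ l, (C.itp W).coeff k l = C.ζ ^ (-c l).val * Γ := fun l => by
    rw [C.e1a_coeff, hΓ, ← coeff_C_mul]
    congr 1
    simp only [Cv.itp, Finset.mul_sum, hW, sub_eq_neg_add, C.e1a_add, map_mul, mul_assoc]
  have h3 : ∀ l, (C.itp W).coeff k l ^ C.q = Γ ^ C.q := fun l => by
    rw [h2, mul_pow, ← pow_mul, mul_comm _ C.q, pow_mul, C.hζ.pow_eq_one, one_pow, one_mul]
  have h4 := qrt_spec C.hq C.q_dvd_Q C.hγ0 C.hγ Γ
  have h5 : qrt C.Q C.q C.γ (Γ ^ C.q) ≠ 0 := fun h => pow_ne_zero C.q e (by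
    rw [← h4]; exact (congrArg (· ^ C.q) h).trans (zero_pow C.hq.ne_zero))
  obtain ⟨z, hz, h6⟩ := C.hζ.eq_pow_of_pow_eq_one
    (ξ := (C.itp W).coeff k i / qrt C.Q C.q C.γ (Γ ^ C.q)) (by
      rw [div_pow, h3, h4, div_self (pow_ne_zero _ e)])
  have h7 : (C.itp W).coeff k i = qrt C.Q C.q C.γ (Γ ^ C.q) * C.ζ ^ z := by
    rw [h6, mul_div_cancel₀ _ h5]
  refine ⟨k, hk, z, hz, i, j, by rw [h3]; exact h7, ?_⟩
  rw [h3, ← h7, h2, h2]
  exact fun h => hij (neg_injective (C.e1a_inj (mul_right_cancel₀ e h))).symm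

/-- `Tab.form`.  Some `κ i = 0`: first candidate.  All `κ ≠ 0`, `c` not injective: `cf_good c`.  `c` injective, `κ` not constant: `cf_good κ`
(`W j i * W i j = ζ ^ ((κ i - κ j) (c j - c i))`, `κ` is not injective because `q - 1 < n`).  `κ` constant: `res_good` -/
theorem Cv.cand_good (C : Cv) {W : C.S2} (h : C.Tab W) :
    ∃ b ∈ C.cand W, (∃ i j, b i ≠ b j) ∧ (b * b = b ∨ ¬ Function.Injective b) := by
  obtain ⟨c, κ, ⟨a, b, hab⟩, ⟨i₁, hi₁⟩, hW⟩ := h.form
  by_cases h0 : ∃ i, κ i = 0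
  · obtain ⟨i₀, hi₀⟩ := h0
    have key : ∀ i, C.evP i (C.itp (W - 1)) = 0 ↔ ∀ j, κ i * (c j - c i) = 0 := fun i => by
      rw [C.evP_itp, ← C.e1a_zero, C.itp_inj.eq_iff, funext_iff]
      simp only [Pi.sub_apply, Pi.one_apply, Pi.zero_apply, sub_eq_zero, hW, C.e1a_one]
    refine ⟨_, List.mem_cons_self, C.e1a_ind (i := i₀) (j := i₁) ((key _).2 fun j => by rw [hi₀, zero_mul])
      fun h1 => hab ?_⟩
    have h2 := fun j => sub_eq_zero.1 ((mul_eq_zero.1 ((key _).1 h1 j)).resolve_left hi₁)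
    rw [h2 a, h2 b]
  push Not at h0
  by_cases h1 : Function.Injective c
  swap
  · obtain ⟨k, hk, h2, h3⟩ := C.cf_good (p := fun j i => W j i = 1) c
      (fun j i => by rw [hW, C.e1a_one, mul_eq_zero, sub_eq_zero, or_iff_right (h0 i)]) ⟨a, b, hab⟩ h1
    exact ⟨_, List.mem_cons_of_mem _ (List.mem_append_left _ (List.mem_append_left _
      (List.mem_map.2 ⟨k, List.mem_range.2 hk, rfl⟩))), h2, Or.inr h3⟩
  by_cases h2 : ∃ i j, κ i ≠ κ j
  · obtain ⟨k, hk, h3, h4⟩ := C.cf_good (p := fun j i => W j i * W i j = 1) κ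
      (fun j i => by
        rw [hW, hW, ← C.e1a_add, C.e1a_one,
          show κ i * (c j - c i) + κ j * (c i - c j) = (κ j - κ i) * (c i - c j) by ring, mul_eq_zero,
          sub_eq_zero, sub_eq_zero]
        exact ⟨fun h => h.elim id fun h => by rw [h1 h], Or.inl⟩) h2 fun h => by
        have h5 := Fintype.card_lt_of_injective_of_notMem κ h (b := 0) (by rintro ⟨i, hi⟩; exact h0 i hi)
        rw [C.card_Ω, ZMod.card] at h5
        exact absurd (Nat.le_of_dvd C.pos C.dvd) (not_le.2 h5)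
    exact ⟨_, List.mem_cons_of_mem _ (List.mem_append_left _ (List.mem_append_right _
      (List.mem_map.2 ⟨k, List.mem_range.2 hk, rfl⟩))), h3, Or.inr h4⟩
  push Not at h2
  obtain ⟨k, hk, z, hz, i, j, h3, h4⟩ := C.res_good (W := W) (c := fun j => κ i₁ * c j)
    (fun i j => by rw [hW, h2 i i₁, mul_sub]) ⟨a, b, fun h => hab (mul_left_cancel₀ hi₁ h)⟩
  exact ⟨_, List.mem_cons_of_mem _ (List.mem_append_right _ (List.mem_flatMap.2 ⟨k, List.mem_range.2 hk,
    List.mem_map.2 ⟨z, List.mem_range.2 hz, rfl⟩⟩)), C.e1a_ind (i := i) (j := j) h3 h4⟩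

theorem Good.e1_cf (hC : Good C) {p : ∀ a, (C a).Ω → (C a).Ω → Prop} (hp : DPT fun a => (C a).ind2 (p a)) :
    DPT fun a => (List.range (C a).n).map ((C a).cf (p a)) :=
  DPT.rangeMap hC.n ((hC.comp PT.fst').s1.dcoeff (dpt_itp (hp.comp PT.fst')) PT.snd')

theorem Good.e1_ind (hC : Good C) {x : ∀ a, (C a).S1} (hx : DPT x) {z : α → ℕ} (hz : PT z) :
    DPT fun a => (C a).ind fun i => x a i = qrt (C a).Q (C a).q (C a).γ (x a i ^ (C a).q) * (C a).ζ ^ z a :=
  hC.ind_eq hx (hC.s1.dmul (hC.dqrt1 (hC.s1.npow hx hC.q)) (hC.dK1 (hC.br.dpow hC.ζ hz)))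

theorem Good.e1_c0 (hC : Good C) {g : ∀ a, (C a).S1[X]} (hg : DPT g) {k : α → ℕ} (hk : PT k) :
    DPT fun a => (C a).ind fun i => (g a).coeff (k a) i = 0 :=
  hC.ind_eq (hC.s1.dcoeff hg hk) hC.s1.zero

theorem Good.e1_zero (hC : Good C) {g : ∀ a, (C a).S1[X]} (hg : DPT g) :
    DPT fun a => (C a).ind fun i => (C a).evP i (g a) = 0 := by
  have h1 : DPT fun x : Σ a, Fin ((g a).natDegree + 1) => (C x.1).ind fun i => (g x.1).coeff x.2.val i = 0 :=
    (hC.comp pt_sigma_fst).e1_c0 (hg.comp pt_sigma_fst)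
      (dpt_sigma_snd (β := fun a => Fin ((g a).natDegree + 1))).finVal
  refine (hC.ind_all (En.fin ((un_natDegree hg).add (UN.const 1)))
    (p := fun a k i => (g a).coeff k.val i = 0) h1).of_eq fun a => ?_
  congr 1
  funext i
  refine propext ⟨fun h => Polynomial.ext fun k => ?_, fun h k => ?_⟩
  · rw [Cv.coeff_evP, coeff_zero]
    by_cases hk : k < (g a).natDegree + 1
    · exact h ⟨k, hk⟩
    · rw [coeff_eq_zero_of_natDegree_lt (by omega)]
      rfl
  · rw [← Cv.coeff_evP, h, coeff_zero]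

theorem Good.e1_row (hC : Good C) {x : ∀ a, (C a).S1} (hx : DPT x) :
    DPT fun a => (List.range (C a).q).map fun z => (C a).ind fun i =>
      x a i = qrt (C a).Q (C a).q (C a).γ (x a i ^ (C a).q) * (C a).ζ ^ z :=
  DPT.rangeMap hC.q ((hC.comp PT.fst').e1_ind (hx.comp PT.fst') PT.snd')

theorem Good.e1_res (hC : Good C) {g : ∀ a, (C a).S1[X]} (hg : DPT g) :
    DPT fun a => (List.range (C a).n).flatMap fun k => (List.range (C a).q).map fun z => (C a).ind fun i =>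
      (g a).coeff k i = qrt (C a).Q (C a).q (C a).γ ((g a).coeff k i ^ (C a).q) * (C a).ζ ^ z := by
  have h1 := hC.comp (pt_sigma_fst (β := fun _ => ℕ))
  exact (DPT.of_pt (PT.range hC.n.1 hC.n.2)).flatMap
    (h1.e1_row (h1.s1.dcoeff (hg.comp pt_sigma_fst) dpt_sigma_snd.pt))

theorem Good.dcand (hC : Good C) {W : ∀ a, (C a).S2} (hW : DPT W) : DPT fun a => (C a).cand (W a) := by
  have h1 : DPT fun a => (C a).ind2 fun j i => W a j i = 1 := hC.ind2_eq hW hC.s2.one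
  have h2 : DPT fun a => (C a).ind2 fun j i => W a j i * W a i j = 1 :=
    hC.ind2_eq (hC.s2.dmul hW (hC.dswap hW)) hC.s2.one
  exact (hC.e1_zero (dpt_itp (hC.s2.dsub hW hC.s2.one))).cons
    (((hC.e1_cf h1).append (hC.e1_cf h2)).append (hC.e1_res (dpt_itp hW)))

/-- non-constant iff `d12 b ≠ d21 b`; injective iff `ind2 (b j = b i) = ind2 (j = i)` -/
theorem Good.pt_nice (hC : Good C) {b : ∀ a, (C a).S1} (hb : DPT b) :
    PT fun a => (∃ i j, b a i ≠ b a j) ∧ (b a * b a = b a ∨ ¬ Function.Injective (b a)) := by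
  classical
  refine (((hC.d12 hb).eq (hC.d21 hb)).not.and (((hC.s1.dmul hb hb).eq hb).or
    ((hC.ind2_eq (hC.d21 hb) (hC.d12 hb)).eq hC.ind2_diag).not)).of_iff fun a => and_congr ?_ (or_congr Iff.rfl ?_)
  · simp only [funext_iff, not_forall, ne_eq]
    exact exists_comm
  · refine not_congr ⟨fun h j i e => ?_, fun h => ?_⟩
    · have := congrFun (congrFun h j) i
      simp only [Cv.ind2, if_pos e] at this
      by_contra hne
      rw [if_neg hne] at this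
      exact one_ne_zero this
    · congr 1
      funext j i
      exact propext h.eq_iff

theorem solv_end (hC : Good C) {W : ∀ a, (C a).S2} (hW : DPT W) (h : ∀ a, (C a).Tab (W a)) :
    Solv fun a (b : (C a).S1) => (C a).Nice b :=
  (Solv.chooseL (hC.dcand hW) ((hC.comp pt_sigma_fst).pt_nice dpt_sigma_snd) fun a => (C a).cand_good (h a)).mono
    fun a b hb => ⟨(C a).cand_mem _ b hb.1, hb.2⟩

end Crest.Agent.R312
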