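import Crest.Agent.R312.H3
import Crest.Agent.R312.E1

/-!
# R312/Core: the core step.
-/

set_option autoImplicit false

open Polynomial Finset Crest.Agent.Lib.PolyTime

noncomputable section

namespace Crest.Agent.R312

variable {α α' : Type} [Enc α] [Enc α'] {C : α → Cv}

theorem core (hC : Good C) : Solv fun a (b : (C a).S1) => (C a).Nice b := by
  obtain ⟨W, hW, h⟩ := solv_tab hC
  exact solv_end hC hW h

end Crest.Agent.R312
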