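import Crest.Agent.R312.Dep2

/-!
# R312/Dep3: combinators for search problems.
`Solv.loop`: iterate `p ↦ match st p with | none => p | some y => ⟨p.1, y⟩` on `Sigma σ` exactly `g a + 1` times (`PB.exists_PT` in `R316` or take `(esize a + 1)^k`;
`PT.iterate_inv` with the invariant `p.1 = a`); the measure shows that `none` is reached.
-/

set_option autoImplicit false

open Matrix Finset Crest.Agent.Lib.PolyTime

noncomputable section

namespace Crest.Agent.R312

variable {α α' : Type} [Enc α] [Enc α']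

variable {β γ ι : α → Type} [∀ a, Enc (β a)] [∀ a, Enc (γ a)] [∀ a, Enc (ι a)]

theorem pt_val {p : α → Prop} : PT fun a : {a // p a} => a.1 := PT.id'.subtypeVal

theorem exists_UN {g : α → ℕ} (hg : PB g) : ∃ k : α → ℕ, UN k ∧ ∀ a, g a ≤ k a := by
  obtain ⟨c, hc⟩ := hg
  have h1 : PT fun a : α => esize a := PT.id'.encBits.length.of_eq fun _ => Tr.length_bits _
  exact ⟨fun a => (esize a + 1) ^ c, ⟨by fun_prop, ⟨c, fun _ => le_rfl⟩⟩, hc⟩

theorem DPT.find? {l : ∀ a, List (β a)} (h : DPT l) {f : ∀ a, β a → Bool}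
    (hf : PT fun p : Σ a, β a => f p.1 p.2) : DPT fun a => (l a).find? (f a) :=
  (h.filter hf).trList.head?.of_enc_eq_out fun a => by
    rw [List.head?_map, List.head?_filter]
    beta_reduce
    cases (l a).find? (f a) <;> rfl

theorem DPT.optGet {o : ∀ a, Option (β a)} (h : DPT o) (ho : ∀ a, (o a).isSome) :
    DPT fun a => (o a).get (ho a) := by
  have hs : PT fun a => ((o a).map enc : Option Tr) :=
    PT.of_enc_eq_out h fun a => by cases o a <;> rfl
  refine (hs.option_getD (PT.const Tr.nil)).of_eq fun a => ?_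
  have : ∀ (x : Option (β a)) (hx : x.isSome), (x.map enc).getD Tr.nil = enc (x.get hx) := by
    rintro (_ | x) hx
    · simp at hx
    · rfl
  exact this _ _

theorem Solv.mono {R R' : ∀ a, β a → Prop} (h : Solv R) (hR : ∀ a b, R a b → R' a b) : Solv R' := by
  obtain ⟨f, hf, h⟩ := h
  exact ⟨f, hf, fun a => hR a _ (h a)⟩

theorem Solv.comp {R : ∀ a, β a → Prop} (h : Solv R) {φ : α' → α} (hφ : PT φ) :
    Solv fun a' => R (φ a') := by
  obtain ⟨f, hf, h⟩ := h
  exact ⟨_, hf.comp hφ, fun a => h _⟩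

theorem Solv.bind {R : ∀ a, β a → Prop} {R' : ∀ a, γ a → Prop} (h : Solv R)
    (h' : Solv fun p : Σ a, {b // R a b} => R' p.1) : Solv R' := by
  obtain ⟨f, hf, h⟩ := h
  obtain ⟨g, hg, h'⟩ := h'
  exact ⟨fun a => g ⟨a, ⟨f a, h a⟩⟩, hg.comp (pt_sigma_mk PT.id' (hf.mk h)), fun a => h' ⟨a, _⟩⟩

theorem Solv.cases {c : α → Prop} {R : ∀ a, β a → Prop} (hc : PT c)
    (h1 : Solv fun a : {a // c a} => R a.1) (h2 : Solv fun a : {a // ¬ c a} => R a.1) : Solv R := by
  classical
  obtain ⟨f, hf, h⟩ := h1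
  obtain ⟨g, hg, h'⟩ := h2
  refine ⟨fun a => if hc : c a then f ⟨a, hc⟩ else g ⟨a, hc⟩, DPT.cases hc
    (hf.of_eq fun a => by simp [a.2]) (hg.of_eq fun a => by simp [a.2]), fun a => ?_⟩
  by_cases hc : c a
  · simpa [hc] using h ⟨a, hc⟩
  · simpa [hc] using h' ⟨a, hc⟩

theorem Solv.search (h : En ι) {p : ∀ a, ι a → Prop} (hp : PT fun x : Σ a, ι a => p x.1 x.2) :
    Solv fun a (o : Option (ι a)) => (∀ i, o = some i → p a i) ∧ (o = none → ∀ i, ¬ p a i) := by
  classical
  obtain ⟨l, hl, h⟩ := h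
  refine ⟨fun a => (l a).find? fun i => decide (p a i), hl.find? hp.decide, fun a => ⟨fun i hi => ?_,
    fun ho i => ?_⟩⟩
  · simpa using List.find?_some hi
  · simpa using List.find?_eq_none.1 ho i ((h a).2 i)

theorem Solv.choose (h : En ι) {p : ∀ a, ι a → Prop} (hp : PT fun x : Σ a, ι a => p x.1 x.2)
    (hex : ∀ a, ∃ i, p a i) : Solv p := by
  obtain ⟨o, ho, h'⟩ := Solv.search h hp
  have hs : ∀ a, (o a).isSome := fun a => by
    obtain ⟨i, hi⟩ := hex a
    cases e : o a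
    · exact absurd hi ((h' a).2 e i)
    · rfl
  exact ⟨_, ho.optGet hs, fun a => (h' a).1 _ (Option.some_get _).symm⟩

theorem Solv.pi {n : α → ℕ} (hn : UN n) {R : ∀ a, Fin (n a) → β a → Prop}
    (h : Solv (β := fun p : Σ a, Fin (n a) => β p.1) fun p b => R p.1 p.2 b) :
    Solv fun a (F : Fin (n a) → β a) => ∀ i, R a i (F i) := by
  obtain ⟨f, hf, h⟩ := h
  exact ⟨fun a i => f ⟨a, i⟩, DPT.pi hn hf, fun a i => h ⟨a, i⟩⟩

/-- loop until done; the invariant is carried by the type `β a` -/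
theorem Solv.loop (D : ∀ a, β a → Prop) (μ : ∀ a, β a → ℕ) {g : α → ℕ} (hg : PB g) {x0 : ∀ a, β a}
    (hx : DPT x0) (h0 : ∀ a, μ a (x0 a) ≤ g a) (hsz : ∀ a (x : β a), esize x ≤ g a)
    (hst : Solv fun (p : Σ a, β a) (o : Option (β p.1)) =>
      (o = none → D p.1 p.2) ∧ ∀ y, o = some y → μ p.1 y < μ p.1 p.2) : Solv D := by
  obtain ⟨st, hst, h⟩ := hst
  obtain ⟨k, hk, hgk⟩ := exists_UN hg
  let nx : ∀ a, β a → β a := fun a x => (st ⟨a, x⟩).getD x
  have hnx : DPT fun p : Σ a, β a => nx p.1 p.2 := by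
    have hs : PT fun p : Σ a, β a => ((st p).map enc : Option Tr) :=
      PT.of_enc_eq_out hst fun p => by cases st p <;> rfl
    refine (hs.option_getD dpt_sigma_snd).of_eq fun p => ?_
    obtain ⟨a, x⟩ := p
    simp only [nx]
    cases st ⟨a, x⟩ <;> rfl
  have hF : PT fun p : Σ a, β a => (⟨p.1, nx p.1 p.2⟩ : Σ a, β a) := pt_sigma_mk pt_sigma_fst hnx
  have key : ∀ a x i, (fun p : Σ a, β a => (⟨p.1, nx p.1 p.2⟩ : Σ a, β a))^[i] ⟨a, x⟩ =
      ⟨a, (nx a)^[i] x⟩ := by
    intro a x i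
    induction i with
    | zero => rfl
    | succ i ih => rw [Function.iterate_succ_apply', ih, Function.iterate_succ_apply']
  have hit := PT.iterate_inv (n := k) (x := fun a => (⟨a, x0 a⟩ : Σ a, β a))
    (f := fun _ p => (⟨p.1, nx p.1 p.2⟩ : Σ a, β a)) (fun a => esize a + g a + 1)
    (fun a p => p.1 = a) hk.1 hk.2 (pt_sigma_mk PT.id' hx) (hF.comp PT.snd')
    ((PB.esize_id.add hg).add (PB.const 1)) (fun _ => rfl) (fun _ _ h => h) (by
      rintro a ⟨a', x⟩ rfl
      have := hsz a' x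
      show esize a' + esize x + 1 ≤ esize a' + g a' + 1
      omega)
  refine ⟨fun a => (nx a)^[k a] (x0 a), (PT.comp dpt_sigma_snd hit).of_eq fun a => by rw [key],
    fun a => ?_⟩
  have main : ∀ i x, μ a x ≤ i → st ⟨a, (nx a)^[i] x⟩ = none := by
    intro i
    induction i with
    | zero =>
      intro x hx
      cases e : st ⟨a, x⟩ with
      | none => exact e
      | some y => exact absurd ((h ⟨a, x⟩).2 y e) (by simp only; omega)
    | succ i ih =>
      intro x hx
      cases e : st ⟨a, x⟩ with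
      | none =>
        have : nx a x = x := by simp [nx, e]
        rw [Function.iterate_fixed this]; exact e
      | some y =>
        have : nx a x = y := by simp [nx, e]
        rw [Function.iterate_succ_apply, this]
        have := (h ⟨a, x⟩).2 y e
        exact ih y (by simp only at this; omega)
  exact (h ⟨a, _⟩).1 (main _ _ ((h0 a).trans (hgk a)))

/-- local search: move to a candidate that keeps the invariant and lowers the measure -/
theorem Solv.localSearch (I : ∀ a, β a → Prop) (μ : ∀ a, β a → ℕ) {g : α → ℕ} (hg : PB g)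
    {x0 : ∀ a, β a} (hx : DPT x0) (h0 : ∀ a, I a (x0 a) ∧ μ a (x0 a) ≤ g a)
    (hsz : ∀ a x, I a x → esize x ≤ g a) (hι : En ι) (mv : ∀ a, β a → ι a → β a)
    (ok : ∀ a, β a → ι a → Prop)
    (hmv : DPT fun p : Σ a, {x // I a x} × ι a => mv p.1 p.2.1.1 p.2.2)
    (hok : PT fun p : Σ a, {x // I a x} × ι a => ok p.1 p.2.1.1 p.2.2)
    (hI : ∀ a x i, I a x → ok a x i → I a (mv a x i) ∧ μ a (mv a x i) < μ a x) :
    Solv fun a x => I a x ∧ ∀ i, ¬ ok a x i := by
  have hL := Solv.loop (β := fun a => {x // I a x}) (fun a x => ∀ i, ¬ ok a x.1 i)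
    (fun a x => μ a x.1) hg (x0 := fun a => ⟨x0 a, (h0 a).1⟩) (hx.mk _) (fun a => (h0 a).2)
    (fun a x => hsz a x.1 x.2) (by
      have hφ : PT fun q : Σ p : (Σ a, {x // I a x}), ι p.1 =>
          (⟨q.1.1, (q.1.2, q.2)⟩ : Σ a, {x // I a x} × ι a) :=
        pt_sigma_mk (pt_sigma_fst.comp pt_sigma_fst)
          ((dpt_sigma_snd.comp pt_sigma_fst).pair dpt_sigma_snd)
      obtain ⟨o, ho, h⟩ := Solv.search (ι := fun p : Σ a, {x // I a x} => ι p.1)
        (p := fun p i => ok p.1 p.2.1 i) (hι.comp pt_sigma_fst) (hok.comp hφ)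
      refine Solv.cases (c := fun p => (o p).isSome = true) ?_ ?_ ?_
      · have hs : PT fun a => ((o a).map enc : Option Tr) :=
          PT.of_enc_eq_out ho fun a => by cases o a <;> rfl
        exact hs.isSome.eq_true.of_iff fun p => by simp
      · have hk : ∀ p : {p // (o p).isSome = true}, ok p.1.1 p.1.2.1 ((o p.1).get p.2) := fun p =>
          (h p.1).1 _ (Option.some_get _).symm
        refine ⟨fun p => some ⟨mv p.1.1 p.1.2.1 ((o p.1).get p.2), (hI _ _ _ p.1.2.2 (hk p)).1⟩,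
          DPT.some (DPT.mk ((hmv.comp hφ).comp (pt_sigma_mk pt_val
            ((ho.comp pt_val).optGet fun p => p.2))) _), fun p => ⟨by simp, ?_⟩⟩
        rintro y ⟨rfl⟩
        exact (hI _ _ _ p.1.2.2 (hk p)).2
      · exact ⟨fun _ => none, DPT.none, fun p => ⟨fun _ => (h p.1).2 (by simpa using p.2), by simp⟩⟩)
  obtain ⟨f, hf, h⟩ := hL
  exact ⟨fun a => (f a).1, hf.val, fun a => ⟨(f a).2, h a⟩⟩

end Crest.Agent.R312
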