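import Mathlib
import Crest.Agent.Lib.PolyTime.More
import Crest.Agent.Lib.PolyTime.Converse
import Crest.Agent.Lib.PolyTime.Codes

/-!
# R312/DepDefs (copied from row 37, helper61): polynomial time for dependent data on promise types.
`α` is an arbitrary encodable index type (in applications a subtype carrying the promise); running time is only asked on `α`.
-/

set_option autoImplicit false

open Matrix Finset Crest.Agent.Lib.PolyTime

noncomputable section

namespace Crest.Agent.R312

variable {α α' : Type} [Enc α] [Enc α']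

instance encSigma {β : α → Type} [∀ a, Enc (β a)] : Enc (Sigma β) :=
  ⟨fun p => Tr.cons (enc p.1) (enc p.2), by
    rintro ⟨a, b⟩ ⟨a', b'⟩ h
    simp only [Tr.cons.injEq] at h
    obtain rfl := Enc.inj h.1
    rw [Enc.inj h.2]⟩

instance encPi {n : ℕ} {β : Type} [Enc β] : Enc (Fin n → β) :=
  Enc.ofInj List.ofFn List.ofFn_injective

instance encFinset {n : ℕ} : Enc (Finset (Fin n)) :=
  Enc.ofInj (fun S => fun i => decide (i ∈ S)) (fun S T h => by
    ext i; simpa using congrFun h i)

/-- polynomial-time dependent function -/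
def DPT {β : α → Type} [∀ a, Enc (β a)] (f : ∀ a, β a) : Prop := PT fun a => (enc (f a) : Tr)

/-- enumerable index families -/
def En (ι : α → Type) [∀ a, Enc (ι a)] : Prop :=
  ∃ l : ∀ a, List (ι a), DPT l ∧ ∀ a, (l a).Nodup ∧ ∀ i, i ∈ l a

/-- search problems solvable in polynomial time -/
def Solv {β : α → Type} [∀ a, Enc (β a)] (R : ∀ a, β a → Prop) : Prop :=
  ∃ f : ∀ a, β a, DPT f ∧ ∀ a, R a (f a)

/-- unary-bounded numbers -/
def UN (n : α → ℕ) : Prop := PT n ∧ PB n

end Crest.Agent.R312
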