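import Crest.Agent.R312.ADefs

/-!
# R312/F1: the rings of functions on the roots.  The code of `g : Ω → S` is the code of `itp g`; `itp (g * h) = (itp g * itp h) %ₘ f` by `itp_eval`, `eval_itp`.
-/

set_option autoImplicit false

open Polynomial Finset Crest.Agent.Lib.PolyTime

noncomputable section

namespace Crest.Agent.R312

variable {α α' : Type} [Enc α] [Enc α'] {C : α → Cv}

theorem Good.comp (hC : Good C) {φ : α' → α} (hφ : PT φ) : Good fun a' => C (φ a') := by
  exact ⟨hC.br.comp hφ, hC.card.comp hφ, hC.q.comp hφ, hC.ζ.comp hφ, hC.γ.comp hφ, hC.f.comp hφ⟩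

theorem Good.n (hC : Good C) : UN fun a => (C a).n := by
  exact un_natDegree hC.f

theorem Good.gm (hC : Good C) : UN fun a => (C a).gm := by
  exact hC.q.mul ((hC.n.mul hC.q).add ((UN.const 3).mul hC.n))

theorem Good.B (hC : Good C) : UN fun a => (C a).B := by
  exact (UN.size hC.card).mul ((hC.q.mul ((hC.n.mul hC.q).add (UN.const 1))).pow 2)

section
variable {S : α → Type} [∀ a, CommRing (S a)] [∀ a, Enc (S a)] [∀ a, Algebra (C a).K (S a)]

theorem dpt_itp {g : ∀ a, (C a).Ω → S a} (hg : DPT g) : DPT fun a => (C a).itp (g a) := by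
  exact hg

theorem dpt_of_itp {g : ∀ a, (C a).Ω → S a} (hg : DPT fun a => (C a).itp (g a)) : DPT g := by
  exact hg

theorem Good.dvals (hC : Good C) (hS : BR S)
    (hal : DPT fun p : Σ a, (C a).K => algebraMap (C p.1).K (S p.1) p.2) {g : ∀ a, (S a)[X]} (hg : DPT g) :
    DPT fun a => (fun j => (g a).eval (algebraMap (C a).K (S a) ((C a).rt j)) : (C a).Ω → S a) := by
  exact dpt_of_itp ((hS.dmod hg (hC.br.dmap hS hal hC.f) fun a => (C a).mon.map _).of_eq
    fun a => ((C a).itp_eval (g a)).symm)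

theorem Good.dconst (hC : Good C) (hS : BR S)
    (hal : DPT fun p : Σ a, (C a).K => algebraMap (C p.1).K (S p.1) p.2) {x : ∀ a, S a} (hx : DPT x) :
    DPT fun a => (fun _ => x a : (C a).Ω → S a) := by
  exact (hC.dvals hS hal (hS.dC hx)).of_eq fun a => funext fun _ => eval_C

theorem f1a_al (hal : DPT fun p : Σ a, (C a).K => algebraMap (C p.1).K (S p.1) p.2) {φ : α' → α} (hφ : PT φ) :
    DPT fun p : Σ a', (C (φ a')).K => algebraMap (C (φ p.1)).K (S (φ p.1)) p.2 :=
  hal.comp (pt_sigma_mk (β := fun a => (C a).K) (hφ.comp pt_sigma_fst) dpt_sigma_snd)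

theorem Good.fn (hC : Good C) (hS : BR S)
    (hal : DPT fun p : Σ a, (C a).K => algebraMap (C p.1).K (S p.1) p.2) : BR fun a => (C a).Ω → S a := by
  have p2 := pt_sigma_fst (β := fun a => ((C a).Ω → S a) × ((C a).Ω → S a))
  have p1 := pt_sigma_fst (β := fun a => (C a).Ω → S a)
  obtain ⟨g, hg, hsz⟩ := hS.poly.exists_size hC.n.2
  refine ⟨((hC.comp p2).dvals (hS.comp p2) (f1a_al hal p2) ((hS.comp p2).poly.dadd
      (dpt_itp dpt_sigma_snd.fst) (dpt_itp dpt_sigma_snd.snd))).of_eq fun p => funext fun j => ?_,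
    ((hC.comp p2).dvals (hS.comp p2) (f1a_al hal p2) ((hS.comp p2).poly.dmul
      (dpt_itp dpt_sigma_snd.fst) (dpt_itp dpt_sigma_snd.snd))).of_eq fun p => funext fun j => ?_,
    ((hC.comp p1).dvals (hS.comp p1) (f1a_al hal p1) ((hS.comp p1).poly.dneg
      (dpt_itp dpt_sigma_snd))).of_eq fun p => funext fun j => ?_,
    hC.dconst hS hal hS.zero, hC.dconst hS hal hS.one,
    fun _ _ _ => Nat.zero_le _, fun _ _ => le_rfl, fun _ => rfl, fun _ => rfl, fun _ _ => Nat.zero_le _,
    g, 1, hg, fun a x => ⟨?_, fun _ => Nat.zero_le _⟩⟩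
  · rw [eval_add, Cv.eval_itp, Cv.eval_itp, Pi.add_apply]
  · rw [eval_mul, Cv.eval_itp, Cv.eval_itp, Pi.mul_apply]
  · rw [eval_neg, Cv.eval_itp, Pi.neg_apply]
  · rw [add_zero, pow_one]
    exact hsz a ((C a).itp x) ((muP_le rfl).2 ⟨((C a).natDegree_itp_lt x).le, fun _ => Nat.zero_le _⟩)

end

theorem Good.s1 (hC : Good C) : BR fun a => (C a).S1 := by
  exact hC.fn hC.br dpt_sigma_snd

theorem Good.dK1 (hC : Good C) {x : ∀ a, (C a).K} (hx : DPT x) : DPT fun a => algebraMap (C a).K (C a).S1 (x a) := by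
  exact hC.dconst hC.br dpt_sigma_snd hx

theorem f1a_K1 (hC : Good C) : DPT fun p : Σ a, (C a).K => algebraMap (C p.1).K (C p.1).S1 p.2 :=
  (hC.comp pt_sigma_fst).dK1 dpt_sigma_snd

theorem Good.s2 (hC : Good C) : BR fun a => (C a).S2 := by
  exact hC.fn hC.s1 (f1a_K1 hC)

theorem Good.dK2 (hC : Good C) {x : ∀ a, (C a).K} (hx : DPT x) : DPT fun a => algebraMap (C a).K (C a).S2 (x a) := by
  exact hC.dconst hC.s1 (f1a_K1 hC) (hC.dK1 hx)

/-- a function of the base root as a function of both roots -/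
theorem Good.d12 (hC : Good C) {x : ∀ a, (C a).S1} (hx : DPT x) : DPT fun a => (fun _ => x a : (C a).S2) := by
  exact hC.dconst hC.s1 (f1a_K1 hC) hx

theorem Good.dt (hC : Good C) : DPT fun a => (C a).tS := by
  exact (hC.dvals hC.br dpt_sigma_snd hC.br.dX).of_eq fun a => funext fun _ => eval_X

theorem Good.dat2 (hC : Good C) {g : ∀ a, (C a).S1[X]} (hg : DPT g) : DPT fun a => (C a).at2 (g a) := by
  exact hC.dvals hC.s1 (f1a_K1 hC) hg

/-- a function of the base root as a function of the second root: `at2 ((itp x).map (algebraMap K S1))` -/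
theorem Good.d21 (hC : Good C) {x : ∀ a, (C a).S1} (hx : DPT x) :
    DPT fun a => (fun j _ => x a j : (C a).S2) := by
  refine (hC.dat2 (hC.br.dmap hC.s1 (φ := fun a => algebraMap (C a).K (C a).S1)
    ((hC.comp pt_sigma_fst).dK1 dpt_sigma_snd) (dpt_itp hx))).of_eq fun a => funext fun j => ?_
  rw [Cv.at2, eval_map_apply]
  exact congrArg _ ((C a).eval_itp (x a) j)

/-- `W j i = ∑_k (itp W).coeff k i * a_j ^ k`; use `d21` and `d12` -/
theorem Good.dswap (hC : Good C) {W : ∀ a, (C a).S2} (hW : DPT W) : DPT fun a => (fun j i => W a i j : (C a).S2) := by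
  have h1 : Good fun p : Σ a, Fin (C a).n => C p.1 := hC.comp pt_sigma_fst
  have h2 : DPT fun p : Σ a, Fin (C a).n => ((C p.1).itp (W p.1)).coeff p.2.val :=
    h1.s1.dcoeff ((dpt_itp hW).comp pt_sigma_fst) hC.n.fin.1
  have h3 : DPT fun p : Σ a, Fin (C a).n => ((fun _ => (C p.1).tS : (C p.1).S2)) ^ p.2.val :=
    h1.s2.npow (h1.d12 h1.dt) hC.n.fin
  have h4 := h1.s2.dmul (h1.d21 h2) h3
  have h5 := hC.s2.rangeSum hC.n (x := fun a k =>
    (fun j _ => ((C a).itp (W a)).coeff k j : (C a).S2) * (fun _ => (C a).tS : (C a).S2) ^ k) h4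
  refine h5.of_eq fun a => ?_
  funext j i
  rw [← (C a).eval_itp (W a) i, eval_eq_sum_range' ((C a).natDegree_itp_lt _)]
  simp [Cv.tS]

theorem Good.dinv1 (hC : Good C) {x : ∀ a, (C a).S1} (hx : DPT x) : DPT fun a => (fun i => (x a i)⁻¹ : (C a).S1) := by
  exact (hC.s1.dpow hx (k := fun a => 2 * (C a).Q - 3) (by have := hC.card; fun_prop)).of_eq fun a =>
    funext fun i => pow_inv_eq _

theorem Good.dqrt1 (hC : Good C) {x : ∀ a, (C a).S1} (hx : DPT x) :
    DPT fun a => (fun i => qrt (C a).Q (C a).q (C a).γ (x a i) : (C a).S1) := by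
  exact (hC.s1.dqrt hC.card hC.q (hC.dK1 hC.γ) hx).of_eq fun a =>
    funext fun i => map_qrt (Pi.evalRingHom (fun _ => (C a).K) i) _ _ _ _

theorem Good.dqrt2 (hC : Good C) {x : ∀ a, (C a).S2} (hx : DPT x) :
    DPT fun a => (fun j i => qrt (C a).Q (C a).q (C a).γ (x a j i) : (C a).S2) := by
  exact (hC.s2.dqrt hC.card hC.q (hC.dK2 hC.γ) hx).of_eq fun a => funext fun j => funext fun i =>
    map_qrt ((Pi.evalRingHom (fun _ => (C a).K) i).comp (Pi.evalRingHom (fun _ => (C a).S1) j)) _ _ _ _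

theorem Good.ind_eq (hC : Good C) {x y : ∀ a, (C a).S1} (hx : DPT x) (hy : DPT y) :
    DPT fun a => (C a).ind fun i => x a i = y a i := by
  classical
  refine (hC.s1.dsub hC.s1.one (hC.s1.dpow (hC.s1.dsub hx hy) (k := fun a => (C a).Q - 1)
    (by have := hC.card; fun_prop))).of_eq fun a => funext fun i => ?_
  by_cases h : x a i = y a i <;> simp [Cv.ind, pow_card_sub_one_eq, sub_eq_zero, h]

theorem Good.ind_not (hC : Good C) {p : ∀ a, (C a).Ω → Prop} (hp : DPT fun a => (C a).ind (p a)) :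
    DPT fun a => (C a).ind fun i => ¬ p a i := by
  refine (hC.s1.dsub hC.s1.one hp).of_eq fun a => funext fun i => ?_
  by_cases h : p a i <;> simp [Cv.ind, h]

theorem Good.ind_and (hC : Good C) {p r : ∀ a, (C a).Ω → Prop} (hp : DPT fun a => (C a).ind (p a))
    (hr : DPT fun a => (C a).ind (r a)) : DPT fun a => (C a).ind fun i => p a i ∧ r a i := by
  refine (hC.s1.dmul hp hr).of_eq fun a => funext fun i => ?_
  by_cases h : p a i <;> by_cases h' : r a i <;> simp [Cv.ind, h, h']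

theorem Good.ind_all (hC : Good C) {ι : α → Type} [∀ a, Enc (ι a)] (hι : En ι) {p : ∀ a, ι a → (C a).Ω → Prop}
    (hp : DPT fun x : Σ a, ι a => (C x.1).ind (p x.1 x.2)) : DPT fun a => (C a).ind fun i => ∀ k, p a k i := by
  classical
  obtain ⟨l, hl, h⟩ := id hι
  let : ∀ a, Fintype (ι a) := fun a => Fintype.ofList (l a) (h a).2
  refine (hC.s1.dprod hι (x := fun a k => (C a).ind (p a k)) hp).of_eq fun a => funext fun i => ?_
  simp [Cv.ind, Finset.prod_boole]

theorem Good.ind_const (hC : Good C) {p : α → Prop} (hp : PT p) : DPT fun a => (C a).ind fun _ => p a := by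
  classical
  refine (DPT.ite hp hC.s1.one hC.s1.zero).of_eq fun a => funext fun i => ?_
  by_cases h : p a <;> simp [Cv.ind, h]

theorem Good.ind2_eq (hC : Good C) {x y : ∀ a, (C a).S2} (hx : DPT x) (hy : DPT y) :
    DPT fun a => (C a).ind2 fun j i => x a j i = y a j i := by
  classical
  refine (hC.s2.dsub hC.s2.one (hC.s2.dpow (hC.s2.dsub hx hy) (k := fun a => (C a).Q - 1)
    (by have := hC.card; fun_prop))).of_eq fun a => funext fun j => funext fun i => ?_
  by_cases h : x a j i = y a j i <;> simp [Cv.ind2, pow_card_sub_one_eq, sub_eq_zero, h]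

theorem Good.ind2_not (hC : Good C) {p : ∀ a, (C a).Ω → (C a).Ω → Prop} (hp : DPT fun a => (C a).ind2 (p a)) :
    DPT fun a => (C a).ind2 fun j i => ¬ p a j i := by
  refine (hC.s2.dsub hC.s2.one hp).of_eq fun a => funext fun j => funext fun i => ?_
  by_cases h : p a j i <;> simp [Cv.ind2, h]

theorem Good.ind2_and (hC : Good C) {p r : ∀ a, (C a).Ω → (C a).Ω → Prop} (hp : DPT fun a => (C a).ind2 (p a))
    (hr : DPT fun a => (C a).ind2 (r a)) : DPT fun a => (C a).ind2 fun j i => p a j i ∧ r a j i := by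
  refine (hC.s2.dmul hp hr).of_eq fun a => funext fun j => funext fun i => ?_
  by_cases h : p a j i <;> by_cases h' : r a j i <;> simp [Cv.ind2, h, h']

theorem Good.ind2_all (hC : Good C) {ι : α → Type} [∀ a, Enc (ι a)] (hι : En ι)
    {p : ∀ a, ι a → (C a).Ω → (C a).Ω → Prop} (hp : DPT fun x : Σ a, ι a => (C x.1).ind2 (p x.1 x.2)) :
    DPT fun a => (C a).ind2 fun j i => ∀ k, p a k j i := by
  classical
  obtain ⟨l, hl, h⟩ := id hι
  let : ∀ a, Fintype (ι a) := fun a => Fintype.ofList (l a) (h a).2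
  refine (hC.s2.dprod hι (x := fun a k => (C a).ind2 (p a k)) hp).of_eq fun a => funext fun j => funext fun i => ?_
  simp [Cv.ind2, Finset.prod_boole]

theorem Good.ind2_diag (hC : Good C) : DPT fun a => (C a).ind2 fun j i => j = i := by
  refine (hC.ind2_eq (hC.d21 hC.dt) (hC.d12 hC.dt)).of_eq fun a => funext fun j => funext fun i => ?_
  simp [Cv.ind2, Cv.tS, (C a).rt_inj.eq_iff]

end Crest.Agent.R312
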