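import Crest.Agent.R312.G1

/-!
# R312/G2: the class group is finite and `λ ^ B` kills its `λ`-primary part.
-/

set_option autoImplicit false

open Polynomial Finset Crest.Agent.Lib.PolyTime

noncomputable section

namespace Crest.Agent.R312

namespace Cv

variable (C : Cv)

/-- `x⁻¹ = cl I`; take a nonzero element of `I` of least degree (`exists_V`, `Nat.find`), `nd_col_le`, `cl_col` -/
theorem exists_small (x : ClassGroup C.R) : ∃ I, I ≠ ⊥ ∧ C.nd I ≤ C.n * C.q ∧ C.cl I = x := by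
  classical
  obtain ⟨I, hI, hx⟩ := C.cl_surj x⁻¹
  have hex : ∃ m, ∃ z ∈ I, z ≠ 0 ∧ z ∈ C.V m := by
    obtain ⟨z, hz, h0⟩ := Submodule.exists_mem_ne_zero_of_ne_bot hI
    obtain ⟨m, hm⟩ := C.exists_V z
    exact ⟨m, z, hz, h0, hm⟩
  obtain ⟨h, h1, h0, hm⟩ := Nat.find_spec hex
  obtain ⟨h2, h3⟩ := C.cl_col h1 h0
  refine ⟨C.col h I, h2, C.nd_col_le h1 h0 hm fun m' hm' z hz hV => by_contra fun e => Nat.find_min hex hm' ⟨z, hz, e, hV⟩, ?_⟩
  rwa [hx, mul_inv_eq_one] at h3

theorem g2a_proj {K V : Type} [Field K] [AddCommGroup V] [Module K V] (W : Submodule K V) (U : Submodule K W) :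
    ∃ g : W →ₗ[K] U, g ∘ₗ U.subtype = LinearMap.id := LinearMap.exists_extend _

/-- `(Fin N → V M) → ClassGroup`, `v ↦ cl (span (range v))` with `M = n q`, `N = q (M + 1) = finrank (V M)` is onto
(`span_inter_V`, `finrank_V`, a subspace of `V M` is spanned by `N` vectors) -/
theorem card_cl : Finite (ClassGroup C.R) ∧ Nat.card (ClassGroup C.R) ≤ C.Q ^ (C.q * (C.n * C.q + 1)) ^ 2 := by
  obtain ⟨h1, h2⟩ := C.finrank_V (C.n * C.q)
  have hs : Function.Surjective fun f : C.V (C.n * C.q) →ₗ[C.K] C.V (C.n * C.q) =>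
      C.cl (Ideal.span (Set.range fun w => (f w : C.R))) := fun x => by
    obtain ⟨I, hI, hn, rfl⟩ := C.exists_small x
    let U : Submodule C.K (C.V (C.n * C.q)) := (I.restrictScalars C.K).comap (C.V (C.n * C.q)).subtype
    obtain ⟨g, hg⟩ := g2a_proj _ U
    refine ⟨U.subtype ∘ₗ g, congrArg C.cl (Eq.trans (congrArg Ideal.span ?_) (C.span_inter_V hI hn))⟩
    ext z
    refine ⟨?_, fun hz => ⟨⟨z, hz.2⟩, ?_⟩⟩
    · rintro ⟨w, rfl⟩
      exact ⟨(g w).2, (g w).1.2⟩
    · exact congrArg (fun u : U => (u.1 : C.R)) (LinearMap.congr_fun hg ⟨⟨z, hz.2⟩, hz.1⟩)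
  have : Finite (C.V (C.n * C.q) →ₗ[C.K] C.V (C.n * C.q)) := Module.finite_of_finite C.K
  refine ⟨Finite.of_surjective _ hs, (Nat.card_le_card_of_surjective _ hs).trans_eq ?_⟩
  rw [Module.natCard_eq_pow_finrank (K := C.K), Module.finrank_linearMap, h2, Nat.card_eq_fintype_card, sq]

theorem g2a_nil {G : Type} [Group G] [Finite G] (f : Monoid.End G) {x : G} {e : ℕ} (h : f^[e + 1] x = 1)
    (h' : f^[e] x ≠ 1) : 2 ^ (e + 1) ≤ Nat.card G := by
  have key : ∀ k ≤ e + 1, 2 ^ k ≤ Nat.card (MonoidHom.ker (f ^ k)) := fun k hk => by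
    induction k with
    | zero => exact Nat.card_pos
    | succ k ih =>
      have hle : MonoidHom.ker (f ^ k) ≤ MonoidHom.ker (f ^ (k + 1)) := fun y hy => by
        have hy' : (f ^ k) y = 1 := hy
        change (f ^ (k + 1)) y = 1
        rw [pow_succ', Monoid.End.coe_mul, Function.comp, hy', map_one]
      obtain ⟨c, hc⟩ := Subgroup.card_dvd_of_le hle
      have h1 : c ≠ 1 := fun e1 => h' (by
        have h2 := Subgroup.eq_of_le_of_card_ge hle (by rw [hc, e1, mul_one])
        have h3 : f^[e - k] x ∈ MonoidHom.ker (f ^ (k + 1)) := by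
          change (f ^ (k + 1)) _ = 1
          rw [Monoid.End.coe_pow, ← Function.iterate_add_apply, show k + 1 + (e - k) = e + 1 by omega, h]
        rw [← h2] at h3
        change (f ^ k) _ = 1 at h3
        rwa [Monoid.End.coe_pow, ← Function.iterate_add_apply, show k + (e - k) = e by omega] at h3)
      have h0 : c ≠ 0 := fun e0 => Nat.card_pos.ne' (by rw [hc, e0, mul_zero])
      rw [hc, pow_succ]
      exact Nat.mul_le_mul (ih (by omega)) (by omega)
  exact (key _ le_rfl).trans (Subgroup.card_le_card_group _)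

/-- the kernels of `λ ^ k`, `k ≤ e + 1`, increase strictly, so `2 ^ (e + 1) ≤ card ≤ 2 ^ B` -/
theorem lam_nil {x : ClassGroup C.R} {e : ℕ} (h : C.lam^[e + 1] x = 1) (he : C.B ≤ e) : C.lam^[e] x = 1 := by
  obtain ⟨h1, h2⟩ := C.card_cl
  by_contra h'
  have h3 := (g2a_nil (G := ClassGroup C.R) C.lam h h').trans (h2.trans (Nat.pow_le_pow_left (Nat.lt_size_self C.Q).le _))
  rw [← pow_mul] at h3
  have := (Nat.pow_le_pow_iff_right (by norm_num)).1 h3
  rw [B] at he
  omega

/-- `t` label vectors lie in a hyperplane: for one base root `i`, `∑_b m_b ℓ_b = 0` with `m_b` the size of row `i` of part `b`,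
and `∑_b m_b = n - 1 = -1` in `ZMod q` -/
theorem labels_dep {E : List C.S2} (hE : C.IsPart E) (l : Fin E.length → Fin E.length → ZMod C.q)
    (h : ∀ a i, ∏ j, C.ζ ^ (C.tab E (l a) i j).val = 1) : ¬ LinearIndependent (ZMod C.q) l := by
  classical
  intro hl
  obtain ⟨i⟩ : Nonempty C.Ω := Fintype.card_pos_iff.1 (C.card_Ω ▸ C.pos)
  let m : Fin E.length → ZMod C.q := fun b => ∑ j, if E.get b j i = 1 then 1 else 0
  have e1 : ∀ s, ∑ j, C.tab E s i j = ∑ b, s b * m b := fun s => by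
    simp only [tab, m, Finset.mul_sum, mul_ite, mul_one, mul_zero]
    exact Finset.sum_comm
  have e2 : ∀ a, ∑ j, C.tab E (l a) i j = 0 := fun a => by
    have h1 := h a i
    rw [Finset.prod_pow_eq_pow_sum, C.hζ.pow_eq_one_iff_dvd, ← ZMod.natCast_eq_zero_iff, Nat.cast_sum] at h1
    simpa only [ZMod.natCast_zmod_val] using h1
  have hu : IsUnit (Matrix.of l) := Matrix.linearIndependent_rows_iff_isUnit.1 hl
  have hm : m = 0 := Matrix.mulVec_injective_iff_isUnit.2 hu (by
    rw [Matrix.mulVec_zero]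
    funext a
    exact (e1 (l a)).symm.trans (e2 a))
  have e3 := e1 1
  rw [← Finset.add_sum_erase _ _ (mem_univ i), hE.tab_diag, zero_add, hm,
    Finset.sum_congr rfl (g := fun _ => 1) fun j hj => by
      obtain ⟨b, hb, -⟩ := hE.uniq j i (Finset.ne_of_mem_erase hj)
      exact hE.tab_eq 1 hb] at e3
  simp only [sum_const, card_erase_of_mem (mem_univ i), card_univ, C.card_Ω, nsmul_eq_mul, mul_one, Pi.zero_apply,
    mul_zero, sum_const_zero] at e3
  rw [Nat.cast_sub C.pos, (ZMod.natCast_eq_zero_iff _ _).2 C.dvd] at e3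
  simp at e3

end Cv

end Crest.Agent.R312
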