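import Crest.Agent.R312.C2

/-!
# R312/GDefs: the class group with the operator `λ = 1 - σ` (owner helper40; only `exists_sc` is open).
-/

set_option autoImplicit false

open Polynomial Finset Crest.Agent.Lib.PolyTime

noncomputable section

namespace Crest.Agent.R312

namespace Cv

variable (C : Cv)

open Classical in
/-- the class of an ideal (`1` for the zero ideal) -/
def cl (I : Ideal C.R) : ClassGroup C.R :=
  if h : I = ⊥ then 1 else ClassGroup.mk0 ⟨I, mem_nonZeroDivisors_of_ne_zero h⟩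

/-- choose a representative with `ClassGroup.mk0_surjective`; `ClassGroup.mk0_eq_mk0_iff` shows independence of the choice -/
theorem exists_sc : ∃ sc : ClassGroup C.R →* ClassGroup C.R, ∀ I, sc (C.cl I) = C.cl (I.map (C.sg 1)) := by
  have hi := (C.sg_bij 1).1
  have h0 : ∀ {I : Ideal C.R}, I.map (C.sg 1) = ⊥ ↔ I = ⊥ := Ideal.map_eq_bot_iff_of_injective hi
  let m : nonZeroDivisors (Ideal C.R) → ClassGroup C.R := fun I =>
    ClassGroup.mk0 ⟨I.1.map (C.sg 1), mem_nonZeroDivisors_of_ne_zero (h0.not.2 (nonZeroDivisors.ne_zero I.2))⟩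
  have key : ∀ I, m (Function.surjInv ClassGroup.mk0_surjective (ClassGroup.mk0 I)) = m I := fun I => by
    obtain ⟨x, y, hx, hy, e⟩ := ClassGroup.mk0_eq_mk0_iff.1 (Function.surjInv_eq ClassGroup.mk0_surjective (ClassGroup.mk0 I))
    refine ClassGroup.mk0_eq_mk0_iff.2 ⟨C.sg 1 x, C.sg 1 y, (map_ne_zero_iff _ hi).2 hx, (map_ne_zero_iff _ hi).2 hy, ?_⟩
    simpa only [Ideal.map_mul, Ideal.map_span, Set.image_singleton] using congrArg (Ideal.map (C.sg 1)) e
  have h1 : ∀ I, m (Function.surjInv ClassGroup.mk0_surjective (C.cl I)) = C.cl (I.map (C.sg 1)) := fun I => by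
    by_cases h : I = ⊥
    · rw [cl, cl, dif_pos h, dif_pos (h0.2 h), ← map_one ClassGroup.mk0, key]
      exact congrArg ClassGroup.mk0 (Subtype.ext (by simp [Ideal.map_top]))
    · rw [cl, cl, dif_neg h, dif_neg (h0.not.2 h), key]
  refine ⟨MonoidHom.mk' (fun x => m (Function.surjInv ClassGroup.mk0_surjective x)) fun x y => ?_, h1⟩
  obtain ⟨I, rfl⟩ := ClassGroup.mk0_surjective x
  obtain ⟨J, rfl⟩ := ClassGroup.mk0_surjective y
  rw [← map_mul, key, key, key, ← map_mul]
  exact congrArg ClassGroup.mk0 (Subtype.ext (Ideal.map_mul _ _ _))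

/-- the action of `σ` -/
def sc : ClassGroup C.R →* ClassGroup C.R := C.exists_sc.choose

theorem sc_cl (I : Ideal C.R) : C.sc (C.cl I) = C.cl (I.map (C.sg 1)) := C.exists_sc.choose_spec I

/-- `λ = 1 - σ` -/
def lam : ClassGroup C.R →* ClassGroup C.R := MonoidHom.id _ / C.sc

/-- the class of `∏ P_j ^ c_j` -/
def fc (c : C.Ω → ZMod C.q) : ClassGroup C.R := ∏ j, C.cl (C.Pj j) ^ (c j).val

/-- the table produced by the main loop -/
def Tab (W : C.S2) : Prop := ∃ tb : C.Ω → C.Ω → ZMod C.q, (∀ i j, W j i = C.ζ ^ (tb i j).val) ∧ (∀ i, tb i i = 0) ∧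
  (∃ i j, tb i j ≠ 0) ∧ ∀ i, C.fc (tb i) = 1

/-- states of the inner loop: generators, depth, formal socle vector -/
abbrev St (E : List C.S2) : Type := Fin E.length → List C.RS × ℕ × (Fin E.length → ZMod C.q)

/-- the invariant of the inner loop -/
structure Inv (E : List C.S2) (st : C.St E) : Prop where
  bd : ∀ b, C.Bd (st b).1 C.gm
  li : LinearIndependent (ZMod C.q) fun b => (st b).2.2
  red : ∀ b i, C.Red (C.idl (st b).1 i)
  soc : ∀ b i, C.lam^[(st b).2.1] (C.cl (C.idl (st b).1 i)) = C.fc (C.tab E (st b).2.2 i)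

/-- a proper refinement -/
def Rf (E E' : List C.S2) : Prop := C.IsPart E' ∧ E.length < E'.length

end Cv

end Crest.Agent.R312
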