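import Crest.Agent.R312.A6
import Crest.Agent.R312.G2

/-!
# R312/H1: one round of the Smith loop.
-/

set_option autoImplicit false

open Polynomial Finset Crest.Agent.Lib.PolyTime

noncomputable section

namespace Crest.Agent.R312

variable {α α' : Type} [Enc α] [Enc α'] {C : α → Cv}

open Classical in
theorem h1a_uniq {β : Type} (l : List β) (p : β → Prop) :
    (∃! b : Fin l.length, p (l.get b)) ↔ (l.map fun x => if p x then 1 else 0).sum = 1 := by
  rw [Fintype.existsUnique_iff_card_one, card_filter, ← Fin.sum_univ_fun_getElem]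
  rfl

/-- splitting a part -/
theorem Cv.IsPart.split {C : Cv} {E : List C.S2} (hE : C.IsPart E) (b : Fin E.length) {X : C.S2}
    (hX : ∀ j i, X j i = 0 ∨ X j i = 1) (h1 : E.get b * X ≠ 0) (h2 : E.get b * (1 - X) ≠ 0) :
    C.Rf E (E.get b * X :: E.get b * (1 - X) :: E.eraseIdx b.val) := by
  have hb := List.get_mem E b
  have hm : ∀ {P : C.S2 → Prop}, P (E.get b * X) → P (E.get b * (1 - X)) → (∀ e ∈ E, P e) →
      ∀ e ∈ E.get b * X :: E.get b * (1 - X) :: E.eraseIdx b.val, P e := fun a1 a2 a3 =>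
    List.forall_mem_cons.2 ⟨a1, List.forall_mem_cons.2 ⟨a2, fun e he => a3 e (List.mem_of_mem_eraseIdx he)⟩⟩
  refine ⟨⟨hm h1 h2 hE.ne, hm (fun j i => ?_) (fun j i => ?_) hE.idem, hm (fun i => ?_) (fun i => ?_) hE.diag,
    fun j i hji => ?_⟩, ?_⟩
  · rcases hE.idem _ hb j i with h | h <;> rcases hX j i with h' | h' <;> simp only [Pi.mul_apply, h, h'] <;> simp
  · rcases hE.idem _ hb j i with h | h <;> rcases hX j i with h' | h' <;>
      simp only [Pi.mul_apply, Pi.sub_apply, Pi.one_apply, h, h'] <;> simp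
  · simp only [Pi.mul_apply, hE.diag _ hb i, zero_mul]
  · simp only [Pi.mul_apply, hE.diag _ hb i, zero_mul]
  · have := (h1a_uniq E fun e => e j i = 1).1 (hE.uniq j i hji)
    rw [← ((List.getElem_cons_eraseIdx_perm b.2).map _).sum_eq] at this
    refine (h1a_uniq _ fun e : C.S2 => e j i = 1).2 (Eq.trans ?_ this)
    simp only [List.map_cons, List.sum_cons, ← add_assoc, List.get_eq_getElem] at hb ⊢
    congr 1
    rcases hE.idem _ hb j i with h | h <;> rcases hX j i with h' | h' <;>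
      simp [Pi.mul_apply, Pi.sub_apply, h, h']
  · have := b.2
    simp only [List.length_cons, List.length_eraseIdx_of_lt this]
    omega

/-- search `(b, z)` with `E_b X_z ≠ 0 ≠ E_b (1 - X_z)`, `X_z = ind2 (W = ζ ^ z)`; otherwise read the first `z` with `E_b X_z ≠ 0` -/
theorem solv_lbl (hC : Good C) {E : ∀ a, List (C a).S2} (hE : DPT E) (hP : ∀ a, (C a).IsPart (E a))
    {W : ∀ a, (C a).S2} (hW : DPT W) (h1 : ∀ a j i, W a j i ^ (C a).q = 1) :
    Solv fun a (o : List (C a).S2 ⊕ (Fin (E a).length → ZMod (C a).q)) =>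
      (∀ E', o = Sum.inl E' → (C a).Rf (E a) E') ∧
      ∀ l, o = Sum.inr l → ∀ j i, j ≠ i → W a j i = (C a).ζ ^ ((C a).tab (E a) l i j).val := by
  let Y : ∀ a, ℕ → (C a).S2 := fun a z => (C a).ind2 fun j i => W a j i = (C a).ζ ^ z
  let I : α → Type := fun a => Fin (E a).length × Fin (C a).q
  have hI : En I := (En.fin hE.length).prod (En.fin hC.q)
  have s1 := pt_sigma_fst (β := I)
  have hS := hC.s2.comp s1
  have hY : DPT fun x : Σ a, I a => Y x.1 x.2.2 := (hC.comp s1).ind2_eq (hW.comp s1)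
    ((hC.comp s1).dK2 (BR.dpow (hC.br.comp s1) (hC.ζ.comp s1) dpt_sigma_snd.snd.finVal))
  have hb : DPT fun x : Σ a, I a => (E x.1).get x.2.1 := (hE.comp s1).get dpt_sigma_snd.fst
  have a1 := hS.dmul hb hY
  have a2 := hS.dmul hb (hS.dsub hS.one hY)
  have hp : PT fun x : Σ a, I a => (E x.1).get x.2.1 * Y x.1 x.2.2 ≠ 0 ∧ (E x.1).get x.2.1 * (1 - Y x.1 x.2.2) ≠ 0 :=
    (a1.eq hS.zero).not.and (a2.eq hS.zero).not
  let P : ∀ a, I a → Prop := fun a x => (E a).get x.1 * Y a x.2 ≠ 0 ∧ (E a).get x.1 * (1 - Y a x.2) ≠ 0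
  refine Solv.cases (hI.exists (p := P) hp) ?_ ?_
  · obtain ⟨x, hx, h⟩ := Solv.choose (α := {a // ∃ x, P a x}) (ι := fun a => I a.1) (p := fun a x => P a.1 x)
      (hI.comp pt_val) (hp.comp (pt_sigma_mk (β := I) (pt_val.comp pt_sigma_fst) dpt_sigma_snd)) fun a => a.2
    have s2 := pt_sigma_mk (β := I) pt_val hx
    refine ⟨_, ((a1.comp s2).cons ((a2.comp s2).cons ((hE.comp pt_val).eraseIdx hx.fst.finVal))).inl,
      fun a => ⟨fun E' e => ?_, fun l e => nomatch e⟩⟩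
    cases e
    exact (hP a.1).split _ (fun j i => by simp only [Y, Cv.ind2]; split_ifs <;> simp) (h a).1 (h a).2
  · have s2 : PT fun x : Σ p : Σ a, Fin (E a).length, Fin (C p.1).q => (⟨x.1.1, (x.1.2, x.2)⟩ : Σ a, I a) :=
      pt_sigma_mk (β := I) (pt_sigma_fst.comp pt_sigma_fst) ((dpt_sigma_snd.comp pt_sigma_fst).pair dpt_sigma_snd)
    obtain ⟨z, hz, h⟩ := Solv.choose (ι := fun p : Σ a, Fin (E a).length => Fin (C p.1).q)
      (p := fun p z => (E p.1).get p.2 * Y p.1 z ≠ 0) ((En.fin hC.q).comp pt_sigma_fst)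
      ((a1.eq hS.zero).not.comp s2) fun p => by
      obtain ⟨j, hj⟩ := Function.ne_iff.1 ((hP p.1).ne _ (List.get_mem _ p.2))
      obtain ⟨i, hi⟩ := Function.ne_iff.1 hj
      obtain ⟨z, z1, z2⟩ := (C p.1).hζ.eq_pow_of_pow_eq_one (h1 p.1 j i)
      exact ⟨⟨z, z1⟩, fun h => hi (by simpa [Y, Cv.ind2, z2] using congrFun (congrFun h j) i)⟩
    refine ⟨_, ((DPT.pi (F := fun a b => ((z ⟨a, b⟩).val : ZMod (C a).q)) hE.length
      (((br_zmod hC.q.1).comp pt_sigma_fst).dnat hz.finVal)).comp pt_val).inr,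
      fun a => ⟨fun l e => (nomatch e), fun l e j i hji => ?_⟩⟩
    cases e
    obtain ⟨b, hb, -⟩ := (hP a.1).uniq j i hji
    have h2 := congrFun (congrFun (not_not.1 fun h2 => a.2 ⟨(b, z ⟨a.1, b⟩), h ⟨a.1, b⟩, h2⟩) j) i
    rw [(hP a.1).tab_eq _ hb, ZMod.val_cast_of_lt (z _).2]
    by_contra h3
    simp only [Pi.mul_apply, hb, Pi.sub_apply, Y, Cv.ind2, if_neg h3] at h2
    simp at h2

/-- `solv_lab`, `W_b = at2 u_b ^ ((Q - 1) / q)`, `solv_lbl` for each `b` (`Solv.pi`), look for a refinement -/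
theorem solv_labs (hC : Good C) {E : ∀ a, List (C a).S2} (hE : DPT E) (hP : ∀ a, (C a).IsPart (E a))
    {G : ∀ a, Fin (E a).length → List (C a).RS} (hG : DPT G) (hR : ∀ a b i, (C a).Red ((C a).idl (G a b) i)) :
    Solv fun a (o : List (C a).S2 ⊕ (Fin (E a).length → (C a).S1[X] × (Fin (E a).length → ZMod (C a).q))) =>
      (∀ E', o = Sum.inl E' → (C a).Rf (E a) E') ∧
      ∀ x, o = Sum.inr x → ∀ b i, (C a).IsN ((C a).idl (G a b) i) ((C a).evP i (x b).1) ∧
        ∀ j, ((C a).evP i (x b).1).eval ((C a).rt j) ^ (((C a).Q - 1) / (C a).q) =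
          (C a).ζ ^ ((C a).tab (E a) (x b).2 i j).val := by
  have hC' : Good fun p : Σ a, Fin (E a).length => C p.1 := hC.comp pt_sigma_fst
  obtain ⟨u, hu, hus⟩ := solv_lab hC' (G := fun p => G p.1 p.2)
    ((hG.comp pt_sigma_fst).apply dpt_sigma_snd) hC'.gm
  have hN := fun (p : Σ a, Fin (E a).length) i => hus p i (hR p.1 p.2 i).2.1 (hR p.1 p.2 i).2.2
  have h1 := hC'.card
  have h2 := hC'.q.1
  obtain ⟨o, ho, hos⟩ := solv_lbl hC' (E := fun p => E p.1) (hE.comp pt_sigma_fst) (fun p => hP p.1)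
    (W := fun p => (C p.1).at2 (u p) ^ (((C p.1).Q - 1) / (C p.1).q))
    (hC'.s2.dpow (hC'.dat2 hu) (by fun_prop)) fun p j i => by
      rw [Pi.pow_apply, Pi.pow_apply, ← pow_mul, Nat.div_mul_cancel (C p.1).q_dvd_Q, Cv.at2_apply]
      exact FiniteField.pow_card_sub_one_eq_one _ ((hN p i).1.eval_ne (hR p.1 p.2 i).2.1 j)
  refine Solv.cases (c := fun a => ∃ b, (o ⟨a, b⟩).isLeft = true)
    ((En.fin hE.length).exists ho.isLeft) ?_ ?_
  · obtain ⟨b, hb, hbs⟩ := Solv.choose (α := {a // ∃ b, (o ⟨a, b⟩).isLeft = true})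
      ((En.fin hE.length).comp pt_val) (p := fun a b => (o ⟨a.1, b⟩).isLeft = true)
      (ho.comp (pt_sigma_mk (pt_val.comp pt_sigma_fst) dpt_sigma_snd)).isLeft fun a => a.2
    refine Solv.of_dpt ((ho.comp (pt_sigma_mk pt_val hb)).getLeft hbs).inl fun a =>
      ⟨fun E' h => (hos ⟨a.1, b a⟩).1 E' ?_, fun _ h => by cases h⟩
    rw [← Sum.inl.inj h, Sum.inl_getLeft]
  · have hr : ∀ p : Σ a : {a // ¬ ∃ b, (o ⟨a, b⟩).isLeft = true}, Fin (E a.1).length,
        (o ⟨p.1.1, p.2⟩).isRight = true := fun p =>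
      Sum.not_isLeft.1 fun h => p.1.2 ⟨p.2, h⟩
    have hφ : PT fun p : Σ a : {a // ¬ ∃ b, (o ⟨a, b⟩).isLeft = true}, Fin (E a.1).length =>
        (⟨p.1.1, p.2⟩ : Σ a, Fin (E a).length) := pt_sigma_mk (pt_val.comp pt_sigma_fst) dpt_sigma_snd
    refine Solv.of_dpt (DPT.pi (hE.length.comp pt_val)
      (F := fun a b => (u ⟨a.1, b⟩, (o ⟨a.1, b⟩).getRight (hr ⟨a, b⟩)))
      ((hu.comp hφ).pair ((ho.comp hφ).getRight hr))).inr fun a =>
        ⟨fun _ h => (by cases h), fun x h b i => ?_⟩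
    obtain rfl := Sum.inr.inj h
    refine ⟨(hN ⟨a.1, b⟩ i).1, fun j => ?_⟩
    rcases eq_or_ne j i with rfl | hj
    · rw [(hP a.1).tab_diag, ZMod.val_zero, pow_zero, (hN ⟨a.1, b⟩ j).2, one_pow]
    · rw [← (hos ⟨a.1, b⟩).2 _ (Sum.inr_getRight _ _).symm j i hj, Pi.pow_apply, Pi.pow_apply,
        Cv.at2_apply]

/-- `solv_ker` over `ZMod q` with `φ = RingHom.id`, a nonzero member (`Solv.chooseL`), a position of largest depth (`Solv.choose`) -/
theorem solv_dep {q t : α → ℕ} [∀ a, Fact (q a).Prime] (hq : UN q) (ht : UN t)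
    {l : ∀ a, Fin (t a) → Fin (t a) → ZMod (q a)} (hl : DPT l) {e : ∀ a, Fin (t a) → ℕ} (he : DPT e)
    (h : ∀ a, ¬ LinearIndependent (ZMod (q a)) (l a)) :
    Solv fun a (x : (Fin (t a) → ZMod (q a)) × Fin (t a)) => x.1 x.2 ≠ 0 ∧ ∑ b, x.1 b • l a b = 0 ∧
      ∀ b, x.1 b ≠ 0 → e a b ≤ e a x.2 := by
  classical
  have hS := br_zmod hq.1
  obtain ⟨L, hL, hLs⟩ := solv_ker (K := fun a => ZMod (q a)) hS (hq.1.of_eq fun a => (ZMod.card _).symm) ht
    (rows := fun a => List.ofFn fun k b => l a b k) (DPT.ofFn.1 (DPT.pi ht (DPT.pi (ht.comp pt_sigma_fst)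
      (((hl.comp (pt_sigma_fst.comp pt_sigma_fst)).apply dpt_sigma_snd).apply
        (dpt_sigma_snd.comp pt_sigma_fst)))))
  have key : ∀ a c, c ∈ Submodule.span (ZMod (q a)) {v | v ∈ L a} ↔ ∑ b, c b • l a b = 0 := fun a c => by
    have := (hLs a).2 (RingHom.id _) c
    simp only [RingHom.id_apply, exists_eq_right, List.forall_mem_ofFn_iff] at this
    rw [this, funext_iff]
    simp only [Finset.sum_apply, Pi.smul_apply, smul_eq_mul, mul_comm (c _), Pi.zero_apply]
  have h0 : DPT fun a => (0 : Fin (t a) → ZMod (q a)) := DPT.pi ht (hS.zero.comp pt_sigma_fst)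
  obtain ⟨c, hc, hcs⟩ := Solv.chooseL hL (p := fun a x => x ≠ 0)
    (dpt_sigma_snd.eq (h0.comp pt_sigma_fst)).not fun a => by
      obtain ⟨c, h1, b, hb⟩ := Fintype.not_linearIndependent_iff.1 (h a)
      by_contra hn
      push Not at hn
      have := (key a c).2 h1
      rw [(Submodule.span_eq_bot (s := {v | v ∈ L a})).2 hn, Submodule.mem_bot] at this
      exact hb (congrFun this b)
  have hne : PT fun p : Σ a, Fin (t a) => c p.1 p.2 ≠ 0 :=
    (((hc.comp pt_sigma_fst).apply dpt_sigma_snd).eq (hS.zero.comp pt_sigma_fst)).not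
  have he' : PT fun p : Σ a, Fin (t a) => e p.1 p.2 := ((he.comp pt_sigma_fst).apply dpt_sigma_snd).pt
  have hφ : PT fun p : Σ p : Σ a, Fin (t a), Fin (t p.1) => (⟨p.1.1, p.2⟩ : Σ a, Fin (t a)) :=
    pt_sigma_mk (pt_sigma_fst.comp pt_sigma_fst) dpt_sigma_snd
  obtain ⟨b, hb, hbs⟩ := Solv.choose (En.fin ht)
    (p := fun a i => c a i ≠ 0 ∧ ∀ b, c a b ≠ 0 → e a b ≤ e a i)
    (hne.and ((En.fin (ht.comp pt_sigma_fst)).forall
      ((hne.comp hφ).imp ((he'.comp hφ).nat_le (he'.comp pt_sigma_fst))))) fun a => by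
      obtain ⟨i, hi⟩ := Function.ne_iff.1 (hcs a).2
      obtain ⟨k, hk, hm⟩ := Finset.exists_max_image (univ.filter fun b => c a b ≠ 0) (e a)
        ⟨i, Finset.mem_filter.2 ⟨mem_univ _, hi⟩⟩
      exact ⟨k, (Finset.mem_filter.1 hk).2, fun b hb => hm b (Finset.mem_filter.2 ⟨mem_univ _, hb⟩)⟩
  exact Solv.of_dpt (hc.pair hb) fun a =>
    ⟨(hbs a).1, (key a _).1 (Submodule.subset_span (hcs a).1), (hbs a).2⟩

theorem Cv.h1c_prod (C : Cv) {β : Type} (s : Finset β) {I : β → Ideal C.R} {u : β → C.K[X]} {g : β → ℕ}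
    (h : ∀ b ∈ s, C.Cop (I b) ∧ C.IsN (I b) (u b) ∧ C.nd (I b) ≤ g b) :
    C.Cop (∏ b ∈ s, I b) ∧ C.IsN (∏ b ∈ s, I b) (∏ b ∈ s, u b) ∧ C.nd (∏ b ∈ s, I b) ≤ ∑ b ∈ s, g b := by
  induction s using Finset.cons_induction with
  | empty => simpa using ⟨C.cop_top, C.isN_top, C.nd_top⟩
  | cons a s ha ih =>
    obtain ⟨h1, h2, h3⟩ := ih fun b hb => h b (mem_cons_of_mem hb)
    obtain ⟨h4, h5, h6⟩ := h a (mem_cons_self _ _)
    rw [prod_cons, prod_cons, sum_cons, C.nd_mul h4.ne_bot h1.ne_bot]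
    exact ⟨h4.mul h1, h5.mul h2, add_le_add h6 h3⟩

/-- `I = ∏ I_b ^ c_b` by `solv_prod` (`nd ≤ t q gm`), `u = ∏ u_b ^ c_b` (`IsN.mul`), `r = itp (qrt (at2 u))` (`exists_pow_eq`, `qrt_spec`, `evP_itp`,
`eval_itp`), `solv_div`, `cl_prod` -/
theorem solv_comb (hC : Good C) {t : α → ℕ} (ht : UN t) {G : ∀ a, Fin (t a) → List (C a).RS} (hG : DPT G)
    {u : ∀ a, Fin (t a) → (C a).S1[X]} (hu : DPT u) {c : ∀ a, Fin (t a) → ZMod (C a).q} (hc : DPT c)
    (hR : ∀ a b i, (C a).Red ((C a).idl (G a b) i) ∧ (C a).IsN ((C a).idl (G a b) i) ((C a).evP i (u a b)))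
    (h1 : ∀ a i j, ∏ b, (((C a).evP i (u a b)).eval ((C a).rt j) ^ (((C a).Q - 1) / (C a).q)) ^ (c a b).val = 1) :
    Solv fun a (L : List (C a).RS) => (C a).Bd L (C a).gm ∧ ∀ i, (C a).Red ((C a).idl L i) ∧
      (C a).lam ((C a).cl ((C a).idl L i)) = ∏ b, (C a).cl ((C a).idl (G a b) i) ^ (c a b).val := by
  have hv : UN fun p : Σ a, Fin (t a) => (c p.1 p.2).val :=
    .of_le (dpt_zmod_val ((hc.comp pt_sigma_fst).apply dpt_sigma_snd)) (hC.q.comp pt_sigma_fst).2
      fun p => (ZMod.val_lt _).le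
  have hM : UN fun a => t a * ((C a).q * (C a).gm) := ht.mul (hC.q.mul hC.gm)
  have hU : DPT fun a => ∏ b, u a b ^ (c a b).val :=
    hC.p1.dprod (En.fin ht) ((hC.p1.comp pt_sigma_fst).npow ((hu.comp pt_sigma_fst).apply dpt_sigma_snd) hv)
  obtain ⟨L, hL, H⟩ := solv_prod hC (GG := fun a => (List.ofFn fun b => List.replicate (c a b).val (G a b)).flatten)
    (DPT.ofFn.1 (DPT.pi ht (DPT.replicate hv ((hG.comp pt_sigma_fst).apply dpt_sigma_snd)))).flatten hM
  refine (solv_div hC hL hM hU (dpt_itp (hC.dqrt2 (hC.dat2 hU)))).mono fun a L' h => ⟨h.1, fun i => ?_⟩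
  obtain ⟨h2, h3, h4⟩ := (C a).h1c_prod univ (I := fun b => (C a).idl (G a b) i ^ (c a b).val)
    (u := fun b => (C a).evP i (u a b) ^ (c a b).val) (g := fun _ => (C a).q * (C a).gm) fun b _ => by
      obtain ⟨h2, h3, h4⟩ := (C a).h1c_prod (range (c a b).val) (g := fun _ => (C a).gm)
        fun _ _ => ⟨(hR a b i).1.2.1, (hR a b i).2, (hR a b i).1.2.2⟩
      simp only [prod_const, sum_const, card_range, smul_eq_mul] at h2 h3 h4
      exact ⟨h2, h3, h4.trans (Nat.mul_le_mul_right _ (ZMod.val_lt _).le)⟩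
  rw [sum_const, card_univ, Fintype.card_fin, smul_eq_mul] at h4
  have h5 := (H a).2 i
  simp only [List.map_flatten, List.prod_flatten, List.map_ofFn, List.prod_ofFn, Function.comp_apply, List.map_replicate,
    List.prod_replicate] at h5
  have h6 := h.2 i
  rw [(h5 h2.ne_bot h4).idl h2.ne_bot h4, (C a).cl_prod _ fun b _ => pow_ne_zero _ (hR a b i).1.1] at h6
  simp only [fun b => (C a).cl_pow (hR a b i).1.1 (c a b).val] at h6
  refine h6 ⟨h2, h4, by simpa only [map_prod, map_pow] using h3, fun j => ?_⟩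
  obtain ⟨y, hy⟩ := exists_pow_eq (C a).q_dvd_Q (x := ((C a).evP i (∏ b, u a b ^ (c a b).val)).eval ((C a).rt j)) (by
    simp only [map_prod, map_pow, eval_prod, eval_pow, ← prod_pow, ← h1 a i j, ← pow_mul, mul_comm])
  have h7 := (C a).eval_itp (S := (C a).K) (fun j => qrt (C a).Q (C a).q (C a).γ ((C a).at2 (∏ b, u a b ^ (c a b).val) j i)) j
  rw [Cv.evP_itp]
  refine (congrArg (· ^ (C a).q) h7).trans ?_
  rw [Cv.at2_apply, ← hy]
  exact qrt_spec (C a).hq (C a).q_dvd_Q (C a).hγ0 (C a).hγ y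

theorem li_update {F V : Type} [Field F] [AddCommGroup V] [Module F V] {t : ℕ} {s : Fin t → V} (hs : LinearIndependent F s)
    (c : Fin t → F) {b : Fin t} (hb : c b ≠ 0) : LinearIndependent F (Function.update s b (∑ x, c x • s x)) := by
  rw [Fintype.linearIndependent_iff] at hs ⊢
  intro g hg
  have key := hs (fun x => (if x = b then 0 else g x) + g b * c x) (by
    rw [← hg, ← add_sum_erase _ (fun x => g x • Function.update s b (∑ x, c x • s x) x) (mem_univ b),
      Function.update_self, smul_sum]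
    simp only [add_smul, sum_add_distrib, mul_smul]
    rw [add_comm, ← add_sum_erase _ (fun x => (if x = b then 0 else g x) • s x) (mem_univ b), if_pos rfl, zero_smul,
      zero_add]
    congr 1
    refine sum_congr rfl fun x hx => ?_
    rw [if_neg (ne_of_mem_erase hx), Function.update_of_ne (ne_of_mem_erase hx)])
  have h0 : g b = 0 := by simpa [hb] using key b
  intro x
  rcases eq_or_ne x b with rfl | hx
  · exact h0
  · simpa [hx, h0] using key x

open Classical in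
theorem h1i_idl (C : Cv) {E : List C.S2} (hE : C.IsPart E) (b : Fin E.length) (i : C.Ω) :
    C.idl [C.ιS (C.itp (1 - E.get b)), C.yS] i ≠ ⊥ ∧
      C.cl (C.idl [C.ιS (C.itp (1 - E.get b)), C.yS] i) = C.fc (C.tab E (Pi.single b 1) i) := by
  have e : C.idl [C.ιS (C.itp (1 - E.get b)), C.yS] i = ∏ j, if E.get b j i = 1 then C.Pj j else 1 := by
    rw [← C.span_itp (ε := fun j => E.get b j i) fun j => hE.idem _ (List.get_mem E b) j i, Cv.idl]
    congr 1
    ext z
    simp only [List.mem_cons, List.not_mem_nil, or_false, exists_eq_or_imp, exists_eq_left, Set.mem_ofPred_eq,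
      Set.mem_insert_iff, Set.mem_singleton_iff, C.evR_ι, C.evR_y, C.evP_itp, Pi.sub_apply, Pi.one_apply, eq_comm]
  have hne : ∀ j ∈ univ, (if E.get b j i = 1 then C.Pj j else 1) ≠ ⊥ := fun j _ => by
    split_ifs
    exacts [C.Pj_ne_bot j, one_ne_zero]
  rw [e]
  refine ⟨prod_ne_zero_iff.2 hne, ?_⟩
  rw [C.cl_prod _ hne, Cv.fc]
  refine prod_congr rfl fun j _ => ?_
  split_ifs with h
  · rw [hE.tab_eq _ h, Pi.single_eq_same, ZMod.val_one, pow_one]
  · rw [Cv.tab, sum_eq_zero, ZMod.val_zero, pow_zero, Ideal.one_eq_top, C.cl_top]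
    intro b' _
    split_ifs with h'
    · exact Pi.single_eq_of_ne (by rintro rfl; exact h h') _
    · rfl

/-- `G_b = [ιS (itp (1 - E_b)), yS]` (`span_itp`, `evP_itp`), `solv_red`, depth `0`, `s_b = Pi.single b 1` -/
theorem solv_init (hC : Good C) {E : ∀ a, List (C a).S2} (hE : DPT E) (hP : ∀ a, (C a).IsPart (E a)) :
    Solv fun a (st : (C a).St (E a)) => (C a).Inv (E a) st ∧ ∀ b, (st b).2.1 = 0 := by
  classical
  have ht : UN fun a => (E a).length := hE.length
  have hC' := hC.comp (pt_sigma_fst (β := fun a => Fin (E a).length))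
  obtain ⟨L, hL, H⟩ := solv_red hC' (G := fun p : Σ a, Fin (E a).length =>
      [(C p.1).ιS ((C p.1).itp (1 - (E p.1).get p.2)), (C p.1).yS])
    ((hC'.dι (dpt_itp (hC'.s2.dsub hC'.s2.one ((hE.comp pt_sigma_fst).get dpt_sigma_snd)))).cons
      (hC'.dy.cons DPT.nil))
  have hZ : BR fun p : Σ a, Fin (E a).length => ZMod (C p.1).q := br_zmod hC'.q.1
  have hs : DPT fun p : Σ a, Fin (E a).length => (Pi.single p.2 1 : Fin (E p.1).length → ZMod (C p.1).q) :=
    DPT.update (ht.comp pt_sigma_fst) (DPT.pi (ht.comp pt_sigma_fst) (F := fun _ _ => 0) (hZ.zero.comp pt_sigma_fst))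
      dpt_sigma_snd hZ.one
  refine ⟨fun a b => (L ⟨a, b⟩, 0, Pi.single b 1), DPT.pi ht (hL.pair ((DPT.of_pt (PT.const 0)).pair hs)),
    fun a => ⟨⟨fun b => (H ⟨a, b⟩).1, Pi.linearIndependent_single_one _ _,
      fun b i => ((H ⟨a, b⟩).2 i (h1i_idl _ (hP a) b i).1).1,
      fun b i => ((H ⟨a, b⟩).2 i (h1i_idl _ (hP a) b i).1).2.trans (h1i_idl _ (hP a) b i).2⟩, fun _ => rfl⟩⟩

theorem Cv.st_pow_val (C : Cv) (x y : ZMod C.q) : C.ζ ^ (x + y).val = C.ζ ^ x.val * C.ζ ^ y.val := by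
  rw [ZMod.val_add, ← pow_add, ← pow_eq_pow_mod _ C.hζ.pow_eq_one]

theorem Cv.st_pow_mul (C : Cv) (x y : ZMod C.q) : C.ζ ^ (x * y).val = (C.ζ ^ y.val) ^ x.val := by
  rw [ZMod.val_mul, ← pow_eq_pow_mod _ C.hζ.pow_eq_one, mul_comm, pow_mul]

theorem Cv.st_tab_sum (C : Cv) (E : List C.S2) {β : Type} (S : Finset β) (c : β → ZMod C.q)
    (s : β → Fin E.length → ZMod C.q) (i : C.Ω) :
    C.tab E (∑ b ∈ S, c b • s b) i = ∑ b ∈ S, c b • C.tab E (s b) i := by
  classical
  induction S using Finset.induction_on with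
  | empty =>
    have := C.tab_smul E 0 0 i
    simpa using this
  | insert b S hb ih => rw [sum_insert hb, sum_insert hb, C.tab_add, C.tab_smul, ih]

theorem Cv.st_prod_pow (C : Cv) {β : Type} (S : Finset β) (c d : β → ZMod C.q) :
    ∏ b ∈ S, (C.ζ ^ (d b).val) ^ (c b).val = C.ζ ^ (∑ b ∈ S, c b * d b).val := by
  classical
  induction S using Finset.induction_on with
  | empty => simp
  | insert b S hb ih => rw [prod_insert hb, sum_insert hb, C.st_pow_val, C.st_pow_mul, ih]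

theorem Cv.st_recip (C : Cv) {I : Ideal C.R} (hI : C.Red I) {u : C.K[X]} (hu : C.IsN I u) :
    ∏ j, u.eval (C.rt j) ^ ((C.Q - 1) / C.q) = 1 := by
  obtain ⟨ρ, hρ⟩ := C.recip hu hI.1
  have h0 : ρ ≠ 0 := by
    rintro rfl
    rw [zero_pow C.hq.ne_zero, prod_eq_zero_iff] at hρ
    obtain ⟨j, -, hj⟩ := hρ
    exact hu.eval_ne hI.2.1 j hj
  rw [prod_pow, hρ, ← pow_mul, Nat.mul_div_cancel' C.q_dvd_Q]
  exact FiniteField.pow_card_sub_one_eq_one ρ h0

open Classical in
theorem Cv.st_upd (C : Cv) {E : List C.S2} {st : C.St E} (hI : C.Inv E st) {c : Fin E.length → ZMod C.q}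
    {b₀ : Fin E.length} (h0 : c b₀ ≠ 0) (hm : ∀ b, c b ≠ 0 → (st b).2.1 ≤ (st b₀).2.1) {L : List C.RS}
    (hL : C.Bd L C.gm) (hL' : ∀ i, C.Red (C.idl L i) ∧
      C.lam (C.cl (C.idl L i)) = ∏ b, C.cl (C.idl (st b).1 i) ^ (c b).val) :
    C.Inv E (Function.update st b₀ (L, (st b₀).2.1 + 1,
        ∑ b, (if (st b).2.1 = (st b₀).2.1 then c b else 0) • (st b).2.2)) ∧
      ∑ b, (Function.update st b₀ (L, (st b₀).2.1 + 1,
        ∑ b, (if (st b).2.1 = (st b₀).2.1 then c b else 0) • (st b).2.2) b).2.1 = ∑ b, (st b).2.1 + 1 := by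
  refine ⟨⟨fun b => ?_, ?_, fun b i => ?_, fun b i => ?_⟩, ?_⟩
  · rcases eq_or_ne b b₀ with rfl | hb
    · rw [Function.update_self]
      exact hL
    · rw [Function.update_of_ne hb]
      exact hI.bd b
  · have := li_update hI.li (fun b => if (st b).2.1 = (st b₀).2.1 then c b else 0) (b := b₀) (by simpa using h0)
    have e : (fun b => (Function.update st b₀ (L, (st b₀).2.1 + 1,
        ∑ b, (if (st b).2.1 = (st b₀).2.1 then c b else 0) • (st b).2.2) b).2.2) =
        Function.update (fun b => (st b).2.2) b₀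
          (∑ b, (if (st b).2.1 = (st b₀).2.1 then c b else 0) • (st b).2.2) := by
      funext b
      rcases eq_or_ne b b₀ with rfl | hb
      · rw [Function.update_self, Function.update_self]
      · rw [Function.update_of_ne hb, Function.update_of_ne hb]
    rw [e]
    exact this
  · rcases eq_or_ne b b₀ with rfl | hb
    · rw [Function.update_self]
      exact (hL' i).1
    · rw [Function.update_of_ne hb]
      exact hI.red b i
  · rcases eq_or_ne b b₀ with rfl | hb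
    · rw [Function.update_self]
      have := C.smith (fun b => C.cl (C.idl (st b).1 i)) (fun b => (st b).2.1)
        (fun b => C.tab E (st b).2.2 i) (fun b => hI.soc b i) c _ hm (hL' i).2
      rw [C.st_tab_sum]
      exact this
    · rw [Function.update_of_ne hb]
      exact hI.soc b i
  · generalize (∑ b, (if (st b).2.1 = (st b₀).2.1 then c b else 0) • (st b).2.2) = v
    have e : (fun b => (Function.update st b₀ (L, (st b₀).2.1 + 1, v) b).2.1) =
        Function.update (fun b => (st b).2.1) b₀ ((st b₀).2.1 + 1) := by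
      funext b
      rcases eq_or_ne b b₀ with rfl | hb
      · rw [Function.update_self, Function.update_self]
      · rw [Function.update_of_ne hb, Function.update_of_ne hb]
    rw [e, sum_update_of_mem (mem_univ b₀), sdiff_singleton_eq_erase, ← add_sum_erase _ _ (mem_univ b₀)]
    omega

theorem st_right (hC : Good C) {E : ∀ a, List (C a).S2} (hE : DPT E) (hP : ∀ a, (C a).IsPart (E a))
    {st : ∀ a, (C a).St (E a)} (hst : DPT st) (hI : ∀ a, (C a).Inv (E a) (st a))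
    {x : ∀ a, Fin (E a).length → (C a).S1[X] × (Fin (E a).length → ZMod (C a).q)} (hx : DPT x)
    (hs : ∀ a b i, (C a).IsN ((C a).idl (st a b).1 i) ((C a).evP i (x a b).1) ∧
        ∀ j, ((C a).evP i (x a b).1).eval ((C a).rt j) ^ (((C a).Q - 1) / (C a).q) =
          (C a).ζ ^ ((C a).tab (E a) (x a b).2 i j).val) :
    Solv fun a (st' : (C a).St (E a)) => (C a).Inv (E a) st' ∧ ∑ b, (st' b).2.1 = ∑ b, (st a b).2.1 + 1 := by
  classical
  have ht : UN fun a => (E a).length := hE.length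
  have hst' : DPT fun p : Σ a, Fin (E a).length => st p.1 p.2 := (hst.comp pt_sigma_fst).apply dpt_sigma_snd
  have hx' : DPT fun p : Σ a, Fin (E a).length => x p.1 p.2 := (hx.comp pt_sigma_fst).apply dpt_sigma_snd
  have hG : DPT fun a b => (st a b).1 := DPT.pi ht hst'.fst
  have he : DPT (β := fun a => Fin (E a).length → ℕ) fun a b => (st a b).2.1 := DPT.pi ht hst'.snd.fst
  have hu : DPT fun a b => (x a b).1 := DPT.pi ht hx'.fst
  have hl : DPT fun a b => (x a b).2 := DPT.pi ht hx'.snd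
  have dep : ∀ a, ¬ LinearIndependent (ZMod (C a).q) fun b => (x a b).2 := fun a =>
    (C a).labels_dep (hP a) _ fun b i => by
      rw [← (C a).st_recip ((hI a).red b i) (hs a b i).1]
      exact prod_congr rfl fun j _ => ((hs a b i).2 j).symm
  obtain ⟨y, hy, hy'⟩ := solv_dep hC.q ht hl he dep
  obtain ⟨L, hL, hL'⟩ := solv_comb hC ht hG hu hy.fst (fun a b i => ⟨(hI a).red b i, (hs a b i).1⟩) fun a i j => by
    simp only [fun b => (hs a b i).2 j]
    rw [(C a).st_prod_pow]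
    have h := congrFun ((C a).st_tab_sum (E a) univ (y a).1 (fun b => (x a b).2) i) j
    rw [(hy' a).2.1, Finset.sum_apply] at h
    have h0 := congrFun ((C a).tab_smul (E a) 0 0 i) j
    simp only [Pi.smul_apply, smul_eq_mul] at h
    simp only [zero_smul, Pi.zero_apply] at h0
    rw [← h, h0, ZMod.val_zero, pow_zero]
  let cf : ∀ a, Fin (E a).length → ZMod (C a).q := fun a b =>
    if (st a b).2.1 = (st a (y a).2).2.1 then (y a).1 b else 0
  have hZ : BR fun a => ZMod (C a).q := br_zmod hC.q.1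
  have hcf : DPT fun p : Σ a, Fin (E a).length => cf p.1 p.2 :=
    DPT.ite (hst'.snd.fst.eq (((hst.apply hy.snd).snd.fst).comp pt_sigma_fst))
      ((hy.fst.comp pt_sigma_fst).apply dpt_sigma_snd) (hZ.zero.comp pt_sigma_fst)
  have hv : DPT fun a => ∑ b, cf a b • (st a b).2.2 := by
    refine DPT.pi ht ?_
    have hφ : PT fun r : Σ p : (Σ a, Fin (E a).length), Fin (E p.1).length =>
        (⟨r.1.1, r.2⟩ : Σ a, Fin (E a).length) := pt_sigma_mk (pt_sigma_fst.comp pt_sigma_fst) dpt_sigma_snd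
    refine ((hZ.comp pt_sigma_fst).dsum (En.fin (ht.comp pt_sigma_fst))
      (x := fun (p : Σ a, Fin (E a).length) b => cf p.1 b * (st p.1 b).2.2 p.2) ?_).of_eq fun p => ?_
    · exact (hZ.comp (pt_sigma_fst.comp pt_sigma_fst)).dmul (hcf.comp hφ)
        ((hst'.snd.snd.comp hφ).apply (dpt_sigma_snd.comp pt_sigma_fst))
    · simp [Finset.sum_apply]
  exact ⟨fun a => Function.update (st a) (y a).2 (L a, (st a (y a).2).2.1 + 1, ∑ b, cf a b • (st a b).2.2),
    DPT.update ht hst hy.snd (hL.pair (DPT.pair (DPT.of_pt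
      ((hst.apply hy.snd).snd.fst.pt.nat_add (PT.const 1))) hv)),
    fun a => (C a).st_upd (hI a) (hy' a).1 (hy' a).2.2 (hL' a).1 (hL' a).2⟩

/-- `solv_labs`; in the second case `recip` and `labels_dep` give a dependency, `solv_dep`, `solv_comb`, `smith`, `li_update`, `tab_add`, `tab_smul` -/
theorem solv_step (hC : Good C) {E : ∀ a, List (C a).S2} (hE : DPT E) (hP : ∀ a, (C a).IsPart (E a))
    {st : ∀ a, (C a).St (E a)} (hst : DPT st) (hI : ∀ a, (C a).Inv (E a) (st a)) :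
    Solv fun a (o : List (C a).S2 ⊕ (C a).St (E a)) => (∀ E', o = Sum.inl E' → (C a).Rf (E a) E') ∧
      ∀ st', o = Sum.inr st' → (C a).Inv (E a) st' ∧ ∑ b, (st' b).2.1 = ∑ b, (st a b).2.1 + 1 := by
  have ht : UN fun a => (E a).length := hE.length
  have hG : DPT fun a b => (st a b).1 := DPT.pi ht ((hst.comp pt_sigma_fst).apply dpt_sigma_snd).fst
  obtain ⟨o, ho, h⟩ := solv_labs hC hE hP hG fun a b i => (hI a).red b i
  refine Solv.cases (c := fun a => (o a).isLeft = true) ho.isLeft ?_ ?_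
  · refine ⟨fun a => Sum.inl ((o a.1).getLeft a.2), ((ho.comp pt_val).getLeft fun a => a.2).inl,
      fun a => ⟨fun E' hE' => ?_, fun _ h' => by simp at h'⟩⟩
    obtain rfl := Sum.inl.inj hE'
    exact (h a.1).1 _ (Sum.inl_getLeft _ _).symm
  · have hr : ∀ a : {a // ¬ (o a).isLeft = true}, (o a.1).isRight := fun a => by simpa using a.2
    obtain ⟨s, hs, h'⟩ := st_right (hC.comp pt_val) (hE.comp pt_val) (fun a => hP a.1) (hst.comp pt_val)
      (fun a => hI a.1) ((ho.comp pt_val).getRight hr) fun a => (h a.1).2 _ (Sum.inr_getRight _ _).symm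
    refine ⟨fun a => Sum.inr (s a), hs.inr, fun a => ⟨fun _ h'' => by simp at h'', fun st' hst' => ?_⟩⟩
    obtain rfl := Sum.inr.inj hst'
    exact h' a

end Crest.Agent.R312
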