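import Crest.Agent.R312.H1

/-!
# R312/H3: the two loops.
-/

set_option autoImplicit false

open Polynomial Finset Crest.Agent.Lib.PolyTime

noncomputable section

namespace Crest.Agent.R312

variable {α α' : Type} [Enc α] [Enc α'] {C : α → Cv}

/-- the invariant of the inner loop after `k` rounds -/
def h3i_I (C : Cv) (E : List C.S2) (k : ℕ) (o : List C.S2 ⊕ C.St E) : Prop :=
  (∀ E', o = Sum.inl E' → C.Rf E E') ∧
    ∀ st, o = Sum.inr st → C.Inv E st ∧ ∑ b, (st b).2.1 = k ∧ k ≤ E.length * C.B + 1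

theorem h3i_size (hC : Good C) {E : ∀ a, List (C a).S2} (hE : DPT E) :
    ∃ g : α → ℕ, PB g ∧ ∀ a k x, h3i_I (C a) (E a) k x → esize x ≤ g a := by
  obtain ⟨g2, hg2, h2⟩ := hC.s2.size
  obtain ⟨g3, hg3, h3⟩ := hC.size_bd hC.gm.2
  obtain ⟨g4, hg4, h4⟩ := (br_zmod (p := fun a => (C a).q) hC.q.1).size
  have ht := hE.length.2
  have hT : PB fun a => (E a).length * (C a).B + 1 := (ht.mul hC.B.2).add (PB.const 1)
  refine ⟨fun a => ((C a).n * (C a).n * (g2 a + 1) + 1) +
    ((E a).length * (g3 a + (6 * ((E a).length * (C a).B + 1) + 1 + ((E a).length * (g4 a + 1) + 1) + 1) + 1 + 1) + 1)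
      + 4, ?_, fun a k x hx => ?_⟩
  · exact (((((hC.n.2.mul hC.n.2).mul (hg2.add (PB.const 1))).add (PB.const 1))).add
      ((ht.mul (((hg3.add ((((((PB.const 6).mul hT).add (PB.const 1)).add
        ((ht.mul (hg4.add (PB.const 1))).add (PB.const 1)))).add (PB.const 1))).add (PB.const 1)).add
          (PB.const 1))).add (PB.const 1))).add (PB.const 4)
  · rcases x with E' | st
    · have hR := (hx.1 E' rfl).1
      have h1 := esize_list_le (l := E') (B := g2 a) fun e _ => h2 a e
      have h5 := Nat.mul_le_mul_right (g2 a + 1) hR.length_le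
      rw [esize_inl]
      dsimp only
      omega
    · obtain ⟨hI, hs, hk⟩ := hx.2 st rfl
      have h1 : esize st ≤ (E a).length *
          (g3 a + (6 * ((E a).length * (C a).B + 1) + 1 + ((E a).length * (g4 a + 1) + 1) + 1) + 1 + 1) + 1 := by
        refine esize_pi_le fun b => ?_
        have e1 := h3 a _ (hI.bd b)
        have e2 : (st b).2.1 ≤ k := hs ▸ Finset.single_le_sum (f := fun b => (st b).2.1)
          (fun _ _ => Nat.zero_le _) (Finset.mem_univ b)
        have e3 := esize_nat_le_self (st b).2.1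
        have e4 : esize (st b).2.2 ≤ (E a).length * (g4 a + 1) + 1 := esize_pi_le fun c => h4 a _
        rw [esize_prod, esize_prod]
        omega
      rw [esize_inr]
      dsimp only
      omega

/-- `Solv.loopI` on `List S2 ⊕ St E`; invariant `Rf` or `Inv ∧ ∑ depth ≤ t B`; stop at a refinement or when some depth is `≥ B`; `lam_nil`, `lam_fc` -/
theorem solv_inner (hC : Good C) {E : ∀ a, List (C a).S2} (hE : DPT E) (hP : ∀ a, (C a).IsPart (E a)) :
    Solv fun a (o : List (C a).S2 ⊕ (Fin (E a).length → ZMod (C a).q)) =>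
      (∀ E', o = Sum.inl E' → (C a).Rf (E a) E') ∧
      ∀ s, o = Sum.inr s → s ≠ 0 ∧ ∀ i, (C a).fc ((C a).tab (E a) s i) = 1 := by
  obtain ⟨g, hg, hsz⟩ := h3i_size hC hE
  have hT : UN fun a => (E a).length * (C a).B + 1 := (hE.length.mul hC.B).add (UN.const 1)
  obtain ⟨x, hx, hxs⟩ := Solv.iter (β := fun a => List (C a).S2 ⊕ (C a).St (E a)) hT
    (fun a k o => h3i_I (C a) (E a) k o) hg
    (by
      obtain ⟨st, hst, h⟩ := solv_init hC hE hP
      refine ⟨fun a => Sum.inr (st a), hst.inr, fun a => ⟨by simp, ?_⟩⟩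
      rintro st' ⟨rfl⟩
      exact ⟨(h a).1, Finset.sum_eq_zero fun b _ => (h a).2 b, Nat.zero_le _⟩) hsz
    (by
      have ho : DPT fun p : Σ a, {y : Fin ((E a).length * (C a).B + 1) × (List (C a).S2 ⊕ (C a).St (E a)) //
          h3i_I (C a) (E a) y.1.val y.2} => p.2.1.2 := dpt_sigma_snd.val.snd
      refine Solv.cases ho.isLeft ⟨fun p => p.1.2.1.2, ho.comp pt_val, fun p => ⟨p.1.2.2.1, fun st e => ?_⟩⟩ ?_
      · have := p.2
        dsimp only at e
        rw [e] at this
        simp at this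
      · have hφ : PT fun p : {p : Σ a, {y : Fin ((E a).length * (C a).B + 1) × (List (C a).S2 ⊕ (C a).St (E a)) //
          h3i_I (C a) (E a) y.1.val y.2} // ¬ p.2.1.2.isLeft = true} => p.1.1 := pt_sigma_fst.comp pt_val
        have hr : ∀ p : {p : Σ a, {y : Fin ((E a).length * (C a).B + 1) × (List (C a).S2 ⊕ (C a).St (E a)) //
          h3i_I (C a) (E a) y.1.val y.2} // ¬ p.2.1.2.isLeft = true}, p.1.2.1.2.isRight := fun p => by
          simpa using p.2
        have hI := fun p : {p : Σ a, {y : Fin ((E a).length * (C a).B + 1) × (List (C a).S2 ⊕ (C a).St (E a)) //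
          h3i_I (C a) (E a) y.1.val y.2} // ¬ p.2.1.2.isLeft = true} =>
          p.1.2.2.2 _ (Sum.inr_getRight _ (hr p)).symm
        refine (solv_step (hC.comp hφ) (hE.comp hφ) (fun p => hP _) ((ho.comp pt_val).getRight hr)
          fun p => (hI p).1).mono fun p o h => ⟨h.1, fun st e => ?_⟩
        obtain ⟨h1, h2⟩ := h.2 st e
        exact ⟨h1, by rw [h2, (hI p).2.1], p.1.2.1.1.2⟩)
  refine Solv.cases hx.isLeft ?_ ?_
  · refine ⟨fun a => Sum.inl ((x a.1).getLeft a.2), ((hx.comp pt_val).getLeft fun a => a.2).inl,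
      fun a => ⟨?_, by simp⟩⟩
    rintro E' ⟨rfl⟩
    exact (hxs a.1).1 _ (Sum.inl_getLeft _ a.2).symm
  · have hr : ∀ a : {a // ¬ (x a).isLeft = true}, (x a.1).isRight := fun a => by simpa using a.2
    have hI := fun a : {a // ¬ (x a).isLeft = true} => (hxs a.1).2 _ (Sum.inr_getRight _ (hr a)).symm
    have hst := (hx.comp pt_val).getRight hr
    obtain ⟨b, hb, hbs⟩ := Solv.choose (En.fin (hE.length.comp pt_val))
      (p := fun (a : {a // ¬ (x a).isLeft = true}) b => (C a.1).B ≤ ((x a.1).getRight (hr a) b).2.1)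
      (((hC.B.1.comp pt_val).comp pt_sigma_fst).nat_le
        (((hst.comp pt_sigma_fst).apply dpt_sigma_snd).snd.fst.pt)) (fun a => by
        by_contra hno
        push Not at hno
        have h1 := (hI a).2.1
        have h2 : ∑ b, ((x a.1).getRight (hr a) b).2.1 ≤ ∑ _b : Fin (E a.1).length, (C a.1).B :=
          Finset.sum_le_sum fun b _ => (hno b).le
        rw [Finset.sum_const, Finset.card_univ, Fintype.card_fin, smul_eq_mul] at h2
        omega)
    refine ⟨fun a => Sum.inr ((x a.1).getRight (hr a) (b a)).2.2, (hst.apply hb).snd.snd.inr,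
      fun a => ⟨by simp, ?_⟩⟩
    rintro s ⟨rfl⟩
    refine ⟨(hI a).1.li.ne_zero (b a), fun i => ?_⟩
    have h1 := (hI a).1.soc (b a) i
    rw [← h1]
    refine (C a.1).lam_nil ?_ (hbs a)
    rw [Function.iterate_succ_apply', h1, Cv.lam_fc]

theorem Cv.isPart_init (C : Cv) : C.IsPart [C.ind2 fun j i => ¬ j = i] := by
  have h2 : Nontrivial C.Ω := Fintype.one_lt_card_iff_nontrivial.1 (by
    rw [C.card_Ω]
    exact C.two_le_n)
  refine ⟨fun e he h0 => ?_, fun e he j i => ?_, fun e he i => ?_, fun j i hji => ⟨⟨0, by simp⟩, ?_, ?_⟩⟩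
  · obtain rfl := List.mem_singleton.1 he
    obtain ⟨j, i, hji⟩ := exists_pair_ne C.Ω
    have := congrFun (congrFun h0 j) i
    simp [Cv.ind2, hji] at this
  · obtain rfl := List.mem_singleton.1 he
    by_cases h : j = i <;> simp [Cv.ind2, h]
  · obtain rfl := List.mem_singleton.1 he
    simp [Cv.ind2]
  · simp [Cv.ind2, hji]
  · rintro ⟨b, hb⟩ -
    exact Fin.ext (by simpa using hb)

theorem Cv.IsPart.tab_spec {C : Cv} {E : List C.S2} (hE : C.IsPart E) {s : Fin E.length → ZMod C.q} (hs : s ≠ 0)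
    (h : ∀ i, C.fc (C.tab E s i) = 1) :
    C.Tab (C.ind2 (fun j i => j = i) + ∑ b, algebraMap C.K C.S2 (C.ζ ^ (s b).val) * E.get b) := by
  refine ⟨C.tab E s, fun i j => ?_, hE.tab_diag s, ?_, h⟩
  · have e : ∀ b, (algebraMap C.K C.S2 (C.ζ ^ (s b).val) * E.get b) j i = C.ζ ^ (s b).val * E.get b j i :=
      fun b => rfl
    rw [Pi.add_apply, Pi.add_apply, Finset.sum_apply, Finset.sum_apply, Finset.sum_congr rfl fun b _ => e b]
    by_cases hji : j = i
    · subst hji
      rw [hE.tab_diag, Finset.sum_eq_zero fun b _ => by rw [hE.diag _ (List.get_mem _ _), mul_zero]]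
      simp [Cv.ind2]
    · obtain ⟨b, hb, hu⟩ := hE.uniq j i hji
      rw [hE.tab_eq s hb, Finset.sum_eq_single b (fun b' _ hb' => ?_) (by simp), hb]
      · simp [Cv.ind2, hji]
      · rcases hE.idem _ (List.get_mem E b') j i with h0 | h1
        · rw [h0, mul_zero]
        · exact absurd (hu b' h1) hb'
  · obtain ⟨b, hb⟩ := Function.ne_iff.1 hs
    obtain ⟨i, j, h1⟩ := hE.exists_one b
    exact ⟨i, j, by rwa [hE.tab_eq s h1]⟩

theorem h3c_round (hC : Good C) {E : ∀ a, List (C a).S2} (hE : DPT E) (hP : ∀ a, (C a).IsPart (E a)) :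
    Solv fun a (o : List (C a).S2 ⊕ (C a).S2) =>
      (∀ E', o = Sum.inl E' → (C a).Rf (E a) E') ∧ ∀ W, o = Sum.inr W → (C a).Tab W := by
  obtain ⟨o, ho, h⟩ := solv_inner hC hE hP
  refine Solv.cases (c := fun a => (o a).isLeft = true) ho.isLeft ?_ ?_
  · refine ⟨fun a => Sum.inl ((o a.1).getLeft a.2), ((ho.comp pt_val).getLeft _).inl, fun a => ⟨?_, by simp⟩⟩
    rintro _ ⟨rfl⟩
    exact (h a.1).1 _ (Sum.inl_getLeft _ _).symm
  · have hC' := hC.comp (pt_val (p := fun a => ¬ (o a).isLeft = true))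
    have hE' := hE.comp (pt_val (p := fun a => ¬ (o a).isLeft = true))
    have hs : DPT fun a : {a // ¬ (o a).isLeft = true} => (o a.1).getRight (Sum.not_isLeft.1 a.2) :=
      (ho.comp pt_val).getRight _
    have hD := hC'.comp (pt_sigma_fst (β := fun a : {a // ¬ (o a).isLeft = true} => Fin (E a.1).length))
    refine ⟨fun a => Sum.inr ((C a.1).ind2 (fun j i => j = i) + ∑ b, algebraMap (C a.1).K (C a.1).S2
      ((C a.1).ζ ^ ((o a.1).getRight (Sum.not_isLeft.1 a.2) b).val) * (E a.1).get b), DPT.inr ?_,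
      fun a => ⟨by simp, ?_⟩⟩
    · exact hC'.s2.dadd hC'.ind2_diag (hC'.s2.dsum (En.fin hE'.length) (hD.s2.dmul (hD.dK2 (hD.br.dpow hD.ζ
        (dpt_zmod_val ((hs.comp pt_sigma_fst).apply dpt_sigma_snd)))) ((hE'.comp pt_sigma_fst).get dpt_sigma_snd)))
    · rintro _ ⟨rfl⟩
      have := (h a.1).2 _ (Sum.inr_getRight _ (Sum.not_isLeft.1 a.2)).symm
      exact (hP a.1).tab_spec this.1 this.2

/-- `Solv.loopI` on `List S2 ⊕ S2`; invariant `IsPart` or `Tab`; measure `n * n + 1 - length` (`IsPart.length_le`) -/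
theorem solv_tab (hC : Good C) : Solv fun a (W : (C a).S2) => (C a).Tab W := by
  obtain ⟨g, hg, hsz⟩ := hC.s2.size
  have hn : PB fun a => (C a).n * (C a).n := hC.n.2.mul hC.n.2
  have hL := Solv.loopI (β := fun a => List (C a).S2 ⊕ (C a).S2)
    (fun a x => (∀ E, x = Sum.inl E → (C a).IsPart E) ∧ ∀ W, x = Sum.inr W → (C a).Tab W)
    (fun a x => x.isRight = true)
    (fun a x => x.elim (fun E => (C a).n * (C a).n + 1 - E.length) fun _ => 0)
    (g := fun a => (C a).n * (C a).n * (g a + 1) + (g a + (C a).n * (C a).n + 4))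
    ((hn.mul (hg.add (PB.const 1))).add ((hg.add hn).add (PB.const 4)))
    ⟨fun a => Sum.inl [(C a).ind2 fun j i => ¬ j = i], ((hC.ind2_not hC.ind2_diag).cons DPT.nil).inl,
      fun a => ⟨by rintro _ ⟨rfl⟩; exact (C a).isPart_init, by simp⟩⟩
    (by
      rintro a (E | W) ⟨h1, h2⟩
      · have a1 := (h1 E rfl).length_le
        have a2 := esize_list_le (l := E) fun W _ => hsz a W
        have a3 := Nat.mul_le_mul_right (g a + 1) a1
        simp only [esize_inl, Sum.elim_inl]
        omega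
      · have := hsz a W
        simp only [esize_inr, Sum.elim_inr]
        omega)
    (by
      have hv : DPT fun p : Σ a, {x : List (C a).S2 ⊕ (C a).S2 //
          (∀ E, x = Sum.inl E → (C a).IsPart E) ∧ ∀ W, x = Sum.inr W → (C a).Tab W} => p.2.1 := dpt_sigma_snd.val
      refine Solv.cases (c := fun p => p.2.1.isLeft = true) hv.isLeft ?_ ?_
      · have hφ : PT fun p : {p : Σ a, {x : List (C a).S2 ⊕ (C a).S2 //
            (∀ E, x = Sum.inl E → (C a).IsPart E) ∧ ∀ W, x = Sum.inr W → (C a).Tab W} //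
            p.2.1.isLeft = true} => p.1.1 := pt_sigma_fst.comp pt_val
        obtain ⟨o, ho, h⟩ := h3c_round (hC.comp hφ) (E := fun p => p.1.2.1.getLeft p.2)
          ((hv.comp pt_val).getLeft _) fun p => p.1.2.2.1 _ (Sum.inl_getLeft _ _).symm
        refine ⟨fun p => some (o p), ho.some, fun p => ⟨by simp, ?_⟩⟩
        rintro _ ⟨rfl⟩
        have hp := h p
        have hl : (p.1.2.1.getLeft p.2).length ≤ (C p.1.1).n * (C p.1.1).n :=
          (p.1.2.2.1 _ (Sum.inl_getLeft _ p.2).symm).length_le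
        rw [← Sum.inl_getLeft _ p.2]
        refine ⟨⟨fun E' e => (hp.1 E' e).1, hp.2⟩, ?_⟩
        rcases e : o p with E' | W
        · have : (p.1.2.1.getLeft p.2).length < E'.length := (hp.1 E' e).2
          simp only [Sum.elim_inl]
          omega
        · simp only [Sum.elim_inl, Sum.elim_inr]
          omega
      · exact ⟨fun _ => none, DPT.none, fun p => ⟨fun _ => Sum.not_isLeft.1 p.2, by simp⟩⟩)
  obtain ⟨f, hf, h⟩ := hL
  exact ⟨fun a => (f a).getRight (h a).2, hf.getRight _, fun a => (h a).1.2 _ (Sum.inr_getRight _ _).symm⟩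

end Crest.Agent.R312
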