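import Crest.Agent.R312.CDefs

/-!
# R312/R1: roots, interpolation, coordinates, the automorphism `σ`.
`rep C.P` is `K[X]`-linear, `rep (mk g) = g %ₘ P`, `natDegree P = q`; every `z` is `mk (rep z)`.
-/

set_option autoImplicit false

open Polynomial Finset Crest.Agent.Lib.PolyTime

noncomputable section

namespace Crest.Agent.R312

namespace Cv

variable (C : Cv)

/-- `Splits.eq_prod_roots_of_monic`, `Separable.squarefree`, `nodup_roots` -/
theorem f_eq_prod : C.f = ∏ j : C.Ω, (X - Polynomial.C (C.rt j)) := by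
  have h : C.f.roots = (univ : Finset C.Ω).val.map C.rt := by
    refine ((nodup_roots C.sep).ext (Finset.univ.nodup.map C.rt_inj)).2 fun a => ?_
    rw [mem_roots C.mon.ne_zero, Multiset.mem_map]
    exact ⟨fun h => ⟨⟨a, h⟩, mem_univ _, rfl⟩, fun ⟨j, _, e⟩ => e ▸ j.2⟩
  refine (C.spl.eq_prod_roots_of_monic C.mon).trans ?_
  rw [h, Multiset.map_map]
  rfl

theorem card_Ω : Fintype.card C.Ω = C.n :=
  ((congrArg natDegree C.f_eq_prod).trans (Lagrange.natDegree_nodal (s := univ) (v := C.rt))).symm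

theorem two_le_n : 2 ≤ C.n :=
  C.hq.two_le.trans (Nat.le_of_dvd C.pos C.dvd)

theorem q_ne_zero : (C.q : C.K) ≠ 0 :=
  C.hζ.neZero'.out

theorem q_dvd_Q : C.q ∣ C.Q - 1 :=
  C.hζ.dvd_of_pow_eq_one _ (FiniteField.pow_card_sub_one_eq_one _ (C.hζ.ne_zero C.hq.ne_zero))

/-- a polynomial that vanishes at all roots is a multiple of `f` -/
theorem f_dvd_iff {g : C.K[X]} : C.f ∣ g ↔ ∀ j, g.eval (C.rt j) = 0 := by
  refine ⟨fun h j => eval_eq_zero_of_dvd_of_eval_eq_zero h (C.rt_root j), fun h => ?_⟩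
  rw [C.f_eq_prod]
  exact Fintype.prod_dvd_of_coprime (pairwise_coprime_X_sub_C C.rt_inj) fun j => dvd_iff_isRoot.2 (h j)

theorem natDegree_itp_lt {S : Type} [CommRing S] [Algebra C.K S] (g : C.Ω → S) : (C.itp g).natDegree < C.n := by
  have := C.two_le_n
  refine lt_of_le_of_lt (natDegree_sum_le_of_forall_le (n := C.n - 1) _ _ fun j _ => ?_) (by omega)
  refine (natDegree_C_mul_le _ _).trans (natDegree_map_le.trans (le_of_eq ?_))
  rw [Lagrange.natDegree_basis C.rt_inj.injOn (mem_univ j), card_univ, C.card_Ω]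

/-- interpolation commutes with `K`-algebra maps -/
theorem map_itp {S T : Type} [CommRing S] [Algebra C.K S] [CommRing T] [Algebra C.K T] (φ : S →ₐ[C.K] T)
    (g : C.Ω → S) : (C.itp g).map (φ : S →+* T) = C.itp fun j => φ (g j) := by
  simp only [itp, Polynomial.map_sum, Polynomial.map_mul, map_C, Polynomial.map_map, AlgHom.comp_algebraMap,
    RingHom.coe_coe]

theorem evP_itp (W : C.S2) (i : C.Ω) : C.evP i (C.itp W) = C.itp fun j => W j i :=
  C.map_itp (Pi.evalAlgHom C.K (fun _ : C.Ω => C.K) i) W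

theorem at2_apply (g : C.S1[X]) (j i : C.Ω) : C.at2 g j i = (C.evP i g).eval (C.rt j) := by
  rw [evP, coe_mapRingHom, eval_map]
  exact (eval₂_at_apply (Pi.evalRingHom (fun _ : C.Ω => C.K) i) _).symm

/-- uniqueness of interpolation over any `K`-algebra: `g %ₘ f` is the interpolation of the values
(`g - itp` is divisible by each `X - C (rt j)`, these are pairwise coprime) -/
theorem itp_eval {S : Type} [CommRing S] [Algebra C.K S] (g : S[X]) :
    C.itp (fun j => g.eval (algebraMap C.K S (C.rt j))) = g %ₘ C.f.map (algebraMap C.K S) := by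
  nontriviality S
  have hm := C.mon.map (algebraMap C.K S)
  have hd : C.f.map (algebraMap C.K S) ∣ g - C.itp fun j => g.eval (algebraMap C.K S (C.rt j)) := by
    rw [C.f_eq_prod, Polynomial.map_prod]
    refine Fintype.prod_dvd_of_coprime (fun i j hij =>
      (pairwise_coprime_X_sub_C C.rt_inj hij).map (mapRingHom (algebraMap C.K S))) fun j => ?_
    rw [Polynomial.map_sub, map_X, map_C, dvd_iff_isRoot, IsRoot.def, eval_sub, C.eval_itp, sub_self]
  obtain ⟨c, hc⟩ := hd
  refine (div_modByMonic_unique c _ hm ⟨by rw [← hc]; ring, degree_lt_degree ?_⟩).2.symm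
  rw [C.mon.natDegree_map]
  exact C.natDegree_itp_lt _

/-- the coefficients of the interpolation of an `F0`-valued function lie in `F0` -/
theorem coeff_itp_mem {g : C.Ω → C.K} (hg : ∀ j, g j ∈ C.F0) (k : ℕ) : (C.itp g).coeff k ∈ C.F0 := by
  have hC : ∀ c ∈ C.F0, Polynomial.C c ∈ lifts C.F0.subtype := fun c hc => C_mem_lifts C.F0.subtype ⟨c, hc⟩
  have hr : ∀ j, C.rt j ∈ C.F0 := fun j => Subfield.subset_closure ⟨j, rfl⟩
  have h : C.itp g ∈ lifts C.F0.subtype := by
    refine sum_mem fun j _ => mul_mem (hC _ (hg j)) ?_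
    rw [Algebra.algebraMap_self, Polynomial.map_id]
    refine prod_mem fun k _ => mul_mem (hC _ (inv_mem (sub_mem (hr j) (hr k)))) ?_
    rw [sub_eq_add_neg, ← C_neg]
    exact add_mem (X_mem_lifts _) (hC _ (neg_mem (hr k)))
  obtain ⟨c, hc⟩ := (lifts_iff_coeff_lifts _).1 h k
  exact hc ▸ c.2

theorem natDegree_P : C.P.natDegree = C.q := by
  exact natDegree_X_pow_sub_C

theorem co_of_le (z : C.R) {l : ℕ} (h : C.q ≤ l) : C.co z l = 0 := by
  refine coeff_eq_zero_of_natDegree_lt (lt_of_lt_of_le ?_ h)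
  obtain ⟨g, rfl⟩ := AdjoinRoot.mk_surjective z
  rw [rep_mk, ← C.natDegree_P]
  refine natDegree_modByMonic_lt g Fact.out fun e => C.hq.ne_zero ?_
  rw [← C.natDegree_P, e, natDegree_one]

theorem co_zero (l : ℕ) : C.co 0 l = 0 := by
  exact map_zero (C.coL l)

theorem co_add (z w : C.R) (l : ℕ) : C.co (z + w) l = C.co z l + C.co w l := by
  exact map_add (C.coL l) z w

theorem co_sub (z w : C.R) (l : ℕ) : C.co (z - w) l = C.co z l - C.co w l := by
  exact map_sub (C.coL l) z w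

theorem co_sum {β : Type} (s : Finset β) (z : β → C.R) (l : ℕ) :
    C.co (∑ b ∈ s, z b) l = ∑ b ∈ s, C.co (z b) l := by
  exact map_sum (C.coL l) z s

theorem co_smul (c : C.K) (z : C.R) (l : ℕ) : C.co (c • z) l = c • C.co z l := by
  exact map_smul (C.coL l) c z

theorem co_ι_mul (g : C.K[X]) (z : C.R) (l : ℕ) : C.co (C.ι g * z) l = g * C.co z l := by
  rw [co, co, ι, ← Algebra.smul_def, map_smul, coeff_smul, smul_eq_mul]

theorem co_y_pow {k : ℕ} (hk : k < C.q) (l : ℕ) : C.co (C.y ^ k) l = if l = k then 1 else 0 := by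
  rw [co, y, ← AdjoinRoot.mk_X, ← map_pow, rep_mk, (modByMonic_eq_self_iff Fact.out).2, coeff_X_pow]
  rw [degree_X_pow, P, degree_X_pow_sub_C C.hq.pos]
  exact_mod_cast hk

theorem sum_co (z : C.R) : ∑ l ∈ range C.q, C.ι (C.co z l) * C.y ^ l = z := by
  have h : (rep C.P z).natDegree < C.q := by
    by_cases h0 : rep C.P z = 0
    · rw [h0, natDegree_zero]; exact C.hq.pos
    · exact lt_of_not_ge fun h => h0 (leadingCoeff_eq_zero.1 (C.co_of_le z h))
  conv_rhs => rw [← mk_rep C.P z, ← AdjoinRoot.aeval_eq, aeval_eq_sum_range' h]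
  exact Finset.sum_congr rfl fun l _ => (Algebra.smul_def _ _).symm

theorem co_ext {z w : C.R} (h : ∀ l < C.q, C.co z l = C.co w l) : z = w := by
  rw [← C.sum_co z, ← C.sum_co w]
  exact Finset.sum_congr rfl fun l hl => by rw [h l (mem_range.1 hl)]

theorem ι_inj : Function.Injective C.ι := by
  intro g h e
  have k : ∀ g, C.co (C.ι g) 0 = g := fun g => by
    have := C.co_ι_mul g (C.y ^ 0) 0
    rwa [C.co_y_pow C.hq.pos, if_pos rfl, pow_zero, mul_one, mul_one] at this
  rw [← k g, e, k]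

theorem ι_C (c : C.K) (z : C.R) : C.ι (Polynomial.C c) * z = c • z := by
  rw [Algebra.smul_def, IsScalarTower.algebraMap_apply C.K C.K[X] C.R]
  rfl

theorem sg_y (k : ℕ) : C.sg k C.y = C.ι (Polynomial.C (C.ζ ^ k)) * C.y := by
  exact AdjoinRoot.liftAlgHom_root ..

theorem sg_ι (k : ℕ) (g : C.K[X]) : C.sg k (C.ι g) = C.ι g := by
  exact (C.sg k).commutes g

theorem sg_zero (z : C.R) : C.sg 0 z = z := by
  have : C.sg 0 = AlgHom.id _ _ := AdjoinRoot.algHom_ext (by
    have := C.sg_y 0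
    rwa [pow_zero, map_one, ι, map_one, one_mul] at this)
  rw [this, AlgHom.id_apply]

theorem sg_add (a b : ℕ) (z : C.R) : C.sg (a + b) z = C.sg a (C.sg b z) := by
  have : C.sg (a + b) = (C.sg a).comp (C.sg b) := AdjoinRoot.algHom_ext (by
    change C.sg (a + b) C.y = C.sg a (C.sg b C.y)
    rw [sg_y, sg_y, map_mul (C.sg a), sg_ι, sg_y, ι_C, ι_C, ι_C, smul_smul, ← pow_add, add_comm])
  rw [this, AlgHom.comp_apply]

theorem sg_q (z : C.R) : C.sg C.q z = z := by
  have : C.sg C.q = AlgHom.id _ _ := AdjoinRoot.algHom_ext (by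
    have := C.sg_y C.q
    rwa [C.hζ.pow_eq_one, map_one, ι, map_one, one_mul] at this)
  rw [this, AlgHom.id_apply]

theorem sg_bij (k : ℕ) : Function.Bijective (C.sg k) := by
  have h : ∀ m z, C.sg (m * C.q) z = z := fun m z => by
    induction m with
    | zero => rw [zero_mul, sg_zero]
    | succ m ih => rw [add_mul, one_mul, sg_add, sg_q, ih]
  have e : k * (C.q - 1) + k = k * C.q := by rw [← Nat.mul_succ, Nat.succ_eq_add_one, Nat.sub_add_cancel C.hq.one_le]
  refine Function.bijective_iff_has_inverse.2 ⟨C.sg (k * (C.q - 1)), fun z => ?_, fun z => ?_⟩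
  · rw [← sg_add, e, h]
  · rw [← sg_add, add_comm, e, h]

theorem co_sg (k : ℕ) (z : C.R) (l : ℕ) : C.co (C.sg k z) l = Polynomial.C (C.ζ ^ (k * l)) * C.co z l := by
  rcases le_or_gt C.q l with h | h
  · rw [C.co_of_le _ h, C.co_of_le _ h, mul_zero]
  conv_lhs => rw [← C.sum_co z, map_sum, co_sum]
  rw [Finset.sum_eq_single l _ fun h' => (h' (mem_range.2 h)).elim]
  · rw [map_mul, map_pow, sg_ι, sg_y, ι_C, _root_.smul_pow, co_ι_mul, co_smul, C.co_y_pow h, if_pos rfl,
      ← pow_mul, mul_comm, smul_eq_C_mul, mul_one]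
  · intro m hm hml
    rw [map_mul, map_pow, sg_ι, sg_y, ι_C, _root_.smul_pow, co_ι_mul, co_smul, C.co_y_pow (mem_range.1 hm),
      if_neg hml.symm, smul_zero, mul_zero]

/-- discrete Fourier transform -/
theorem dft (z : C.R) {l : ℕ} (hl : l < C.q) :
    (C.q : C.K) • (C.ι (C.co z l) * C.y ^ l) = ∑ k ∈ range C.q, C.ζ ^ ((C.q - k) * l) • C.sg k z := by
  refine C.co_ext fun m hm => ?_
  have hz : C.ζ ≠ 0 := C.hζ.ne_zero C.hq.ne_zero
  have e : ∀ k ∈ range C.q, C.co (C.ζ ^ ((C.q - k) * l) • C.sg k z) m =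
      (C.ζ ^ m / C.ζ ^ l) ^ k • C.co z m := fun k hk => by
    rw [co_smul, co_sg, ← smul_eq_C_mul, smul_smul]
    congr 1
    rw [div_pow, eq_div_iff (pow_ne_zero _ (pow_ne_zero _ hz)), ← pow_mul, ← pow_mul, mul_right_comm,
      ← pow_add, mul_comm l, ← add_mul, Nat.sub_add_cancel (mem_range.1 hk).le, pow_mul,
      C.hζ.pow_eq_one, one_pow, one_mul, mul_comm m]
  rw [co_sum, Finset.sum_congr rfl e, ← Finset.sum_smul, co_smul, co_ι_mul, C.co_y_pow hl]
  split_ifs with h
  · subst h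
    simp [div_self (pow_ne_zero _ hz)]
  · have h1 : C.ζ ^ m / C.ζ ^ l ≠ 1 := fun h1 =>
      h (C.hζ.pow_inj hm hl ((div_eq_one_iff_eq (pow_ne_zero _ hz)).1 h1))
    have h2 : (C.ζ ^ m / C.ζ ^ l) ^ C.q = 1 := by
      rw [div_pow, ← pow_mul, ← pow_mul, mul_comm m, mul_comm l, pow_mul, pow_mul, C.hζ.pow_eq_one,
        one_pow, one_pow, div_one]
    rw [geom_sum_eq h1, h2, sub_self, zero_div, zero_smul, mul_zero, smul_zero]

theorem r1c_eig {z : C.R} {c : C.K} (h : C.sg 1 z = c • z) {l : ℕ} (hl : C.co z l ≠ 0) : C.ζ ^ l = c := by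
  have h1 := C.co_sg 1 z l
  rw [h, co_smul, smul_eq_C_mul, one_mul] at h1
  exact (C_injective (mul_right_cancel₀ hl h1)).symm

/-- an eigenvector of `σ` has a single coordinate -/
theorem eigen {z : C.R} {c : C.K} (h : C.sg 1 z = c • z) : ∃ l < C.q, z = C.ι (C.co z l) * C.y ^ l := by
  by_cases h0 : ∃ l < C.q, C.co z l ≠ 0
  · obtain ⟨l, hl, h1⟩ := h0
    refine ⟨l, hl, C.co_ext fun m hm => ?_⟩
    rw [co_ι_mul, C.co_y_pow hl]
    split_ifs with e
    · rw [e, mul_one]
    · rw [mul_zero]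
      by_contra h2
      exact e (C.hζ.pow_inj hm hl ((C.r1c_eig h h2).trans (C.r1c_eig h h1).symm))
  · push Not at h0
    refine ⟨0, C.hq.pos, C.co_ext fun m hm => ?_⟩
    rw [co_ι_mul, h0 m hm, h0 0 C.hq.pos, zero_mul]

theorem fixed {z : C.R} (h : C.sg 1 z = z) : z = C.ι (C.co z 0) := by
  refine C.co_ext fun m hm => ?_
  rw [← mul_one (C.ι (C.co z 0)), co_ι_mul, ← pow_zero C.y, C.co_y_pow C.hq.pos]
  split_ifs with e
  · rw [e, mul_one]
  · rw [mul_zero]
    by_contra h2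
    exact e (C.hζ.pow_inj hm C.hq.pos ((C.r1c_eig (h.trans (one_smul _ _).symm) h2).trans (pow_zero _).symm))

/-! specialisation of the base root -/

theorem evR_ι (i : C.Ω) (g : C.S1[X]) : C.evR i (C.ιS g) = C.ι (C.evP i g) := by
  exact AdjoinRoot.map_of _ _ _ _ _

theorem evR_y (i : C.Ω) : C.evR i C.yS = C.y := by
  exact AdjoinRoot.map_root _ _ _ _

theorem evR_smul (i : C.Ω) (s : C.S1) (z : C.RS) : C.evR i (s • z) = s i • C.evR i z := by
  have e : s • z = C.ιS (Polynomial.C s) * z := by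
    rw [Algebra.smul_def, IsScalarTower.algebraMap_apply C.S1 C.S1[X] C.RS]
    rfl
  rw [e, map_mul, evR_ι, ← ι_C, evP, coe_mapRingHom, map_C]
  rfl

theorem evR_sg (i : C.Ω) (k : ℕ) (z : C.RS) : C.evR i (C.sgS k z) = C.sg k (C.evR i z) := by
  have : (C.evR i).comp (C.sgS k) = (C.sg k : C.R →+* C.R).comp (C.evR i) := by
    refine AdjoinRoot.ringHom_ext (RingHom.ext fun g => ?_) ?_
    · change C.evR i (C.sgS k (AdjoinRoot.of C.PS g)) = C.sg k (C.evR i (C.ιS g))
      rw [sgS, AdjoinRoot.lift_of, evR_ι, sg_ι]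
      exact C.evR_ι i g
    · change C.evR i (C.sgS k (AdjoinRoot.root C.PS)) = C.sg k (C.evR i C.yS)
      rw [sgS, AdjoinRoot.lift_root, evR_y, sg_y, map_mul, evR_ι, evR_y, evP, coe_mapRingHom, map_C]
      rfl
  exact DFunLike.congr_fun this z

/-- `Polynomial.map_modByMonic` -/
theorem co_evR (i : C.Ω) (z : C.RS) (l : ℕ) : C.co (C.evR i z) l = C.evP i (C.coS z l) := by
  obtain ⟨g, rfl⟩ := AdjoinRoot.mk_surjective z
  have e : C.evR i (AdjoinRoot.mk C.PS g) = AdjoinRoot.mk C.P (g.map (C.evP i)) := by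
    have : (C.evR i).comp (AdjoinRoot.mk C.PS) = (AdjoinRoot.mk C.P).comp (mapRingHom (C.evP i)) := by
      refine Polynomial.ringHom_ext (fun a => ?_) ?_
      · simp only [RingHom.comp_apply, coe_mapRingHom, map_C]
        exact C.evR_ι i a
      · simp only [RingHom.comp_apply, coe_mapRingHom, map_X]
        exact C.evR_y i
    exact DFunLike.congr_fun this g
  rw [e, co, coS, rep_mk, rep_mk, ← map_PS C i, ← Polynomial.map_modByMonic _ Fact.out, coeff_map]

theorem evR_mono (i : C.Ω) (t l : ℕ) : C.evR i (C.mono t l) = C.ι (X ^ t) * C.y ^ l := by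
  rw [mono, map_mul, map_pow, evR_y, evR_ι, map_pow, evP, coe_mapRingHom, map_X]

theorem coeff_evP (i : C.Ω) (g : C.S1[X]) (t : ℕ) : (C.evP i g).coeff t = g.coeff t i := by
  rw [evP, coe_mapRingHom, coeff_map]
  rfl

end Cv

end Crest.Agent.R312
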