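import Crest.Agent.R312.R1

/-!
# R312/R2: `R` is a Dedekind domain.
Domain: `P` is monic and irreducible over `K(x)` (`X_pow_sub_C_irreducible_of_prime`: `f` is not a `q`-th power of a rational
function because it is squarefree of positive degree; `Monic.irreducible_iff_irreducible_map_fraction_map`), so prime.
Integrally closed: let `L = FractionRing R`; every element of `L` is `z / g` with `z : R`, `g : K[X]` nonzero (multiply by conjugates:
`Nm`, `fixed`).  If `z / g` is integral over `K[X]` so are its conjugates (extend `sg k` to `L`), hence by `dft` each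
`(co z l / g) y ^ l`, hence its `q`-th power `(co z l / g) ^ q f ^ l ∈ K(x)` lies in `K[X]`; as `f` is squarefree and `l < q`,
`g ∣ co z l`.  Dimension `≤ 1` and Noetherian: `R` is finite over `K[X]` (`Ring.DimensionLEOne.isIntegralClosure` or
`Ideal.isMaximal_of_isIntegral_of_isMaximal_comap`).
-/

set_option autoImplicit false

open Polynomial Finset Crest.Agent.Lib.PolyTime

noncomputable section

namespace Crest.Agent.R312

namespace Cv

variable (C : Cv)

theorem isDomain : IsDomain C.R := by
  have hm : C.P.Monic := Fact.out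
  refine AdjoinRoot.isDomain_of_prime (Irreducible.prime ?_)
  rw [hm.irreducible_iff_irreducible_map_fraction_map (K := FractionRing C.K[X]), P, Polynomial.map_sub,
    Polynomial.map_pow, map_X, map_C]
  refine X_pow_sub_C_irreducible_of_prime C.hq fun b hb => ?_
  obtain ⟨c, rfl⟩ := IsIntegrallyClosed.exists_algebraMap_eq_of_isIntegral_pow (R := C.K[X]) C.hq.pos
    (hb ▸ isIntegral_algebraMap)
  rw [← map_pow] at hb
  have e : c ^ C.q = C.f := IsFractionRing.injective _ _ hb
  have hu : IsUnit c := C.sep.squarefree c (by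
    rw [← e, ← sq]
    exact pow_dvd_pow c C.hq.two_le)
  have h0 := natDegree_eq_zero_of_isUnit (e ▸ hu.pow C.q)
  exact C.pos.ne' h0

/-- the arithmetic core: `g ^ q ∣ h ^ q * f ^ l` with `l < q` gives `g ∣ h` -/
theorem dvd_of_pow_dvd {g h : C.K[X]} (hg : g ≠ 0) {l : ℕ} (hl : l < C.q) (hd : g ^ C.q ∣ h ^ C.q * C.f ^ l) :
    g ∣ h := by
  rw [UniqueFactorizationMonoid.dvd_iff_emultiplicity_le hg]
  intro p hp
  have h1 := emultiplicity_le_emultiplicity_of_dvd_right (a := p) hd
  rw [emultiplicity_mul hp, emultiplicity_pow hp, emultiplicity_pow hp, emultiplicity_pow hp] at h1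
  have h2 : emultiplicity p C.f ≤ 1 :=
    ((squarefree_iff_emultiplicity_le_one _).1 C.sep.squarefree p).resolve_right hp.not_isUnit
  have h3 : FiniteMultiplicity p g := FiniteMultiplicity.of_prime_left hp hg
  rw [h3.emultiplicity_eq_multiplicity] at h1 ⊢
  generalize emultiplicity p h = b at h1 ⊢
  induction b with
  | top => exact le_top
  | coe b =>
    have h4 : (C.q : ℕ∞) * (multiplicity p g : ℕ) ≤ C.q * b + l * 1 := h1.trans (by gcongr)
    have h5 : C.q * multiplicity p g ≤ C.q * b + l * 1 := by exact_mod_cast h4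
    have h6 : multiplicity p g < b + 1 := lt_of_mul_lt_mul_left (a := C.q) (by nlinarith) (Nat.zero_le _)
    exact_mod_cast Nat.lt_succ_iff.1 h6

theorem r2d_lift {S A F L : Type} [CommRing S] [CommRing A] [IsDomain A] [Field F] [Field L] [Algebra S A]
    [Algebra S F] [Algebra A F] [IsFractionRing A F] [IsScalarTower S A F] [Algebra S L] (g : A →ₐ[S] L)
    (hg : Function.Injective g) {a b : A} (h : IsIntegral S (algebraMap A F a / algebraMap A F b)) :
    IsIntegral S (g a / g b) := by
  have := h.map (IsFractionRing.liftAlgHom (K := F) hg)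
  rwa [map_div₀, IsFractionRing.liftAlgHom_apply, IsFractionRing.liftAlgHom_apply,
    IsFractionRing.lift_algebraMap, IsFractionRing.lift_algebraMap] at this

theorem r2d_dvd {A L : Type} [CommRing A] [IsDomain A] [IsIntegrallyClosed A] [Field L] [Algebra A L]
    (hi : Function.Injective (algebraMap A L)) {a b : A} (hb : b ≠ 0)
    (h : IsIntegral A (algebraMap A L a / algebraMap A L b)) : b ∣ a := by
  let φ : FractionRing A →ₐ[A] L := IsFractionRing.liftAlgHom (g := Algebra.ofId A L) hi
  have h1 : IsIntegral A (algebraMap A (FractionRing A) a / algebraMap A (FractionRing A) b) := by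
    rw [← isIntegral_algHom_iff φ φ.toRingHom.injective, map_div₀, φ.commutes, φ.commutes]
    exact h
  obtain ⟨m, hm⟩ := IsIntegrallyClosed.isIntegral_iff.1 h1
  rw [eq_div_iff (IsFractionRing.to_map_ne_zero_of_mem_nonZeroDivisors (mem_nonZeroDivisors_of_ne_zero hb)),
    ← map_mul] at hm
  exact ⟨m, by rw [← IsFractionRing.injective A (FractionRing A) hm, mul_comm]⟩

theorem r2d_norm {b : C.R} (hb : b ≠ 0) : ∃ (b' : C.R) (g : C.K[X]), g ≠ 0 ∧ b * b' = C.ι g := by
  have := C.isDomain
  have h0 : ∏ k ∈ range C.q, C.sg k b ≠ 0 := Finset.prod_ne_zero_iff.2 fun k _ h =>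
    hb ((C.sg_bij k).1 (h.trans (map_zero _).symm))
  have h1 : C.sg 1 (∏ k ∈ range C.q, C.sg k b) = ∏ k ∈ range C.q, C.sg k b := by
    apply mul_right_cancel₀ hb
    have h2 := Finset.prod_range_succ' (fun k => C.sg k b) C.q
    rw [Finset.prod_range_succ, C.sg_q, C.sg_zero] at h2
    rw [h2, map_prod]
    simp only [← C.sg_add, add_comm]
  have h3 := C.fixed h1
  refine ⟨∏ k ∈ range (C.q - 1), C.sg (k + 1) b, C.co (∏ k ∈ range C.q, C.sg k b) 0,
    fun h => h0 (h3.trans (by rw [h]; exact map_zero _)), ?_⟩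
  rw [← h3]
  conv_rhs => rw [← Nat.sub_add_cancel C.hq.one_le, Finset.prod_range_succ', C.sg_zero, mul_comm]

theorem isDedekind : IsDedekindDomain C.R := by
  have := C.isDomain
  have : Module.Finite C.K[X] C.R := Polynomial.Monic.finite_adjoinRoot Fact.out
  refine (isDedekindDomain_iff C.R (FractionRing C.R)).2 ⟨inferInstance,
    IsNoetherianRing.of_finite C.K[X] C.R, Ring.DimensionLEOne.of_isIntegral C.K[X] C.R, fun {w} hw => ?_⟩
  obtain ⟨a, b, hb, rfl⟩ := IsFractionRing.div_surjective (A := C.R) w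
  set L := FractionRing C.R
  set φ := algebraMap C.R L with hφ
  have hi : Function.Injective φ := IsFractionRing.injective _ _
  have hι : ∀ g, φ (C.ι g) = algebraMap C.K[X] L g := fun g =>
    (IsScalarTower.algebraMap_apply _ _ _ g).symm
  obtain ⟨b', g, hg, e⟩ := C.r2d_norm (nonZeroDivisors.ne_zero hb)
  have hg' : φ (C.ι g) ≠ 0 := fun h => hg (C.ι_inj (hi (h.trans (by simp))))
  have hb' : φ b' ≠ 0 := fun h => hg' (by rw [← e, map_mul, h, mul_zero])
  rw [← mul_div_mul_right _ _ hb', ← map_mul, ← map_mul, e] at hw ⊢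
  set z := a * b'
  have h1 : ∀ k, IsIntegral C.K[X] (φ (C.sg k z) / φ (C.ι g)) := fun k => by
    have := r2d_lift ((IsScalarTower.toAlgHom C.K[X] C.R L).comp (C.sg k)) (hi.comp (C.sg_bij k).1)
      (isIntegral_trans (R := C.K[X]) _ hw)
    rwa [AlgHom.comp_apply, AlgHom.comp_apply, C.sg_ι] at this
  have h2 : ∀ l < C.q, g ∣ C.co z l := fun l hl => by
    have e1 : C.ι (C.co z l) * C.y ^ l = ∑ k ∈ range C.q,
        C.ι (Polynomial.C ((C.q : C.K)⁻¹ * C.ζ ^ ((C.q - k) * l))) * C.sg k z := by
      simp only [C.ι_C, mul_smul, ← Finset.smul_sum, ← C.dft z hl]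
      rw [inv_smul_smul₀ C.q_ne_zero]
    have h3 : IsIntegral C.K[X] (φ (C.ι (C.co z l) * C.y ^ l) / φ (C.ι g)) := by
      rw [e1, map_sum, Finset.sum_div]
      refine IsIntegral.sum _ fun k _ => ?_
      rw [map_mul, mul_div_assoc, hι]
      exact isIntegral_algebraMap.mul (h1 k)
    have h4 := h3.pow C.q
    rw [div_pow, ← map_pow, ← map_pow, mul_pow, ← pow_mul, mul_comm l, pow_mul, C.y_pow, ← map_pow,
      ← map_pow, ← map_pow, ← map_mul, hι, hι] at h4
    exact C.dvd_of_pow_dvd hg hl (r2d_dvd (fun p p' h => C.ι_inj (hi (by rwa [hι, hι])))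
      (pow_ne_zero _ hg) h4)
  choose! m hm using h2
  refine ⟨∑ l ∈ range C.q, C.ι (m l) * C.y ^ l, ?_⟩
  rw [eq_div_iff hg', ← map_mul, Finset.sum_mul]
  congr 1
  conv_rhs => rw [← C.sum_co z]
  refine Finset.sum_congr rfl fun l hl => ?_
  rw [hm l (Finset.mem_range.1 hl), show C.ι (g * m l) = C.ι g * C.ι (m l) from map_mul _ _ _]
  ring

instance : IsDedekindDomain C.R := C.isDedekind

end Cv

end Crest.Agent.R312
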