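import Crest.Agent.R312.R2

/-!
# R312/R3: the filtration `V D` and norms.
-/

set_option autoImplicit false

open Polynomial Finset Crest.Agent.Lib.PolyTime

noncomputable section

namespace Crest.Agent.R312

namespace Cv

variable (C : Cv)

theorem V_mono {D E : ℕ} (h : D ≤ E) : C.V D ≤ C.V E := by
  exact fun z hz => C.mem_V.2 fun l => (C.mem_V.1 hz l).trans h

theorem exists_V (z : C.R) : ∃ D, z ∈ C.V D := by
  refine ⟨(range C.q).sup fun l => (C.co z l).natDegree, C.mem_V.2 fun l => ?_⟩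
  rcases le_or_gt C.q l with h | h
  · rw [C.co_of_le z h, natDegree_zero]; exact Nat.zero_le _
  · exact Finset.le_sup (f := fun l => (C.co z l).natDegree) (mem_range.2 h)

theorem r3a_y {l D : ℕ} (hl : l < C.q) : C.y ^ l ∈ C.V D := C.mem_V.2 fun m => by
  rw [C.co_y_pow hl]
  split_ifs <;> simp

theorem one_mem_V (D : ℕ) : (1 : C.R) ∈ C.V D := by
  simpa using C.r3a_y (D := D) C.hq.pos

theorem mono_mem_V {t l D : ℕ} (ht : t ≤ D) (hl : l < C.q) : C.ι (X ^ t) * C.y ^ l ∈ C.V D := by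
  refine C.mem_V.2 fun m => ?_
  rw [co_ι_mul, C.co_y_pow hl]
  split_ifs <;> simp [ht]

theorem ι_mul_mem_V {g : C.K[X]} {z : C.R} {D E : ℕ} (hg : g.natDegree ≤ D) (hz : z ∈ C.V E) :
    C.ι g * z ∈ C.V (D + E) := by
  refine C.mem_V.2 fun l => ?_
  rw [co_ι_mul]
  exact natDegree_mul_le.trans (add_le_add hg (C.mem_V.1 hz l))

/-- expand with `sum_co`; `y ^ (a + b)` is `y ^ (a + b)` or `f * y ^ (a + b - q)` -/
theorem mul_mem_V {z w : C.R} {D E : ℕ} (hz : z ∈ C.V D) (hw : w ∈ C.V E) : z * w ∈ C.V (D + E + C.n) := by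
  rw [← C.sum_co z, ← C.sum_co w, Finset.sum_mul_sum]
  refine Submodule.sum_mem _ fun a ha => Submodule.sum_mem _ fun b hb => ?_
  rw [mul_mul_mul_comm, ← pow_add, mul_assoc, add_assoc]
  refine C.ι_mul_mem_V (C.mem_V.1 hz a) (C.ι_mul_mem_V (C.mem_V.1 hw b) ?_)
  rcases lt_or_ge (a + b) C.q with h | h
  · exact C.r3a_y h
  · rw [← Nat.add_sub_cancel' h, pow_add, y_pow]
    refine C.ι_mul_mem_V (E := 0) le_rfl (C.r3a_y ?_)
    have := mem_range.1 ha
    have := mem_range.1 hb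
    omega

theorem mem_V_of_ι_mul {g : C.K[X]} (hg : g ≠ 0) {z : C.R} {D : ℕ} (h : C.ι g * z ∈ C.V D) : z ∈ C.V D := by
  refine C.mem_V.2 fun l => ?_
  have := C.mem_V.1 h l
  rw [co_ι_mul] at this
  by_cases h0 : C.co z l = 0
  · rw [h0, natDegree_zero]; exact Nat.zero_le _
  · rw [natDegree_mul hg h0] at this
    omega

theorem sg_mem_V (k : ℕ) {z : C.R} {D : ℕ} (hz : z ∈ C.V D) : C.sg k z ∈ C.V D := by
  refine C.mem_V.2 fun l => ?_
  rw [co_sg]
  exact (natDegree_C_mul_le _ _).trans (C.mem_V.1 hz l)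

theorem Nz_mem_V {z : C.R} {D : ℕ} (hz : z ∈ C.V D) (a b : ℕ) : C.Nz z a b ∈ C.V ((b - a) * (D + C.n)) := by
  rcases le_or_gt b a with h | h
  · rw [Nz, Ico_eq_empty_of_le h, prod_empty]
    exact C.one_mem_V _
  · obtain ⟨m, rfl⟩ := Nat.exists_eq_add_of_le h.le
    rw [Nat.add_sub_cancel_left]
    clear h
    induction m with
    | zero => rw [Nz, add_zero, Finset.Ico_self, prod_empty]; exact C.one_mem_V _
    | succ m ih =>
      rw [Nz, ← add_assoc, prod_Ico_succ_top (Nat.le_add_right _ _), add_mul, one_mul, ← add_assoc]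
      exact C.mul_mem_V ih (C.sg_mem_V _ hz)

theorem Nz_ne_zero {z : C.R} (hz : z ≠ 0) (a b : ℕ) : C.Nz z a b ≠ 0 := by
  exact Finset.prod_ne_zero_iff.2 fun k _ h => hz ((C.sg_bij k).1 (h.trans (map_zero _).symm))

theorem Nm_eq (z : C.R) : C.Nm z = z * C.Nz z 1 C.q := by
  rw [Nm, Nz, prod_eq_prod_Ico_succ_bot C.hq.pos, sg_zero]
  rfl

theorem Nm_mul (z w : C.R) : C.Nm (z * w) = C.Nm z * C.Nm w := by
  simp only [Nm, Nz, map_mul, prod_mul_distrib]

theorem Nm_pow (z : C.R) (k : ℕ) : C.Nm (z ^ k) = C.Nm z ^ k := by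
  simp only [Nm, Nz, map_pow, prod_pow]

theorem Nm_ι (g : C.K[X]) : C.Nm (C.ι g) = C.ι g ^ C.q := by
  simp only [Nm, Nz, sg_ι, prod_const, Nat.card_Ico, Nat.sub_zero]

/-- the norm is `σ`-invariant, hence a polynomial (`fixed`) -/
theorem Nm_eq_ι (z : C.R) : C.Nm z = C.ι (C.co (C.Nm z) 0) := by
  refine C.fixed ?_
  by_cases hz : z = 0
  · rw [Nm_eq, hz, zero_mul, map_zero]
  apply mul_right_cancel₀ hz
  have h2 := Finset.prod_range_succ' (fun k => C.sg k z) C.q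
  rw [Finset.prod_range_succ, C.sg_q, C.sg_zero] at h2
  rw [Nm, Nz, ← range_eq_Ico, h2, map_prod]
  simp only [← C.sg_add, add_comm]

theorem natDegree_Nm_le {z : C.R} {D : ℕ} (hz : z ∈ C.V D) :
    (C.co (C.Nm z) 0).natDegree ≤ C.q * (D + C.n) := by
  exact C.mem_V.1 (C.Nz_mem_V hz 0 C.q) 0

/-- quotients have bounded degree: `w * Nm h = (h * w) * Nz h 1 q` -/
theorem mem_V_of_mul {h w : C.R} (h0 : h ≠ 0) {D E : ℕ} (hh : h ∈ C.V D) (hw : h * w ∈ C.V E) :
    w ∈ C.V (E + C.q * (D + C.n)) := by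
  have h1 := C.Nm_eq_ι h
  refine C.mem_V_of_ι_mul (g := C.co (C.Nm h) 0) (fun e => C.Nz_ne_zero h0 0 C.q
    (h1.trans (by rw [e]; exact map_zero _))) ?_
  rw [← h1, Nm_eq, mul_right_comm]
  refine C.V_mono ?_ (C.mul_mem_V hw (C.Nz_mem_V hh 1 C.q))
  conv_rhs => rw [← Nat.sub_add_cancel C.hq.one_le, add_mul, one_mul]
  omega

/-- elements of `V D` in terms of monomials -/
theorem eq_sum_mono {z : C.R} {D : ℕ} (hz : z ∈ C.V D) :
    z = ∑ x : Fin (D + 1) × Fin C.q, (C.co z x.2).coeff x.1 • (C.ι (X ^ x.1.val) * C.y ^ x.2.val) := by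
  rw [Fintype.sum_prod_type_right]
  refine (C.sum_co z).symm.trans ?_
  rw [← Fin.sum_univ_eq_sum_range fun l => C.ι (C.co z l) * C.y ^ l]
  refine Finset.sum_congr rfl fun l _ => ?_
  conv_lhs => rw [(C.co z l).as_sum_range_C_mul_X_pow' (Nat.lt_succ_of_le (C.mem_V.1 hz l))]
  rw [ι, map_sum, Finset.sum_mul,
    ← Fin.sum_univ_eq_sum_range fun t => algebraMap C.K[X] C.R (Polynomial.C ((C.co z l).coeff t) * X ^ t) * C.y ^ l.val]
  exact Finset.sum_congr rfl fun t _ => by rw [map_mul, mul_assoc, C.ι_C]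

theorem sum_mono_mem_V {D : ℕ} (c : Fin (D + 1) × Fin C.q → C.K) :
    ∑ x, c x • (C.ι (X ^ x.1.val) * C.y ^ x.2.val) ∈ C.V D :=
  Submodule.sum_mem _ fun x _ => Submodule.smul_mem _ _ (C.mono_mem_V (Nat.le_of_lt_succ x.1.2) x.2.2)

theorem coeff_sum_mono {D : ℕ} (c : Fin (D + 1) × Fin C.q → C.K) (x : Fin (D + 1) × Fin C.q) :
    (C.co (∑ x, c x • (C.ι (X ^ x.1.val) * C.y ^ x.2.val)) x.2).coeff x.1 = c x := by
  rw [C.co_sum, finsetSum_coeff, Finset.sum_eq_single x]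
  · rw [C.co_smul, C.co_ι_mul, C.co_y_pow x.2.2]
    simp
  · intro b _ hb
    rw [C.co_smul, C.co_ι_mul, C.co_y_pow b.2.2]
    split_ifs with h
    · rw [mul_one, coeff_smul, coeff_X_pow, if_neg fun h' => hb (Prod.ext (Fin.ext h'.symm) (Fin.ext h.symm)),
        smul_zero]
    · simp
  · simp

theorem finrank_V (D : ℕ) : Module.Finite C.K (C.V D) ∧ Module.finrank C.K (C.V D) = C.q * (D + 1) := by
  set v : Fin (D + 1) × Fin C.q → C.R := fun x => C.ι (X ^ x.1.val) * C.y ^ x.2.val with hv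
  have e : C.V D = Submodule.span C.K (Set.range v) := by
    ext z
    rw [Submodule.mem_span_range_iff_exists_fun]
    exact ⟨fun hz => ⟨_, (C.eq_sum_mono hz).symm⟩, fun ⟨c, hc⟩ => hc ▸ C.sum_mono_mem_V c⟩
  have li : LinearIndependent C.K v := Fintype.linearIndependent_iff.2 fun c hc x => by
    rw [← C.coeff_sum_mono c x, hc, C.co_zero, coeff_zero]
  rw [e, finrank_span_eq_card li]
  exact ⟨Module.Finite.span_of_finite _ (Set.finite_range v), by simp [mul_comm]⟩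

/-- bounded cofactors.  If some `g k₁ ≠ 0` put `u = Nm (g k₁)`, a polynomial of degree `≤ q (D + n)`; reduce the coordinates
of the cofactors modulo `u`; the rest is `u * t` with `t` bounded (`mem_V_of_ι_mul`) and `u * t = g k₁ * (Nz (g k₁) 1 q * t)`. -/
theorem exists_cofactors {β : Type} [Fintype β] (g : β → C.R) {D M : ℕ} (hg : ∀ k, g k ∈ C.V D) {z : C.R}
    (hz : z ∈ Ideal.span (Set.range g)) (hM : z ∈ C.V M) :
    ∃ w : β → C.R, (∀ k, w k ∈ C.V (M + (2 * C.q + 3) * (D + C.n))) ∧ z = ∑ k, w k * g k := by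
  classical
  obtain ⟨c, hc⟩ := (Submodule.mem_span_range_iff_exists_fun _).1 hz
  by_cases h0 : ∀ k, g k = 0
  · exact ⟨0, fun k => Submodule.zero_mem _, by simp [← hc, h0]⟩
  obtain ⟨k₁, hk⟩ := not_forall.1 h0
  set u := C.co (C.Nm (g k₁)) 0 with hu
  have e1 : C.ι u = g k₁ * C.Nz (g k₁) 1 C.q := (C.Nm_eq_ι _).symm.trans (C.Nm_eq _)
  have u0 : u ≠ 0 := fun h => C.Nz_ne_zero hk 0 C.q ((C.Nm_eq_ι _).trans (by rw [← hu, h, ι, map_zero]))
  have ud := C.natDegree_Nm_le (hg k₁)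
  have hd : ∀ x : C.R, ∃ a r : C.R, r ∈ C.V (C.q * (D + C.n)) ∧ x = C.ι u * a + r := fun x => by
    refine ⟨∑ l ∈ range C.q, C.ι (C.co x l / u) * C.y ^ l, ∑ l ∈ range C.q, C.ι (C.co x l % u) * C.y ^ l,
      Submodule.sum_mem _ fun l hl => ?_, ?_⟩
    · have := C.mono_mem_V (le_refl 0) (mem_range.1 hl)
      rw [pow_zero, ι, map_one, one_mul] at this
      simpa only [add_zero] using C.ι_mul_mem_V (g := C.co x l % u)
        ((natDegree_le_natDegree (degree_mod_lt (C.co x l) u0).le).trans ud) this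
    · rw [Finset.mul_sum, ← Finset.sum_add_distrib]
      refine (C.sum_co x).symm.trans (Finset.sum_congr rfl fun l _ => ?_)
      rw [← mul_assoc, ← add_mul, ← map_mul, ← map_add, EuclideanDomain.div_add_mod]
  choose a r hr ha using fun k => hd (c k)
  have e2 : C.ι u * ∑ k, a k * g k = z - ∑ k, r k * g k := by
    rw [← hc, Finset.mul_sum, ← Finset.sum_sub_distrib]
    exact Finset.sum_congr rfl fun k _ => by rw [smul_eq_mul, ha k]; ring
  have m1 : ∑ k, a k * g k ∈ C.V (M + (C.q * (D + C.n) + D + C.n)) := C.mem_V_of_ι_mul u0 (by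
    rw [e2]
    exact Submodule.sub_mem _ (C.V_mono (Nat.le_add_right _ _) hM)
      (Submodule.sum_mem _ fun k _ => C.V_mono (Nat.le_add_left _ _) (C.mul_mem_V (hr k) (hg k))))
  have m2 := C.mul_mem_V (C.Nz_mem_V (hg k₁) 1 C.q) m1
  have l1 : (C.q - 1) * (D + C.n) ≤ C.q * (D + C.n) := Nat.mul_le_mul_right _ (Nat.sub_le _ _)
  have l2 : (2 * C.q + 3) * (D + C.n) = 2 * (C.q * (D + C.n)) + 3 * (D + C.n) := by ring
  refine ⟨fun k => r k + if k = k₁ then C.Nz (g k₁) 1 C.q * ∑ k, a k * g k else 0, fun k =>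
    Submodule.add_mem _ (C.V_mono (by omega) (hr k)) ?_, ?_⟩
  · split_ifs
    · exact C.V_mono (by omega) m2
    · exact Submodule.zero_mem _
  · simp only [add_mul, Finset.sum_add_distrib, ite_mul, zero_mul, Finset.sum_ite_eq', mem_univ, if_true]
    rw [e1] at e2
    linear_combination -e2

end Cv

end Crest.Agent.R312
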