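import Crest.Agent.R312.R3

/-!
# R312/R4: the ramified primes, coprimality, norms of ideals.
-/

set_option autoImplicit false

open Polynomial Finset Crest.Agent.Lib.PolyTime

noncomputable section

namespace Crest.Agent.R312

namespace Cv

variable (C : Cv)

theorem ev_ι (j : C.Ω) (g : C.K[X]) : C.ev j (C.ι g) = g.eval (C.rt j) := by
  exact AdjoinRoot.lift_of _

theorem ev_y (j : C.Ω) : C.ev j C.y = 0 := by
  exact AdjoinRoot.lift_root _

theorem r4a_split (z : C.R) : ∃ w, z = C.ι (C.co z 0) + w * C.y := by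
  refine ⟨∑ l ∈ range (C.q - 1), C.ι (C.co z (l + 1)) * C.y ^ l, ?_⟩
  conv_lhs => rw [← C.sum_co z, ← Nat.sub_add_cancel C.hq.one_le, Finset.sum_range_succ']
  rw [pow_zero, mul_one, add_comm, Finset.sum_mul]
  simp only [pow_succ, mul_assoc]

theorem ev_eq (j : C.Ω) (z : C.R) : C.ev j z = (C.co z 0).eval (C.rt j) := by
  obtain ⟨w, hw⟩ := C.r4a_split z
  conv_lhs => rw [hw]
  rw [map_add, map_mul, ev_y, ev_ι, mul_zero, add_zero]

theorem mem_Pj {j : C.Ω} {z : C.R} : z ∈ C.Pj j ↔ C.ev j z = 0 := by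
  rw [Pj, Ideal.mem_span_pair]
  constructor
  · rintro ⟨a, b, rfl⟩
    rw [map_add, map_mul, map_mul, ev_y, ev_ι, eval_sub, eval_X, eval_C, sub_self, mul_zero, mul_zero, add_zero]
  · intro h
    obtain ⟨w, hw⟩ := C.r4a_split z
    rw [ev_eq] at h
    obtain ⟨g, hg⟩ := dvd_iff_isRoot.2 h
    refine ⟨C.ι g, w, ?_⟩
    conv_rhs => rw [hw, hg]
    rw [ι, ι, ι, map_mul, mul_comm]

theorem Pj_max (j : C.Ω) : (C.Pj j).IsMaximal := by
  have h : C.Pj j = RingHom.ker (C.ev j) := Ideal.ext fun z => C.mem_Pj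
  rw [h]
  exact RingHom.ker_isMaximal_of_surjective _ fun c => ⟨C.ι (Polynomial.C c), by rw [ev_ι, eval_C]⟩

theorem r4a_y : C.y ≠ 0 := fun h => by
  have h1 := C.y_pow
  rw [h, zero_pow C.hq.ne_zero] at h1
  exact C.mon.ne_zero (C.ι_inj (h1.symm.trans (map_zero _).symm))

theorem Pj_ne_bot (j : C.Ω) : C.Pj j ≠ ⊥ := by
  intro h
  have h1 : C.y ∈ C.Pj j := C.mem_Pj.2 (C.ev_y j)
  rw [h, Ideal.mem_bot] at h1
  exact C.r4a_y h1

theorem Pj_inj : Function.Injective C.Pj := by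
  intro j k h
  have h1 : C.ι (X - Polynomial.C (C.rt j)) ∈ C.Pj j := Ideal.subset_span (Set.mem_insert _ _)
  rw [h, mem_Pj, ev_ι, eval_sub, eval_X, eval_C, sub_eq_zero] at h1
  exact (C.rt_inj h1).symm

theorem y_ne_zero : C.y ≠ 0 := by
  exact C.r4a_y

theorem r4a_cop {I : Ideal C.R} {j : C.Ω} : IsCoprime I (C.Pj j) ↔ ∃ z ∈ I, C.ev j z ≠ 0 := by
  rw [Ideal.isCoprime_iff_sup_eq]
  constructor
  · intro h
    by_contra h'
    push Not at h'
    have h1 : I ≤ C.Pj j := fun z hz => C.mem_Pj.2 (h' z hz)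
    exact (C.Pj_max j).ne_top ((sup_eq_right.2 h1).symm.trans h)
  · rintro ⟨z, hz, h⟩
    refine (C.Pj_max j).out.2 _ (lt_of_le_of_ne le_sup_right fun e => h (C.mem_Pj.1 ?_))
    rw [e]
    exact Ideal.mem_sup_left hz

theorem r4a_cop' {j k : C.Ω} (h : j ≠ k) :
    IsCoprime (Ideal.span {C.ι (X - Polynomial.C (C.rt j))}) (C.Pj k) :=
  C.r4a_cop.2 ⟨_, Ideal.mem_span_singleton_self _, by
    rw [ev_ι, eval_sub, eval_X, eval_C, sub_ne_zero]
    exact fun e => h (C.rt_inj e).symm⟩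

/-- `R / (y) = K[X] / (f)`: an element killed by all `ev j` is a multiple of `y`; distinct maximal ideals are coprime -/
theorem prod_Pj : ∏ j, C.Pj j = Ideal.span {C.y} := by
  rw [Ideal.prod_eq_iInf_of_pairwise_isCoprime fun j _ k _ hjk => Ideal.isCoprime_iff_sup_eq.2
    ((C.Pj_max j).coprime_of_ne (C.Pj_max k) (C.Pj_inj.ne hjk))]
  ext z
  simp only [Ideal.mem_iInf, mem_univ, forall_const, mem_Pj, Ideal.mem_span_singleton]
  constructor
  · intro h
    obtain ⟨w, hw⟩ := C.r4a_split z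
    obtain ⟨g, hg⟩ := C.f_dvd_iff.2 fun j => (C.ev_eq j z).symm.trans (h j)
    rw [hw, hg, ι, map_mul]
    refine dvd_add (Dvd.dvd.mul_right ?_ _) (dvd_mul_left _ _)
    rw [← ι, ← C.y_pow]
    exact dvd_pow_self _ C.hq.ne_zero
  · rintro ⟨w, rfl⟩ j
    rw [map_mul, ev_y, zero_mul]

/-- `∏ Pj ^ q = (y ^ q) = ∏ (x - a_j)` and `(x - a_k)` is coprime to `Pj j` for `k ≠ j`; or directly -/
theorem Pj_pow (j : C.Ω) : C.Pj j ^ C.q = Ideal.span {C.ι (X - Polynomial.C (C.rt j))} := by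
  have h : C.Pj j ^ C.q * ∏ k ∈ univ.erase j, C.Pj k ^ C.q =
      Ideal.span {C.ι (X - Polynomial.C (C.rt j))} *
        ∏ k ∈ univ.erase j, Ideal.span {C.ι (X - Polynomial.C (C.rt k))} := by
    rw [Finset.mul_prod_erase _ (fun k => C.Pj k ^ C.q) (mem_univ j),
      Finset.mul_prod_erase _ (fun k => Ideal.span {C.ι (X - Polynomial.C (C.rt k))}) (mem_univ j),
      Finset.prod_pow, prod_Pj, Ideal.span_singleton_pow, y_pow, Ideal.prod_span_singleton, ← map_prod,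
      ← C.f_eq_prod]
  refine le_antisymm (Ideal.dvd_iff_le.1 ?_) (Ideal.dvd_iff_le.1 ?_)
  · refine IsCoprime.dvd_of_dvd_mul_right ?_ (Dvd.intro _ h.symm)
    exact IsCoprime.prod_right fun k hk => (C.r4a_cop' (ne_of_mem_erase hk).symm).pow_right
  · refine IsCoprime.dvd_of_dvd_mul_right ?_ (Dvd.intro _ h)
    exact IsCoprime.prod_right fun k hk => (C.r4a_cop' (ne_of_mem_erase hk)).symm.pow_left

theorem map_sg_Pj (k : ℕ) (j : C.Ω) : (C.Pj j).map (C.sg k) = C.Pj j := by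
  have hu : IsUnit (C.ι (Polynomial.C (C.ζ ^ k))) :=
    (isUnit_C.2 (pow_ne_zero k (C.hζ.ne_zero C.hq.ne_zero)).isUnit).map _
  rw [Pj, Ideal.map_span, Set.image_pair, sg_ι, sg_y, Ideal.span_insert, Ideal.span_insert,
    Ideal.span_singleton_mul_left_unit hu]

theorem cop_iff {I : Ideal C.R} : C.Cop I ↔ ∀ j, ∃ z ∈ I, C.ev j z ≠ 0 := by
  rw [Cop, ← Ideal.isCoprime_iff_sup_eq, ← prod_Pj, IsCoprime.prod_right_iff]
  simp only [mem_univ, forall_const, r4a_cop]

theorem Cop.ne_bot {C : Cv} {I : Ideal C.R} (h : C.Cop I) : I ≠ ⊥ := by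
  rintro rfl
  have : Nonempty C.Ω := Fintype.card_pos_iff.1 (C.card_Ω ▸ C.pos)
  obtain ⟨z, hz, h⟩ := C.cop_iff.1 h (Classical.arbitrary _)
  rw [Ideal.mem_bot.1 hz, map_zero] at h
  exact h rfl

theorem Cop.mul {C : Cv} {I J : Ideal C.R} (h : C.Cop I) (h' : C.Cop J) : C.Cop (I * J) := by
  refine C.cop_iff.2 fun j => ?_
  obtain ⟨z, hz, h1⟩ := C.cop_iff.1 h j
  obtain ⟨w, hw, h2⟩ := C.cop_iff.1 h' j
  exact ⟨z * w, Ideal.mul_mem_mul hz hw, by rw [map_mul]; exact mul_ne_zero h1 h2⟩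

theorem cop_top : C.Cop ⊤ := by
  exact top_sup_eq _

theorem Cop.map {C : Cv} {I : Ideal C.R} (h : C.Cop I) (k : ℕ) : C.Cop (I.map (C.sg k)) := by
  refine C.cop_iff.2 fun j => ?_
  obtain ⟨z, hz, h1⟩ := C.cop_iff.1 h j
  refine ⟨_, Ideal.mem_map_of_mem _ hz, ?_⟩
  rwa [ev_eq, co_sg, mul_zero, pow_zero, map_one, one_mul, ← ev_eq]

theorem NI_ne_bot {I : Ideal C.R} (h : I ≠ ⊥) (a b : ℕ) : C.NI I a b ≠ ⊥ := by
  refine Finset.prod_ne_zero_iff.2 fun k _ h1 => h ?_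
  exact (Ideal.map_eq_bot_iff_of_injective (C.sg_bij k).1).1 h1

theorem NI_mul (I J : Ideal C.R) (a b : ℕ) : C.NI (I * J) a b = C.NI I a b * C.NI J a b := by
  simp only [NI, Ideal.map_mul, Finset.prod_mul_distrib]

theorem r4b_map (I : Ideal C.R) (j k : ℕ) : (I.map (C.sg j)).map (C.sg k) = I.map (C.sg (j + k)) := by
  rw [Ideal.map_mapₐ]
  congr 1
  refine AlgHom.ext fun z => ?_
  rw [add_comm, sg_add]
  rfl

theorem map_NI (I : Ideal C.R) (k a b : ℕ) : (C.NI I a b).map (C.sg k) = C.NI I (a + k) (b + k) := by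
  rw [NI, NI, ← Finset.prod_Ico_add' (fun j => I.map (C.sg j))]
  refine (map_prod (Ideal.mapHom (C.sg k)) _ _).trans (Finset.prod_congr rfl fun j _ => ?_)
  exact C.r4b_map I j k

theorem NI_span (z : C.R) (a b : ℕ) : C.NI (Ideal.span {z}) a b = Ideal.span {C.Nz z a b} := by
  simp only [NI, Nz, Ideal.map_span, Set.image_singleton, Ideal.prod_span_singleton]

theorem r4b_cop {I : Ideal C.R} (h : C.Cop I) (a b : ℕ) : C.Cop (C.NI I a b) :=
  Finset.prod_induction _ C.Cop (fun _ _ => Cop.mul) (by rw [Ideal.one_eq_top]; exact C.cop_top)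
    fun k _ => h.map k

/-- `𝔑 = NI I 0 q` is `σ`-stable and coprime to `y`; by `dft` it contains `co z l * y ^ l`, hence `co z l`, for `z ∈ 𝔑`;
take a generator of `𝔑.comap (algebraMap K[X] R)` -/
theorem exists_isN {I : Ideal C.R} (h : C.Cop I) : ∃ u, C.IsN I u := by
  have hs : ∀ k, ∀ z ∈ C.NI I 0 C.q, C.sg k z ∈ C.NI I 0 C.q := by
    have e : (C.NI I 0 C.q).map (C.sg 1) = C.NI I 0 C.q := by
      have e0 : I.map (C.sg C.q) = I.map (C.sg 0) := by
        congr 1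
        exact AlgHom.ext fun z => by rw [sg_q, sg_zero]
      rw [map_NI, NI, NI, Finset.prod_Ico_succ_top C.hq.pos, Finset.prod_eq_prod_Ico_succ_bot C.hq.pos, e0,
        mul_comm]
    intro k
    induction k with
    | zero => intro z hz; rwa [sg_zero]
    | succ k ih =>
      intro z hz
      rw [add_comm, sg_add, ← e]
      exact Ideal.mem_map_of_mem _ (ih z hz)
  have hc := C.r4b_cop h 0 C.q
  generalize hN : C.NI I 0 C.q = N at hs hc
  have hsm : ∀ (c : C.K), ∀ z ∈ N, c • z ∈ N := fun c z hz => by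
    rw [← ι_C]
    exact N.mul_mem_left _ hz
  have hy : ∀ (l : ℕ) (w : C.R), w * C.y ^ l ∈ N → w ∈ N := by
    obtain ⟨a, ha, b, hb, hab⟩ := Submodule.mem_sup.1 ((Ideal.eq_top_iff_one _).1 hc)
    obtain ⟨c, rfl⟩ := Ideal.mem_span_singleton'.1 hb
    intro l
    induction l with
    | zero => intro w hw; simpa using hw
    | succ l ih =>
      intro w hw
      refine ih w ?_
      have : w * C.y ^ l = w * C.y ^ l * a + c * (w * C.y ^ (l + 1)) := by
        linear_combination (-(w * C.y ^ l)) * hab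
      rw [this]
      exact N.add_mem (N.mul_mem_left _ ha) (N.mul_mem_left _ hw)
  have hco : ∀ z ∈ N, ∀ l < C.q, C.ι (C.co z l) ∈ N := fun z hz l hl => by
    refine hy l _ ?_
    have := hsm (C.q : C.K)⁻¹ _ ((C.dft z hl).symm ▸ N.sum_mem fun k _ => hsm _ _ (hs k z hz))
    rwa [smul_smul, inv_mul_cancel₀ C.q_ne_zero, one_smul] at this
  obtain ⟨u, hu⟩ := (IsPrincipalIdealRing.principal (N.comap (algebraMap C.K[X] C.R))).principal
  refine ⟨u, hN.trans (le_antisymm (fun z hz => ?_) ?_)⟩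
  · rw [← C.sum_co z]
    refine Ideal.sum_mem _ fun l hl => Ideal.mul_mem_right _ _ ?_
    have h1 : C.co z l ∈ N.comap (algebraMap C.K[X] C.R) := hco z hz l (mem_range.1 hl)
    rw [hu] at h1
    exact Ideal.mem_span_singleton.2 (_root_.map_dvd _ (Ideal.mem_span_singleton.1 h1))
  · rw [Ideal.span_singleton_le_iff_mem]
    have h1 : u ∈ N.comap (algebraMap C.K[X] C.R) := hu ▸ Submodule.mem_span_singleton_self u
    exact h1

theorem IsN.eval_ne {C : Cv} {I : Ideal C.R} {u : C.K[X]} (hu : C.IsN I u) (h : C.Cop I) (j : C.Ω) :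
    u.eval (C.rt j) ≠ 0 := by
  obtain ⟨z, hz, h1⟩ := C.cop_iff.1 (C.r4b_cop h 0 C.q) j
  rw [hu] at hz
  obtain ⟨c, rfl⟩ := Ideal.mem_span_singleton'.1 hz
  rw [map_mul, ev_ι] at h1
  exact right_ne_zero_of_mul h1

theorem IsN.mul {C : Cv} {I J : Ideal C.R} {u v : C.K[X]} (hu : C.IsN I u) (hv : C.IsN J v) :
    C.IsN (I * J) (u * v) := by
  rw [IsN, NI_mul, hu, hv, Ideal.span_singleton_mul_span_singleton, ← map_mul]

theorem isN_top : C.IsN ⊤ 1 := by
  simp only [IsN, NI, Ideal.map_top, map_one, Ideal.span_singleton_one]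
  rw [← Ideal.one_eq_top, Finset.prod_const_one]

theorem ι_mem_span {u g : C.K[X]} : C.ι g ∈ Ideal.span {C.ι u} ↔ u ∣ g := by
  rw [Ideal.mem_span_singleton]
  refine ⟨fun ⟨w, hw⟩ => ⟨C.co w 0, ?_⟩, _root_.map_dvd _⟩
  rw [← co_ι_mul, ← hw, ← mul_one (C.ι g), co_ι_mul, ← pow_zero C.y, C.co_y_pow C.hq.pos, if_pos rfl,
    mul_one]

theorem col_mul {h : C.R} {I : Ideal C.R} (hI : h ∈ I) (h0 : h ≠ 0) : C.col h I * I = Ideal.span {h} := by
  obtain ⟨J, hJ⟩ : I ∣ Ideal.span {h} := Ideal.dvd_iff_le.2 ((Ideal.span_singleton_le_iff_mem _).2 hI)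
  refine le_antisymm (Ideal.mul_le.2 fun r hr s hs => Submodule.mem_colon.1 hr s hs) ?_
  refine (hJ.trans (mul_comm _ _)).le.trans (Ideal.mul_mono_left fun z hz => ?_)
  refine Submodule.mem_colon.2 fun s hs => ?_
  rw [hJ, smul_eq_mul, mul_comm z]
  exact Ideal.mul_mem_mul hs hz

theorem mem_col {h z : C.R} {s : Set C.R} : z ∈ C.col h (Ideal.span s) ↔ ∀ g ∈ s, h ∣ z * g := by
  rw [col, Submodule.mem_colon]
  refine ⟨fun H g hg => Ideal.mem_span_singleton.1 (H g (Ideal.subset_span hg)), fun H g hg => ?_⟩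
  refine Ideal.mem_span_singleton.2 ?_
  induction hg using Submodule.span_induction with
  | mem g hg => exact H g hg
  | zero => simp
  | add a b _ _ ha hb => rw [smul_add]; exact dvd_add ha hb
  | smul c a _ ha => rw [smul_comm]; exact Dvd.dvd.mul_left ha c

/-- `(h) : I` is prime to `Pj j` iff `h ∉ Pj j * I` -/
theorem col_ev {h : C.R} {I : Ideal C.R} (hI : h ∈ I) (h0 : h ≠ 0) (j : C.Ω) :
    (∃ z ∈ C.col h I, C.ev j z ≠ 0) ↔ h ∉ C.Pj j * I := by
  have hI0 : I ≠ 0 := fun e => h0 (by rwa [e] at hI)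
  rw [← Ideal.span_singleton_le_iff_mem, ← C.col_mul hI h0, ← Ideal.dvd_iff_le, mul_dvd_mul_iff_right hI0,
    Ideal.dvd_iff_le, SetLike.not_le_iff_exists]
  simp only [mem_Pj]

open Classical in
/-- the ideal of a set of roots -/
theorem span_itp {ε : C.Ω → C.K} (h : ∀ j, ε j = 0 ∨ ε j = 1) :
    Ideal.span {C.ι (C.itp fun j => 1 - ε j), C.y} = ∏ j, if ε j = 1 then C.Pj j else 1 := by
  have hc : ∀ j k, j ≠ k → IsCoprime (C.Pj j) (C.Pj k) := fun j k hjk =>
    Ideal.isCoprime_iff_sup_eq.2 ((C.Pj_max j).coprime_of_ne (C.Pj_max k) fun e => hjk (C.Pj_inj e))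
  have he : ∀ j, C.ev j (C.ι (C.itp fun j => 1 - ε j)) = 1 - ε j := fun j => by
    rw [ev_ι]
    exact C.eval_itp (fun j => 1 - ε j) j
  rw [Ideal.prod_eq_iInf_of_pairwise_isCoprime fun j _ k _ hjk => ?_]
  · refine le_antisymm (Ideal.span_le.2 ?_) fun z hz => ?_
    · rintro z hz
      simp only [SetLike.mem_coe, Submodule.mem_iInf]
      intro j _
      split_ifs with e
      · rw [mem_Pj]
        rcases hz with rfl | rfl
        · rw [he, e, sub_self]
        · exact C.ev_y j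
      · rw [Ideal.one_eq_top]
        trivial
    · simp only [Submodule.mem_iInf] at hz
      have h1 : z - z * C.ι (C.itp fun j => 1 - ε j) ∈ Ideal.span {C.y} := by
        rw [← prod_Pj, Ideal.prod_eq_iInf_of_pairwise_isCoprime fun j _ k _ hjk => hc j k hjk]
        simp only [Submodule.mem_iInf]
        intro j _
        rw [mem_Pj, map_sub, map_mul, he]
        rcases h j with e | e
        · rw [e]; ring
        · have := hz j (mem_univ j)
          rw [if_pos e, mem_Pj] at this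
          rw [this]; ring
      obtain ⟨w, hw⟩ := Ideal.mem_span_singleton'.1 h1
      exact Ideal.mem_span_pair.2 ⟨z, w, by rw [hw]; ring⟩
  · simp only [Function.onFun]
    split_ifs
    exacts [hc j k hjk, isCoprime_one_right, isCoprime_one_left, isCoprime_one_left]

theorem r4e_cancel {M : Type} [CommMonoidWithZero M] [IsCancelMulZero M] {p u v : M} (hp : p ≠ 0) {a b : ℕ}
    (h : p ^ a * u = p ^ b * v) (hu : ¬ p ∣ u) (hv : ¬ p ∣ v) : a = b := by
  have k : ∀ {u v : M} {a b : ℕ}, p ^ a * u = p ^ b * v → ¬ p ∣ u → ¬ a < b := fun {u v a b} h hu hab => by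
    obtain ⟨d, rfl⟩ := Nat.exists_eq_add_of_lt hab
    rw [add_assoc, pow_add, mul_assoc] at h
    exact hu ⟨p ^ d * v, by rw [mul_left_cancel₀ (pow_ne_zero a hp) h, pow_succ', mul_assoc]⟩
  exact le_antisymm (not_lt.1 (k h.symm hv)) (not_lt.1 (k h hu))

/-- comparison of multiplicities (`UniqueFactorizationMonoid`, `multiplicity` / `Ideal.count_normalizedFactors_eq`):
write `g = (X - a_j) ^ m * g'` with `g' (a_j) ≠ 0` -/
theorem exp_congr {c : C.Ω → ℕ} {g : C.K[X]} {l : ℕ} (h : ∏ j, C.Pj j ^ c j = Ideal.span {C.ι g * C.y ^ l})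
    (j : C.Ω) : (c j : ZMod C.q) = l := by
  have hp : Prime (C.Pj j) := Ideal.prime_of_isPrime (C.Pj_ne_bot j) (C.Pj_max j).isPrime
  have hn : ∀ d : C.Ω → ℕ, ¬ C.Pj j ∣ ∏ k ∈ univ.erase j, C.Pj k ^ d k := fun d hd => by
    obtain ⟨k, hk, e⟩ := (hp.dvd_finsetProd_iff _).1 hd
    exact (mem_erase.1 hk).1 (C.Pj_inj ((C.Pj_max k).eq_of_le (C.Pj_max j).ne_top
      (Ideal.le_of_dvd (hp.dvd_of_dvd_pow e))))
  have hg : g ≠ 0 := by
    rintro rfl
    refine Finset.prod_ne_zero_iff.2 (fun k _ => pow_ne_zero (c k) (C.Pj_ne_bot k)) (h.trans ?_)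
    rw [ι, map_zero, zero_mul, Ideal.span_singleton_zero, Ideal.zero_eq_bot]
  obtain ⟨g', e, hg'⟩ := exists_eq_pow_rootMultiplicity_mul_and_not_dvd g hg (C.rt j)
  generalize rootMultiplicity (C.rt j) g = m at e
  have h1 : C.Pj j ^ c j * ∏ k ∈ univ.erase j, C.Pj k ^ c k =
      C.Pj j ^ (C.q * m + l) * (Ideal.span {C.ι g'} * ∏ k ∈ univ.erase j, C.Pj k ^ l) := by
    rw [Finset.mul_prod_erase univ (fun k => C.Pj k ^ c k) (mem_univ j), h, e, ι, map_mul, map_pow,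
      ← Ideal.span_singleton_mul_span_singleton, ← Ideal.span_singleton_mul_span_singleton,
      ← Ideal.span_singleton_pow, ← Ideal.span_singleton_pow, ← C.Pj_pow j, ← C.prod_Pj, ← Finset.prod_pow,
      ← Finset.mul_prod_erase univ (fun k => C.Pj k ^ l) (mem_univ j), pow_add, pow_mul]
    ring
  have h2 := r4e_cancel hp.ne_zero h1 (hn c) fun hd => by
    rcases hp.dvd_or_dvd hd with hd | hd
    · refine hg' (dvd_iff_isRoot.2 ?_)
      rw [Ideal.dvd_span_singleton, mem_Pj, ev_ι] at hd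
      exact hd
    · exact hn (fun _ => l) hd
  rw [h2]
  simp

end Cv

end Crest.Agent.R312
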