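import Crest.Agent.R312.TDefs

/-!
# R312/T0: more closure lemmas for `DPT`, `Solv`, `UN`, `En` (lists, ranges, loops).
-/

set_option autoImplicit false

open Polynomial Finset Crest.Agent.Lib.PolyTime

noncomputable section

namespace Crest.Agent.R312

variable {α α' : Type} [Enc α] [Enc α']
variable {β γ : α → Type} [∀ a, Enc (β a)] [∀ a, Enc (γ a)]

theorem UN.const (c : ℕ) : UN fun _ : α => c :=
  ⟨PT.const c, PB.const c⟩

theorem UN.add {m n : α → ℕ} (hm : UN m) (hn : UN n) : UN fun a => m a + n a :=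
  ⟨hm.1.nat_add hn.1, hm.2.add hn.2⟩

theorem UN.mul {m n : α → ℕ} (hm : UN m) (hn : UN n) : UN fun a => m a * n a :=
  ⟨hm.1.nat_mul hn.1, hm.2.mul hn.2⟩

theorem UN.sub {m n : α → ℕ} (hm : UN m) (hn : PT n) : UN fun a => m a - n a :=
  ⟨hm.1.nat_sub hn, hm.2.sub⟩

theorem UN.pow {m : α → ℕ} (hm : UN m) (c : ℕ) : UN fun a => m a ^ c :=
  ⟨hm.1.nat_pow (PT.const c) (PB.const c), hm.2.pow c⟩

theorem UN.size {m : α → ℕ} (hm : PT m) : UN fun a => (m a).size :=
  ⟨hm.natSize, PB.natSize hm⟩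

theorem UN.of_le {m n : α → ℕ} (hm : PT m) (hn : PB n) (h : ∀ a, m a ≤ n a) : UN m :=
  ⟨hm, hn.mono h⟩

theorem UN.fin {n : α → ℕ} (hn : UN n) : UN fun p : Σ a, Fin (n a) => p.2.val :=
  ⟨(dpt_sigma_snd (β := fun a => Fin (n a))).finVal, (hn.2.comp pt_sigma_fst).mono fun p => p.2.2.le⟩

theorem DPT.nil : DPT fun a => ([] : List (β a)) :=
  DPT.ofTrList (PT.const [])

theorem DPT.cons {x : ∀ a, β a} {l : ∀ a, List (β a)} (hx : DPT x) (hl : DPT l) : DPT fun a => x a :: l a :=
  DPT.ofTrList (PT.cons hx hl.trList)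

theorem DPT.append {l m : ∀ a, List (β a)} (hl : DPT l) (hm : DPT m) : DPT fun a => l a ++ m a :=
  DPT.ofTrList ((hl.trList.append hm.trList).of_eq fun _ => List.map_append.symm)

theorem DPT.flatten {l : ∀ a, List (List (β a))} (hl : DPT l) : DPT fun a => (l a).flatten :=
  (hl.flatMap (f := fun _ x => x) dpt_sigma_snd).of_eq fun _ => List.flatMap_id'

theorem DPT.getD {l : ∀ a, List (β a)} (hl : DPT l) {k : α → ℕ} (hk : PT k) {d : ∀ a, β a} (hd : DPT d) :
    DPT fun a => (l a).getD (k a) (d a) :=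
  (hl.trList.getD hk hd).of_eq fun _ => List.getD_map _ _ enc

theorem DPT.take {l : ∀ a, List (β a)} (hl : DPT l) {k : α → ℕ} (hk : PT k) : DPT fun a => (l a).take (k a) :=
  DPT.ofTrList ((PT.take hk hl.trList).of_eq fun _ => List.map_take.symm)

theorem DPT.drop {l : ∀ a, List (β a)} (hl : DPT l) {k : α → ℕ} (hk : PT k) : DPT fun a => (l a).drop (k a) :=
  DPT.ofTrList ((PT.drop hk hl.trList).of_eq fun _ => List.map_drop.symm)

theorem DPT.eraseIdx {l : ∀ a, List (β a)} (hl : DPT l) {k : α → ℕ} (hk : PT k) :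
    DPT fun a => (l a).eraseIdx (k a) :=
  DPT.ofTrList ((hl.trList.eraseIdx hk).of_eq fun _ => List.eraseIdx_map _ _ _)

theorem DPT.rangeMap {n : α → ℕ} (hn : UN n) {f : ∀ a, ℕ → β a} (hf : DPT fun p : α × ℕ => f p.1 p.2) :
    DPT fun a => (List.range (n a)).map (f a) :=
  DPT.ofTrList (((PT.range hn.1 hn.2).map (f := fun a k => (enc (f a k) : Tr)) hf).of_eq fun _ => by
    rw [List.map_map]; rfl)

/-- the version in which the function only has to be fast on the range -/
theorem DPT.rangeMap' {n : α → ℕ} (hn : UN n) {f : ∀ a, ℕ → β a}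
    (hf : DPT fun p : Σ a, Fin (n a) => f p.1 p.2.val) : DPT fun a => (List.range (n a)).map (f a) :=
  ((dpt_finRange hn).map (f := fun a i => f a i.val) hf).of_eq fun _ => by
    rw [← List.map_coe_finRange_eq_range, List.map_map]; rfl

theorem DPT.update {n : α → ℕ} (hn : UN n) {F : ∀ a, Fin (n a) → β a} (hF : DPT F) {i : ∀ a, Fin (n a)} (hi : DPT i)
    {x : ∀ a, β a} (hx : DPT x) : DPT fun a => Function.update (F a) (i a) (x a) := by
  refine DPT.pi hn ((DPT.ite (c := fun p : Σ a, Fin (n a) => p.2 = i p.1) (dpt_sigma_snd.eq (hi.comp pt_sigma_fst))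
    (hx.comp pt_sigma_fst) ((hF.comp pt_sigma_fst).apply dpt_sigma_snd)).of_eq fun p => ?_)
  rw [Function.update_apply]

theorem t0c_sum {s : ∀ a, β a ⊕ γ a} (hs : DPT s) : PT fun a => ((s a).isRight, ((s a).elim enc enc : Tr)) :=
  PT.of_enc_eq_out hs fun a => by cases s a <;> rfl

theorem DPT.isLeft {s : ∀ a, β a ⊕ γ a} (hs : DPT s) : PT fun a => (s a).isLeft = true := by
  exact (t0c_sum hs).fst.bnot.eq_true.of_iff fun a => by cases s a <;> simp

theorem DPT.getLeft {s : ∀ a, β a ⊕ γ a} (hs : DPT s) (h : ∀ a, (s a).isLeft) : DPT fun a => (s a).getLeft (h a) := by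
  refine (t0c_sum hs).snd.of_eq fun a => ?_
  have : ∀ (x : β a ⊕ γ a) (hx : x.isLeft), (x.elim enc enc : Tr) = enc (x.getLeft hx) := by
    rintro (x | x) hx
    · rfl
    · simp at hx
  exact this _ _

theorem DPT.getRight {s : ∀ a, β a ⊕ γ a} (hs : DPT s) (h : ∀ a, (s a).isRight) :
    DPT fun a => (s a).getRight (h a) := by
  refine (t0c_sum hs).snd.of_eq fun a => ?_
  have : ∀ (x : β a ⊕ γ a) (hx : x.isRight), (x.elim enc enc : Tr) = enc (x.getRight hx) := by
    rintro (x | x) hx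
    · simp at hx
    · rfl
  exact this _ _

theorem DPT.isSome {o : ∀ a, Option (β a)} (h : DPT o) : PT fun a => (o a).isSome = true := by
  have hs : PT fun a => ((o a).map enc : Option Tr) :=
    PT.of_enc_eq_out h fun a => by cases o a <;> rfl
  exact hs.isSome.eq_true.of_iff fun p => by simp

theorem DPT.forallMem {l : ∀ a, List (β a)} (hl : DPT l) {p : ∀ a, β a → Prop}
    (hp : PT fun x : Σ a, β a => p x.1 x.2) : PT fun a => ∀ x ∈ l a, p a x := by
  exact (hl.sigList.forall_mem (p := fun _ x => p x.1 x.2) (hp.comp PT.snd')).of_iff fun a => by simp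

theorem DPT.existsMem {l : ∀ a, List (β a)} (hl : DPT l) {p : ∀ a, β a → Prop}
    (hp : PT fun x : Σ a, β a => p x.1 x.2) : PT fun a => ∃ x ∈ l a, p a x := by
  exact (hl.sigList.exists_mem (p := fun _ x => p x.1 x.2) (hp.comp PT.snd')).of_iff fun a => by simp

/-- left fold with an invariant that bounds the size of the accumulator -/
theorem DPT.foldl {l : ∀ a, List (β a)} (hl : DPT l) {x0 : ∀ a, γ a} (hx : DPT x0) {f : ∀ a, γ a → β a → γ a}
    (hf : DPT fun p : Σ a, γ a × β a => f p.1 p.2.1 p.2.2) {g : α → ℕ} (hg : PB g)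
    (hsz : ∀ a k, Lib.PolyTime.esize (((l a).take k).foldl (f a) (x0 a)) ≤ g a) : DPT fun a => (l a).foldl (f a) (x0 a) := by
  let st : ∀ a, List (β a) × γ a → List (β a) × γ a := fun a s =>
    if h : 0 < s.1.length then (s.1.drop 1, f a s.2 (s.1.get ⟨0, h⟩)) else s
  have hst : DPT fun p : Σ a, List (β a) × γ a => st p.1 p.2 := by
    have h1 : DPT fun p : Σ a, List (β a) × γ a => p.2.1 := dpt_sigma_snd.fst
    have h2 : DPT fun p : Σ a, List (β a) × γ a => p.2.2 := dpt_sigma_snd.snd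
    have h3 : PT fun p : Σ a, List (β a) × γ a => 0 < p.2.1.length :=
      PT.nat_lt (f := fun _ => 0) (g := fun p : Σ a, List (β a) × γ a => p.2.1.length) (PT.const 0) h1.length.1
    refine DPT.cases h3 ?_ ?_
    · refine (((h1.comp pt_val).drop (PT.const 1)).pair (hf.comp (pt_sigma_mk (pt_sigma_fst.comp pt_val)
        ((h2.comp pt_val).pair ((h1.comp pt_val).get (DPT.finMk (PT.const 0) fun p => p.2)))))).of_eq
        fun p => ?_
      simp only [st, dif_pos p.2]
    · exact (dpt_sigma_snd.comp pt_val).of_eq fun p => by simp only [st, dif_neg p.2]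
  have hF : PT fun p : Σ a, List (β a) × γ a => (⟨p.1, st p.1 p.2⟩ : Σ a, List (β a) × γ a) :=
    pt_sigma_mk pt_sigma_fst hst
  have key : ∀ a i, i ≤ (l a).length →
      (fun p : Σ a, List (β a) × γ a => (⟨p.1, st p.1 p.2⟩ : Σ a, List (β a) × γ a))^[i] ⟨a, (l a, x0 a)⟩ =
      ⟨a, ((l a).drop i, ((l a).take i).foldl (f a) (x0 a))⟩ := by
    intro a i
    induction i with
    | zero => simp
    | succ i ih =>
      intro hi
      rw [Function.iterate_succ_apply', ih (by omega), List.take_succ_eq_append_getElem (by omega : i < _),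
        List.foldl_append]
      have : 0 < ((l a).drop i).length := by simp; omega
      simp [st, dif_pos this]
  have hit := PT.iterate (n := fun a => (l a).length) (x := fun a => (⟨a, (l a, x0 a)⟩ : Σ a, List (β a) × γ a))
    (f := fun _ p => (⟨p.1, st p.1 p.2⟩ : Σ a, List (β a) × γ a))
    (fun a => Lib.PolyTime.esize a + (Lib.PolyTime.esize (l a) + g a + 1) + 1) hl.length.1 hl.length.2
    (pt_sigma_mk PT.id' (hl.pair hx)) (hF.comp PT.snd')
    ((PB.esize_id.add ((hl.esize.add hg).add (PB.const 1))).add (PB.const 1)) (fun a i hi => by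
      rw [key a i hi]
      have h1 := hsz a i
      have h2 := esize_sublist (List.drop_sublist i (l a))
      show Lib.PolyTime.esize a + (Lib.PolyTime.esize ((l a).drop i) +
        Lib.PolyTime.esize (((l a).take i).foldl (f a) (x0 a)) + 1) + 1 ≤ _
      omega)
  exact (PT.comp (dpt_sigma_snd (β := fun a => List (β a) × γ a)).snd hit).of_eq fun a => by
    rw [key a _ le_rfl, List.take_length]

/-- primitive recursion on a unary number -/
theorem DPT.natRec {n : α → ℕ} (hn : UN n) {F : ∀ a, ℕ → β a} (h0 : DPT fun a => F a 0) {s : ∀ a, ℕ → β a → β a}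
    (hs : DPT fun p : Σ a, Fin (n a) × β a => s p.1 p.2.1.val p.2.2) (hF : ∀ a k, F a (k + 1) = s a k (F a k))
    {g : α → ℕ} (hg : PB g) (hsz : ∀ a k, k ≤ n a → Lib.PolyTime.esize (F a k) ≤ g a) : DPT fun a => F a (n a) := by
  have key : ∀ a k, k ≤ n a →
      ((List.finRange (n a)).take k).foldl (fun c i => s a i.val c) (F a 0) = F a k := by
    intro a k
    induction k with
    | zero => simp
    | succ k ih =>
      intro hk
      rw [List.take_succ_eq_append_getElem (by simpa using hk), List.foldl_append, ih (by omega), hF]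
      simp
  have hφ : PT fun p : Σ a, β a × Fin (n a) => (⟨p.1, (p.2.2, p.2.1)⟩ : Σ a, Fin (n a) × β a) :=
    pt_sigma_mk pt_sigma_fst (dpt_sigma_snd.snd.pair dpt_sigma_snd.fst)
  refine (DPT.foldl (f := fun a c i => s a i.val c) (dpt_finRange hn) h0 (hs.comp hφ) hg fun a k => ?_).of_eq
    fun a => ?_
  · rcases le_total k (n a) with h | h
    · rw [key a k h]
      exact hsz a k h
    · rw [List.take_of_length_le (by simpa using h), ← List.take_length (l := List.finRange (n a)),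
        List.length_finRange, key a _ le_rfl]
      exact hsz a _ le_rfl
  · rw [← List.take_length (l := List.finRange (n a)), List.length_finRange, key a _ le_rfl]

theorem Solv.of_dpt {R : ∀ a, β a → Prop} {f : ∀ a, β a} (hf : DPT f) (h : ∀ a, R a (f a)) : Solv R := ⟨f, hf, h⟩

/-- choose a member of a list -/
theorem Solv.chooseL {l : ∀ a, List (β a)} (hl : DPT l) {p : ∀ a, β a → Prop}
    (hp : PT fun x : Σ a, β a => p x.1 x.2) (hex : ∀ a, ∃ x ∈ l a, p a x) : Solv fun a x => x ∈ l a ∧ p a x := by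
  classical
  have ho := hl.find? (f := fun a i => decide (p a i)) hp.decide
  have hs : ∀ a, ((l a).find? fun i => decide (p a i)).isSome := fun a => by simpa using hex a
  refine ⟨_, ho.optGet hs, fun a => ⟨List.mem_of_find?_eq_some (Option.some_get (hs a)).symm, ?_⟩⟩
  simpa using List.find?_some (Option.some_get (hs a)).symm

theorem t0c_loop (I D : ∀ a, β a → Prop) (m : ∀ a, β a → ℕ) {g : α → ℕ} (hg : PB g)
    (h0 : Solv I) (hsz : ∀ a x, I a x → esize x ≤ g a ∧ m a x ≤ g a)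
    (hst : Solv (β := fun p : Σ a, {x // I a x} => Option (β p.1)) fun p o =>
      (o = none → D p.1 p.2.1) ∧ ∀ y, o = some y → I p.1 y ∧ m p.1 y < m p.1 p.2.1) :
    Solv fun a x => I a x ∧ D a x := by
  obtain ⟨x0, hx, h0⟩ := h0
  obtain ⟨st, hst, h⟩ := hst
  have key : ∀ a (o : Option (β a)) (H : ∀ y, o = some y → I a y),
      (enc (o.pmap (Subtype.mk (p := I a)) H) : Tr) = enc o := by
    rintro a (_ | y) H <;> rfl
  obtain ⟨f, hf, h'⟩ := Solv.loop (β := fun a => {x // I a x}) (fun a x => D a x.1) (fun a x => m a x.1) hg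
    (x0 := fun a => ⟨x0 a, h0 a⟩) (hx.mk _) (fun a => (hsz a _ (h0 a)).2) (fun a x => (hsz a x.1 x.2).1)
    ⟨fun p => (st p).pmap Subtype.mk fun y hy => ((h p).2 y hy).1, PT.of_eq hst fun p => (key _ _ _).symm,
      fun p => ⟨fun e => (h p).1 (by simpa using e), fun y e => by
        obtain ⟨z, hz, e', rfl⟩ := Option.pmap_eq_some_iff.1 e
        exact ((h p).2 z e').2⟩⟩
  exact ⟨fun a => (f a).1, hf.val, fun a => ⟨(f a).2, h' a⟩⟩

/-- `T` rounds of a search problem with an invariant that depends on the round -/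
theorem Solv.iter {T : α → ℕ} (hT : UN T) (I : ∀ a, ℕ → β a → Prop) {g : α → ℕ} (hg : PB g)
    (h0 : Solv fun a x => I a 0 x) (hsz : ∀ a k x, I a k x → esize x ≤ g a)
    (hst : Solv (β := fun p : Σ a, {y : Fin (T a) × β a // I a y.1.val y.2} => β p.1)
      fun p x => I p.1 (p.2.1.1.val + 1) x) : Solv fun a x => I a (T a) x := by
  obtain ⟨x0, hx, h0⟩ := h0
  obtain ⟨st, hst, h⟩ := hst
  obtain ⟨f, hf, h'⟩ := t0c_loop (β := fun a => ℕ × β a) (fun a y => y.1 ≤ T a ∧ I a y.1 y.2)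
    (fun a y => y.1 = T a) (fun a y => T a - y.1) (g := fun a => 6 * T a + g a + 2)
    ((((PB.const 6).mul hT.2).add hg).add (PB.const 2))
    ⟨fun a => (0, x0 a), (DPT.of_pt (PT.const 0)).pair hx, fun a => ⟨Nat.zero_le _, h0 a⟩⟩
    (fun a y hy => by
      have h1 := hsz a _ _ hy.2
      have h2 := esize_nat_le_self y.1
      have h3 := esize_prod y
      have h4 := hy.1
      omega) (by
      have hk : PT fun p : Σ a, {y : ℕ × β a // y.1 ≤ T a ∧ I a y.1 y.2} => p.2.1.1 :=
        dpt_sigma_snd.val.fst.pt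
      refine Solv.cases (c := fun p => p.2.1.1 < T p.1) (hk.nat_lt (hT.1.comp pt_sigma_fst)) ?_ ?_
      · have hφ : PT fun p : {p : Σ a, {y : ℕ × β a // y.1 ≤ T a ∧ I a y.1 y.2} // p.2.1.1 < T p.1} =>
            (⟨p.1.1, ⟨(⟨p.1.2.1.1, p.2⟩, p.1.2.1.2), p.1.2.2.2⟩⟩ :
              Σ a, {y : Fin (T a) × β a // I a y.1.val y.2}) :=
          PT.of_enc_eq_out pt_val fun _ => rfl
        refine ⟨fun p => some (p.1.2.1.1 + 1, st ⟨p.1.1, ⟨(⟨p.1.2.1.1, p.2⟩, p.1.2.1.2), p.1.2.2.2⟩⟩),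
          DPT.some ((DPT.of_pt ((hk.comp pt_val).nat_add (PT.const 1))).pair (hst.comp hφ)),
          fun p => ⟨by simp, ?_⟩⟩
        rintro y ⟨rfl⟩
        have := p.2
        exact ⟨⟨this, h ⟨p.1.1, ⟨(⟨p.1.2.1.1, p.2⟩, p.1.2.1.2), p.1.2.2.2⟩⟩⟩, by simp only; omega⟩
      · exact ⟨fun _ => none, DPT.none, fun p => ⟨fun _ => le_antisymm p.1.2.2.1 (not_lt.1 p.2), by simp⟩⟩)
  refine ⟨fun a => (f a).2, hf.snd, fun a => ?_⟩
  have h1 : I a (f a).1 (f a).2 := (h' a).1.2
  rwa [show (f a).1 = T a from (h' a).2] at h1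

/-- `Solv.loop` with an invariant and a searched start -/
theorem Solv.loopI (I D : ∀ a, β a → Prop) (m : ∀ a, β a → ℕ) {g : α → ℕ} (hg : PB g)
    (h0 : Solv I) (hsz : ∀ a x, I a x → esize x ≤ g a ∧ m a x ≤ g a)
    (hst : Solv (β := fun p : Σ a, {x // I a x} => Option (β p.1)) fun p o =>
      (o = none → D p.1 p.2.1) ∧ ∀ y, o = some y → I p.1 y ∧ m p.1 y < m p.1 p.2.1) :
    Solv fun a x => I a x ∧ D a x := by
  exact t0c_loop I D m hg h0 hsz hst

theorem t0c_card {σ : Type} [Fintype σ] {l : List σ} (h : l.Nodup ∧ ∀ i, i ∈ l) : Fintype.card σ = l.length := by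
  classical
  rw [← Fintype.card_congr (h.1.getEquivOfForallMemList l h.2), Fintype.card_fin]

theorem En.card {ι : α → Type} [∀ a, Enc (ι a)] [∀ a, Fintype (ι a)] (h : En ι) : UN fun a => Fintype.card (ι a) := by
  obtain ⟨l, hl, h⟩ := h
  have e : (fun a => Fintype.card (ι a)) = fun a => (l a).length := funext fun a => t0c_card (h a)
  rw [e]
  exact hl.length

theorem En.sigma {ι : α → Type} [∀ a, Enc (ι a)] {κ : ∀ a, ι a → Type} [∀ a i, Enc (κ a i)] (h : En ι)
    (h' : En fun p : Σ a, ι a => κ p.1 p.2) : En fun a => Σ i : ι a, κ a i := by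
  obtain ⟨l, hl, h⟩ := h
  obtain ⟨l', hl', h'⟩ := h'
  refine ⟨fun a => (l a).sigma fun i => l' ⟨a, i⟩,
    hl.flatMap (f := fun a i => (l' ⟨a, i⟩).map (Sigma.mk i)) (hl'.map
      (f := fun p k => (⟨p.2, k⟩ : Σ i : ι p.1, κ p.1 i)) ?_),
    fun a => ⟨(h a).1.sigma fun i => (h' ⟨a, i⟩).1, fun x => List.mem_sigma.2 ⟨(h a).2 _, (h' ⟨a, x.1⟩).2 _⟩⟩⟩
  exact PT.of_eq ((dpt_sigma_snd.comp pt_sigma_fst).pair
    (dpt_sigma_snd (β := fun p : Σ a, ι a => κ p.1 p.2))) fun _ => rfl

/-- an enumerable family is numbered in polynomial time -/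
theorem En.equivFin {ι : α → Type} [∀ a, Enc (ι a)] [∀ a, Fintype (ι a)] (h : En ι) :
    ∃ e : ∀ a, Fin (Fintype.card (ι a)) ≃ ι a, DPT fun p : Σ a, Fin (Fintype.card (ι a)) => e p.1 p.2 := by
  classical
  obtain ⟨l, hl, h⟩ := h
  refine ⟨fun a => (finCongr (t0c_card (h a))).trans ((h a).1.getEquivOfForallMemList (l a) (h a).2), ?_⟩
  have hi : DPT fun p : Σ a, Fin (Fintype.card (ι a)) => finCongr (t0c_card (h p.1)) p.2 :=
    PT.of_eq (dpt_sigma_snd (β := fun a => Fin (Fintype.card (ι a)))) fun _ => rfl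
  exact ((hl.comp pt_sigma_fst).get hi).of_eq fun _ => rfl

end Crest.Agent.R312
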