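import Crest.Agent.R312.T0

/-!
# R312/T1: closure lemmas for `MR` / `BR` families.  Sizes: `μ` of a sum is at most the maximum, `μ` of a product of `k` factors at most
`k * (max + c)`; `mu_le` bounds `μ` of the inputs, `bd` turns `μ` into a size.
-/

set_option autoImplicit false

open Polynomial Finset Crest.Agent.Lib.PolyTime

noncomputable section

namespace Crest.Agent.R312

variable {α α' : Type} [Enc α] [Enc α']
variable {S : α → Type} [∀ a, CommRing (S a)] [∀ a, Enc (S a)] {μ : ∀ a, S a → ℕ}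

theorem MR.comp (h : MR S μ) {φ : α' → α} (hφ : PT φ) : MR (fun a' => S (φ a')) fun a' => μ (φ a') := by
  obtain ⟨c, k, hc, H⟩ := h.bd
  exact ⟨h.add.comp (pt_sigma_mk (hφ.comp pt_sigma_fst) dpt_sigma_snd),
    h.mul.comp (pt_sigma_mk (hφ.comp pt_sigma_fst) dpt_sigma_snd),
    h.neg.comp (pt_sigma_mk (hφ.comp pt_sigma_fst) dpt_sigma_snd), h.zero.comp hφ, h.one.comp hφ,
    fun _ => h.mu_add _, fun _ => h.mu_neg _, fun _ => h.mu_zero _, fun _ => h.mu_one _, fun _ => h.mu_le _,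
    _, k, hc.comp hφ, fun _ => H _⟩

theorem MR.dadd (h : MR S μ) {x y : ∀ a, S a} (hx : DPT x) (hy : DPT y) : DPT fun a => x a + y a :=
  h.add.comp (pt_sigma_mk PT.id' (hx.pair hy))

theorem MR.dmul (h : MR S μ) {x y : ∀ a, S a} (hx : DPT x) (hy : DPT y) : DPT fun a => x a * y a :=
  h.mul.comp (pt_sigma_mk PT.id' (hx.pair hy))

theorem MR.dneg (h : MR S μ) {x : ∀ a, S a} (hx : DPT x) : DPT fun a => -x a :=
  h.neg.comp (pt_sigma_mk PT.id' hx)

theorem MR.dsub (h : MR S μ) {x y : ∀ a, S a} (hx : DPT x) (hy : DPT y) : DPT fun a => x a - y a :=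
  (h.dadd hx (h.dneg hy)).of_eq fun _ => (sub_eq_add_neg _ _).symm

theorem MR.exists_size (h : MR S μ) {m : α → ℕ} (hm : PB m) :
    ∃ g : α → ℕ, PB g ∧ ∀ a (x : S a), μ a x ≤ m a → esize x ≤ g a := by
  obtain ⟨c, k, hc, H⟩ := h.bd
  exact ⟨_, (hc.add hm).pow k, fun a x hx => (H a x).1.trans (Nat.pow_le_pow_left (by omega) k)⟩

theorem BR.size (h : BR S) : ∃ g : α → ℕ, PB g ∧ ∀ a (x : S a), esize x ≤ g a := by
  obtain ⟨g, hg, H⟩ := MR.exists_size h (PB.const 0)
  exact ⟨g, hg, fun a x => H a x le_rfl⟩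

theorem MR.toBR (h : MR S μ) {m : α → ℕ} (hm : PB m) (hb : ∀ a (x : S a), μ a x ≤ m a) : BR S := by
  obtain ⟨g, hg, H⟩ := h.exists_size hm
  exact ⟨h.add, h.mul, h.neg, h.zero, h.one, fun _ _ _ => Nat.zero_le _, fun _ _ => le_rfl, fun _ => rfl,
    fun _ => rfl, fun _ _ => Nat.zero_le _, g, 1, hg, fun a x =>
      ⟨by simpa using H a x (hb a x), fun _ => Nat.zero_le _⟩⟩

theorem MR.t1a_sum (h : MR S μ) {a : α} {m : ℕ} {L : List (S a)} (hL : ∀ x ∈ L, μ a x ≤ m) : μ a L.sum ≤ m := by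
  induction L with
  | nil => rw [List.sum_nil, h.mu_zero]; exact Nat.zero_le _
  | cons x L ih =>
    rw [List.sum_cons]
    exact (h.mu_add _ _ _).trans (max_le (hL x List.mem_cons_self) (ih fun y hy => hL y (List.mem_cons_of_mem _ hy)))

theorem MR.t1a_prod (h : MR S μ) {a : α} {m c : ℕ} (hc : ∀ x y, μ a (x * y) ≤ μ a x + μ a y + c) {L : List (S a)}
    (hL : ∀ x ∈ L, μ a x ≤ m) : μ a L.prod ≤ L.length * (m + c) := by
  induction L with
  | nil => rw [List.prod_nil, h.mu_one]; exact Nat.zero_le _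
  | cons x L ih =>
    have h1 := hL x List.mem_cons_self
    have h2 := ih fun y hy => hL y (List.mem_cons_of_mem _ hy)
    rw [List.prod_cons, List.length_cons, Nat.succ_mul]
    exact (hc _ _).trans (by omega)

theorem MR.listSum (h : MR S μ) {l : ∀ a, List (S a)} (hl : DPT l) : DPT fun a => (l a).sum := by
  obtain ⟨g, hg, H⟩ := h.exists_size hl.esize
  refine (hl.foldl h.zero (f := fun _ x y => x + y) h.add hg fun a k => H _ _ ?_).of_eq
    fun _ => List.sum_eq_foldl.symm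
  rw [← List.sum_eq_foldl]
  exact h.t1a_sum fun x hx => (h.mu_le _ _).trans (esize_lt_of_mem (List.mem_of_mem_take hx)).le

theorem MR.listProd (h : MR S μ) {l : ∀ a, List (S a)} (hl : DPT l) : DPT fun a => (l a).prod := by
  obtain ⟨c, e, hc, Hc⟩ := h.bd
  obtain ⟨g, hg, H⟩ := h.exists_size (hl.length.2.mul (hl.esize.add hc))
  refine (hl.foldl h.one (f := fun _ x y => x * y) h.mul hg fun a k => H _ _ ?_).of_eq
    fun _ => List.prod_eq_foldl.symm
  rw [← List.prod_eq_foldl]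
  refine (h.t1a_prod (fun x => (Hc a x).2) fun x hx =>
    (h.mu_le _ _).trans (esize_lt_of_mem (List.mem_of_mem_take hx)).le).trans (Nat.mul_le_mul_right _ ?_)
  exact List.length_take_le' _ _

theorem MR.npow (h : MR S μ) {x : ∀ a, S a} (hx : DPT x) {k : α → ℕ} (hk : UN k) : DPT fun a => x a ^ k a :=
  (h.listProd (hx.replicate hk)).of_eq fun _ => List.prod_replicate _ _

theorem MR.dsum (h : MR S μ) {ι : α → Type} [∀ a, Enc (ι a)] [∀ a, Fintype (ι a)] (hι : En ι) {x : ∀ a, ι a → S a}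
    (hx : DPT fun p : Σ a, ι a => x p.1 p.2) : DPT fun a => ∑ i, x a i := by
  obtain ⟨l, hl, h'⟩ := hι
  exact (h.listSum (hl.map hx)).of_eq fun a => sum_eq_list (h' a).1 (h' a).2 _

theorem MR.dprod (h : MR S μ) {ι : α → Type} [∀ a, Enc (ι a)] [∀ a, Fintype (ι a)] (hι : En ι) {x : ∀ a, ι a → S a}
    (hx : DPT fun p : Σ a, ι a => x p.1 p.2) : DPT fun a => ∏ i, x a i := by
  classical
  obtain ⟨l, hl, h'⟩ := hι
  refine (h.listProd (hl.map hx)).of_eq fun a => ?_
  rw [← List.prod_toFinset (x a) (h' a).1]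
  congr 1; ext i; simp [(h' a).2]

theorem MR.rangeSum (h : MR S μ) {n : α → ℕ} (hn : UN n) {x : ∀ a, ℕ → S a}
    (hx : DPT fun p : Σ a, Fin (n a) => x p.1 p.2.val) : DPT fun a => ∑ k ∈ range (n a), x a k := by
  exact (h.dsum (En.fin hn) (x := fun a i => x a i.val) hx).of_eq fun a => (Finset.sum_range (x a)).symm

theorem MR.rangeProd (h : MR S μ) {n : α → ℕ} (hn : UN n) {x : ∀ a, ℕ → S a}
    (hx : DPT fun p : Σ a, Fin (n a) => x p.1 p.2.val) : DPT fun a => ∏ k ∈ range (n a), x a k := by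
  exact (h.dprod (En.fin hn) (x := fun a i => x a i.val) hx).of_eq fun a => (Finset.prod_range (x a)).symm

theorem MR.icoProd (h : MR S μ) {m n : α → ℕ} (hm : PT m) (hn : UN n) {x : ∀ a, ℕ → S a}
    (hx : DPT fun p : Σ a, Fin (n a) => x p.1 p.2.val) : DPT fun a => ∏ k ∈ Ico (m a) (n a), x a k := by
  have h1 : DPT fun p : Σ a, Fin (n a) => if m p.1 ≤ p.2.val then x p.1 p.2.val else 1 :=
    DPT.ite (β := fun p : Σ a, Fin (n a) => S p.1) ((hm.comp pt_sigma_fst).nat_le hn.fin.1) hx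
      (h.one.comp pt_sigma_fst)
  refine (h.rangeProd hn (x := fun a k => if m a ≤ k then x a k else 1) h1).of_eq fun a => ?_
  rw [← Finset.prod_filter]
  congr 1; ext k; simp [and_comm]

/-- recursion on binary digits -/
theorem t1_binRec {β : α → Type} [∀ a, Enc (β a)] {k : α → ℕ} (hk : PT k) {g : ∀ a, ℕ → β a}
    (h0 : DPT fun a => g a 0) {st : ∀ a, Bool → β a → β a} (hst : DPT fun p : Σ a, β a × Bool => st p.1 p.2.2 p.2.1)
    (hg : ∀ a b n, g a (Nat.bit b n) = st a b (g a n)) {B : α → ℕ} (hB : PB B) (hsz : ∀ a n, esize (g a n) ≤ B a) :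
    DPT fun a => g a (k a) := by
  have hφ : PT fun p : α × Bool × (Σ a, β a) => (⟨p.2.2.1, (p.2.2.2, p.2.1)⟩ : Σ a, β a × Bool) :=
    pt_sigma_mk (β := fun a => β a × Bool) (pt_sigma_fst.comp PT.snd'.snd)
      ((dpt_sigma_snd.comp PT.snd'.snd).pair (DPT.of_pt PT.snd'.fst))
  have h := PT.binRec (f := k) (g := fun a n => (⟨a, g a n⟩ : Σ a, β a))
    (step := fun _ b p => (⟨p.1, st p.1 b p.2⟩ : Σ a, β a)) (fun a => esize a + B a + 1) hk
    (pt_sigma_mk PT.id' h0) (pt_sigma_mk (pt_sigma_fst.comp PT.snd'.snd) (hst.comp hφ))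
    (fun a b n => by rw [hg]) ((PB.esize_id.add hB).add (PB.const 1)) (fun a n _ => by
      have := hsz a n
      show esize a + esize (g a n) + 1 ≤ esize a + B a + 1
      omega)
  exact dpt_sigma_snd.comp h

/-- binary exponent (`PT.binRec` on `Σ a, S a`, or `DPT.foldl` over the bits) -/
theorem BR.dpow (h : BR S) {x : ∀ a, S a} (hx : DPT x) {k : α → ℕ} (hk : PT k) : DPT fun a => x a ^ k a := by
  obtain ⟨g, hg, hsz⟩ := h.size
  refine t1_binRec hk (g := fun a n => x a ^ n) (h.one.of_eq fun a => by simp)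
    (st := fun a b c => if b = true then c * c * x a else c * c) ?_ (fun a b n => ?_) hg fun a n => hsz a _
  · have hS := h.comp (pt_sigma_fst (β := fun a => S a × Bool))
    have hc : DPT fun p : Σ a, S a × Bool => p.2.1 * p.2.1 := hS.dmul dpt_sigma_snd.fst dpt_sigma_snd.fst
    exact DPT.ite (β := fun p : Σ a, S a × Bool => S p.1) (dpt_sigma_snd.snd.pt.eq_true)
      (hS.dmul hc (hx.comp pt_sigma_fst)) hc
  · cases b <;> simp [Nat.bit_val, pow_succ, two_mul, pow_add]

theorem MR.dnat (h : MR S μ) {k : α → ℕ} (hk : PT k) : DPT fun a => (k a : S a) := by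
  obtain ⟨g, hg, hsz⟩ := h.exists_size (m := fun _ => 0) (PB.const 0)
  have hμ : ∀ a (n : ℕ), μ a (n : S a) ≤ 0 := by
    intro a n
    induction n with
    | zero => simp [h.mu_zero]
    | succ n ih =>
      rw [Nat.cast_succ]
      exact (h.mu_add a _ _).trans (max_le ih (h.mu_one a).le)
  refine t1_binRec hk (g := fun a n => (n : S a)) (h.zero.of_eq fun a => by simp)
    (st := fun a b c => if b = true then c + c + 1 else c + c) ?_ (fun a b n => ?_) hg fun a n => hsz a _ (hμ a n)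
  · have hS := h.comp (pt_sigma_fst (β := fun a => S a × Bool))
    have hc : DPT fun p : Σ a, S a × Bool => p.2.1 + p.2.1 := hS.dadd dpt_sigma_snd.fst dpt_sigma_snd.fst
    exact DPT.ite (β := fun p : Σ a, S a × Bool => S p.1) (dpt_sigma_snd.snd.pt.eq_true)
      (hS.dadd hc hS.one) hc
  · cases b <;> simp [Nat.bit_val, two_mul]

theorem MR.dfw (h : MR S μ) {l : ∀ a, List (S a)} (hl : DPT l) {k : α → ℕ} (hk : PT k) :
    DPT fun a => fw (l a) (k a) := by
  have hS := h.comp (pt_sigma_fst (β := S))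
  exact h.dmul (hl.getD hk h.zero)
    (h.listProd ((hl.take hk).map (f := fun _ x => 1 - x) (hS.dsub hS.one dpt_sigma_snd)))

/-- transport along ring isomorphisms that do not change codes -/
theorem BR.of_equiv {T : α → Type} [∀ a, CommRing (T a)] [∀ a, Enc (T a)] (h : BR S) (e : ∀ a, T a ≃+* S a)
    (he : ∀ a x, (enc (e a x) : Tr) = enc x) : BR T := by
  have key : ∀ {A : Type} [Enc A] {φ : A → α} {y : ∀ p, T (φ p)}, DPT y ↔ DPT fun p => e (φ p) (y p) := by
    intro A _ φ y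
    unfold DPT
    simp only [he]
  have h2 := h.comp (pt_sigma_fst (β := fun a => T a × T a))
  have h1 := h.comp (pt_sigma_fst (β := T))
  obtain ⟨g, hg, hsz⟩ := h.size
  refine ⟨key.2 ((h2.dadd (key.1 dpt_sigma_snd.fst) (key.1 dpt_sigma_snd.snd)).of_eq fun p => by rw [map_add]),
    key.2 ((h2.dmul (key.1 dpt_sigma_snd.fst) (key.1 dpt_sigma_snd.snd)).of_eq fun p => by rw [map_mul]),
    key.2 ((h1.dneg (key.1 dpt_sigma_snd)).of_eq fun p => by rw [map_neg]),
    (key (φ := id)).2 (h.zero.of_eq fun p => (map_zero _).symm),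
    (key (φ := id)).2 (h.one.of_eq fun p => (map_one _).symm),
    fun _ _ _ => Nat.zero_le _, fun _ _ => le_rfl, fun _ => rfl, fun _ => rfl, fun _ _ => Nat.zero_le _,
    g, 1, hg, fun a x => ⟨?_, fun _ => Nat.zero_le _⟩⟩
  have := hsz a (e a x)
  unfold esize at this ⊢
  rw [he] at this
  simpa using this

theorem br_zmod {p : α → ℕ} [∀ a, NeZero (p a)] (hp : PT p) : BR fun a => ZMod (p a) := by
  have key : ∀ {A : Type} [Enc A] {φ : A → α} {y : ∀ q, ZMod (p (φ q))}, DPT y ↔ PT fun q => (y q).val := by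
    intro A _ φ y
    exact ⟨fun h => PT.of_enc_eq_out h fun _ => rfl, fun h => h.of_enc_eq_out fun _ => rfl⟩
  have h2 := hp.comp (pt_sigma_fst (β := fun a => ZMod (p a) × ZMod (p a)))
  have h1 := hp.comp (pt_sigma_fst (β := fun a => ZMod (p a)))
  refine ⟨key.2 ((((key.1 dpt_sigma_snd.fst).nat_add (key.1 dpt_sigma_snd.snd)).nat_mod h2).of_eq
      fun q => (ZMod.val_add _ _).symm),
    key.2 ((((key.1 dpt_sigma_snd.fst).nat_mul (key.1 dpt_sigma_snd.snd)).nat_mod h2).of_eq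
      fun q => (ZMod.val_mul _ _).symm),
    key.2 (((h1.nat_sub (key.1 dpt_sigma_snd)).nat_mod h1).of_eq fun q => (ZMod.neg_val' _).symm),
    (key (φ := id)).2 ((PT.const 0).of_eq fun q => (ZMod.val_zero).symm),
    (key (φ := id)).2 (((PT.const 1).nat_mod hp).of_eq fun q => (ZMod.val_one_eq_one_mod _).symm),
    fun _ _ _ => Nat.zero_le _, fun _ _ => le_rfl, fun _ => rfl, fun _ => rfl, fun _ _ => Nat.zero_le _,
    fun a => esize (p a), 1, PB.esize hp, fun a x => ⟨?_, fun _ => Nat.zero_le _⟩⟩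
  have : esize x ≤ esize (p a) := esize_nat_mono (m := x.val) (ZMod.val_lt x).le
  simpa using this

theorem dpt_zmod_val {p : α → ℕ} [∀ a, NeZero (p a)] {x : ∀ a, ZMod (p a)} (hx : DPT x) : PT fun a => (x a).val := by
  exact PT.of_enc_eq_out hx fun _ => rfl

end Crest.Agent.R312
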