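import Crest.Agent.R312.T1

/-!
# R312/T2: polynomials over an `MR` family.  `enc g = enc (pl g)`.  The basic tool is `MR.dofL`: trim trailing zeros
(`natDegree (ofL l)` is the last position with a nonzero entry) .
-/

set_option autoImplicit false

open Polynomial Finset Crest.Agent.Lib.PolyTime

noncomputable section

namespace Crest.Agent.R312

variable {α α' : Type} [Enc α] [Enc α']
variable {S : α → Type} [∀ a, CommRing (S a)] [∀ a, Enc (S a)] {μ : ∀ a, S a → ℕ}

theorem t2a_getD {β : α → Type} [∀ a, Enc (β a)] {l : ∀ a, List (β a)} (hl : DPT l) {k : α → ℕ} (hk : PT k)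
    {d : ∀ a, β a} (hd : DPT d) : DPT fun a => (l a).getD (k a) (d a) :=
  (hl.trList.getD hk hd).of_eq fun _ => List.getD_map _ _ _

theorem t2a_coeff {T : Type} [CommRing T] (l : List T) (k : ℕ) : (ofL l).coeff k = l.getD k 0 := by
  simp only [ofL, finsetSum_coeff, coeff_monomial, Finset.sum_ite_eq', Finset.mem_range]
  split_ifs with h
  · rfl
  · rw [List.getD_eq_default _ _ (not_lt.1 h)]

theorem dpt_pl {g : ∀ a, (S a)[X]} (hg : DPT g) : DPT fun a => pl (g a) := by
  exact hg

theorem ofL_pl {T : Type} [CommRing T] (g : T[X]) : ofL (pl g) = g := by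
  ext k
  rw [t2a_coeff, pl_getD]

theorem coeff_ofL {T : Type} [CommRing T] (l : List T) (k : ℕ) : (ofL l).coeff k = l.getD k 0 := by
  exact t2a_coeff l k

theorem un_natDegree {g : ∀ a, (S a)[X]} (hg : DPT g) : UN fun a => (g a).natDegree := by
  have h := (dpt_pl hg).length
  exact ⟨(h.1.nat_sub (PT.const 1)).of_eq fun a => by simp [pl], h.2.mono fun a => by simp [pl]⟩

theorem MR.dcoeff (h : MR S μ) {g : ∀ a, (S a)[X]} (hg : DPT g) {k : α → ℕ} (hk : PT k) :
    DPT fun a => (g a).coeff (k a) := by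
  exact (t2a_getD (dpt_pl hg) hk h.zero).of_eq fun a => pl_getD _ _

theorem MR.dofL (h : MR S μ) {l : ∀ a, List (S a)} (hl : DPT l) : DPT fun a => ofL (l a) := by
  classical
  have h1 : DPT fun p : α × ℕ => (l p.1).getD p.2 0 := t2a_getD (hl.comp PT.fst') PT.snd' (h.zero.comp PT.fst')
  have h0 : ∀ a k, (l a).getD k 0 ≠ 0 → k < (l a).length := fun a k hk =>
    lt_of_not_ge fun hk' => hk (List.getD_eq_default _ _ hk')
  have h2 : PT fun a => (ofL (l a)).natDegree := by
    refine (PT.sup_range_nat (f := fun a k => if (l a).getD k 0 = 0 then 0 else k) hl.length.1 hl.length.2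
      (PT.ite (h1.eq (h.zero.comp PT.fst')) (PT.const 0) PT.snd')).of_eq fun a => le_antisymm
        (Finset.sup_le fun k _ => ?_) (natDegree_le_iff_coeff_eq_zero.2 fun k hk => ?_)
    · split_ifs with hk
      exacts [Nat.zero_le _, le_natDegree_of_ne_zero (by rwa [coeff_ofL])]
    · rw [coeff_ofL]
      by_contra hne
      refine hk.not_ge (Finset.le_sup_of_le (Finset.mem_range.2 (h0 a k hne)) ?_)
      rw [if_neg hne]
  have h3 : PB fun a => (ofL (l a)).natDegree := hl.length.2.mono fun a =>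
    natDegree_le_iff_coeff_eq_zero.2 fun k hk => by rw [coeff_ofL, List.getD_eq_default _ _ hk.le]
  refine DPT.ofTrList (l := fun a => pl (ofL (l a))) (((PT.range h2.succ h3.succ).map
    (f := fun a k => (enc ((l a).getD k 0) : Tr)) h1).of_eq fun a => ?_)
  simp only [pl, List.map_map, Function.comp_def, coeff_ofL]

/-- a polynomial given by its coefficients below a unary bound -/
theorem MR.ofCoeff (h : MR S μ) {g : ∀ a, (S a)[X]} {n : α → ℕ} (hn : UN n) (hd : ∀ a, (g a).natDegree < n a ∨ g a = 0)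
    (hc : DPT fun p : Σ a, Fin (n a) => (g p.1).coeff p.2.val) : DPT g := by
  refine (h.dofL (DPT.ofFn.1 (DPT.pi (F := fun a i => (g a).coeff i.val) hn hc))).of_eq fun a => ?_
  ext k
  rw [coeff_ofL]
  by_cases hk : k < n a
  · simp [List.getD_eq_getElem?_getD, hk]
  · rw [List.getD_eq_default _ _ (by simpa using hk)]
    rcases hd a with h1 | h1
    · exact (coeff_eq_zero_of_natDegree_lt (by omega)).symm
    · simp [h1]

theorem t2a_mono (h : MR S μ) {x : ∀ a, S a} (hx : DPT x) {k : α → ℕ} (hk : UN k) :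
    DPT fun a => monomial (k a) (x a) :=
  h.ofCoeff (n := fun a => (k a).succ) ⟨hk.1.succ, hk.2.succ⟩
    (fun _ => Or.inl (Nat.lt_succ_of_le (natDegree_monomial_le _)))
    ((DPT.ite ((hk.1.comp pt_sigma_fst).eq
      (dpt_sigma_snd (β := fun a => Fin (k a).succ)).finVal) (hx.comp pt_sigma_fst)
      (h.zero.comp pt_sigma_fst)).of_eq fun _ => coeff_monomial.symm)

theorem MR.dC (h : MR S μ) {x : ∀ a, S a} (hx : DPT x) : DPT fun a => Polynomial.C (x a) := by
  exact t2a_mono h hx ⟨PT.const 0, PB.const 0⟩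

theorem MR.dX (h : MR S μ) : DPT fun a => (X : (S a)[X]) := by
  exact t2a_mono h h.one ⟨PT.const 1, PB.const 1⟩

theorem MR.dmonomial (h : MR S μ) {x : ∀ a, S a} (hx : DPT x) {k : α → ℕ} (hk : UN k) :
    DPT fun a => monomial (k a) (x a) := by
  exact t2a_mono h hx hk

theorem MR.dlead (h : MR S μ) {g : ∀ a, (S a)[X]} (hg : DPT g) : DPT fun a => (g a).leadingCoeff := by
  exact h.dcoeff hg (un_natDegree hg).1

theorem muP_le {T : Type} [CommRing T] {ν : T → ℕ} (h0 : ν 0 = 0) {g : T[X]} {m : ℕ} :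
    muP ν g ≤ m ↔ g.natDegree ≤ m ∧ ∀ k, ν (g.coeff k) ≤ m := by
  rw [muP, max_le_iff, Finset.sup_le_iff]
  refine and_congr_right fun _ => ⟨fun h k => ?_, fun h k _ => h k⟩
  by_cases hk : k ∈ g.support
  · exact h k hk
  · rw [notMem_support_iff.1 hk, h0]
    exact Nat.zero_le _

theorem t2b_add (h : MR S μ) {f g : ∀ a, (S a)[X]} (hf : DPT f) (hg : DPT g) : DPT fun a => f a + g a := by
  have hn : UN fun a => (f a).natDegree + (g a).natDegree + 1 :=
    ((un_natDegree hf).add (un_natDegree hg)).add (UN.const 1)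
  refine h.ofCoeff hn (fun a => Or.inl (by have := natDegree_add_le (f a) (g a); omega)) ?_
  have h' := h.comp (pt_sigma_fst (β := fun a => Fin ((f a).natDegree + (g a).natDegree + 1)))
  exact (h'.dadd (h'.dcoeff (hf.comp pt_sigma_fst) hn.fin.1) (h'.dcoeff (hg.comp pt_sigma_fst) hn.fin.1)).of_eq
    fun p => (coeff_add _ _ _).symm

theorem t2b_neg (h : MR S μ) {f : ∀ a, (S a)[X]} (hf : DPT f) : DPT fun a => -f a := by
  have hn : UN fun a => (f a).natDegree + 1 := (un_natDegree hf).add (UN.const 1)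
  refine h.ofCoeff hn (fun a => Or.inl (by simp)) ?_
  have h' := h.comp (pt_sigma_fst (β := fun a => Fin ((f a).natDegree + 1)))
  exact (h'.dneg (h'.dcoeff (hf.comp pt_sigma_fst) hn.fin.1)).of_eq fun p => (coeff_neg _ _).symm

theorem t2b_mulc (h : MR S μ) {f g : ∀ a, (S a)[X]} (hf : DPT f) (hg : DPT g) {k : α → ℕ} (hk : UN k) :
    DPT fun a => (f a * g a).coeff (k a) := by
  have hn : UN fun a => k a + 1 := hk.add (UN.const 1)
  have h' := h.comp (pt_sigma_fst (β := fun a => Fin (k a + 1)))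
  refine (h.rangeSum hn (x := fun a i => (f a).coeff i * (g a).coeff (k a - i))
    (h'.dmul (h'.dcoeff (hf.comp pt_sigma_fst) hn.fin.1)
      (h'.dcoeff (hg.comp pt_sigma_fst) ((hk.comp pt_sigma_fst).sub hn.fin.1).1))).of_eq fun a => ?_
  rw [coeff_mul, Nat.sum_antidiagonal_eq_sum_range_succ fun i j => (f a).coeff i * (g a).coeff j]

theorem t2b_mul (h : MR S μ) {f g : ∀ a, (S a)[X]} (hf : DPT f) (hg : DPT g) : DPT fun a => f a * g a := by
  have hn : UN fun a => (f a).natDegree + (g a).natDegree + 1 :=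
    ((un_natDegree hf).add (un_natDegree hg)).add (UN.const 1)
  refine h.ofCoeff hn (fun a => Or.inl (Nat.lt_succ_of_le natDegree_mul_le)) ?_
  exact t2b_mulc (h.comp pt_sigma_fst) (hf.comp pt_sigma_fst) (hg.comp pt_sigma_fst) hn.fin

theorem t2b_esize {T : Type} [CommRing T] [Enc T] (g : T[X]) : esize g = esize (pl g) := rfl

theorem MR.poly (h : MR S μ) : MR (fun a => (S a)[X]) fun a => muP (μ a) := by
  have h0 := h.mu_zero
  have hd : ∀ a (g : (S a)[X]), g.natDegree ≤ muP (μ a) g := fun a g => ((muP_le (h0 a)).1 le_rfl).1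
  have hc : ∀ a (g : (S a)[X]) k, μ a (g.coeff k) ≤ muP (μ a) g := fun a g => ((muP_le (h0 a)).1 le_rfl).2
  refine ⟨t2b_add (h.comp pt_sigma_fst) dpt_sigma_snd.fst dpt_sigma_snd.snd,
    t2b_mul (h.comp pt_sigma_fst) dpt_sigma_snd.fst dpt_sigma_snd.snd,
    t2b_neg (h.comp pt_sigma_fst) dpt_sigma_snd, (h.dC h.zero).of_eq fun a => map_zero _,
    (h.dC h.one).of_eq fun a => map_one _, fun a x y => ?_, fun a x => ?_, fun a => ?_, fun a => ?_,
    fun a x => ?_, ?_⟩
  · refine (muP_le (h0 a)).2 ⟨(natDegree_add_le x y).trans (max_le_max (hd a x) (hd a y)), fun k => ?_⟩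
    rw [coeff_add]
    exact (h.mu_add a _ _).trans (max_le_max (hc a x k) (hc a y k))
  · refine (muP_le (h0 a)).2 ⟨by simpa using hd a x, fun k => ?_⟩
    rw [coeff_neg]
    exact (h.mu_neg a _).trans (hc a x k)
  · exact Nat.le_zero.1 ((muP_le (h0 a)).2 ⟨by simp, fun k => by simp [h0]⟩)
  · refine Nat.le_zero.1 ((muP_le (h0 a)).2 ⟨by simp, fun k => ?_⟩)
    rw [coeff_one]
    split_ifs
    · exact (h.mu_one a).le
    · exact (h0 a).le
  · rw [t2b_esize]
    refine (muP_le (h0 a)).2 ⟨?_, fun k => ?_⟩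
    · have := length_lt_esize (pl x)
      simp only [pl, List.length_map, List.length_range] at this ⊢
      omega
    · by_cases hk : k < x.natDegree + 1
      · exact (h.mu_le a _).trans (esize_lt_of_mem (List.mem_map.2 ⟨k, List.mem_range.2 hk, rfl⟩)).le
      · rw [coeff_eq_zero_of_natDegree_lt (by omega), h0]
        exact Nat.zero_le _
  · obtain ⟨c, k, hcb, hb⟩ := h.bd
    refine ⟨fun a => c a + 2, k + 2, hcb.add (PB.const 2), fun a x => ⟨?_, fun y => ?_⟩⟩
    · rw [t2b_esize]
      have h1 := esize_list_le (l := pl x) (B := (c a + 2 + muP (μ a) x) ^ k) fun z hz => by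
        obtain ⟨i, -, rfl⟩ := List.mem_map.1 hz
        exact (hb a _).1.trans (Nat.pow_le_pow_left (by have := hc a x i; omega) _)
      have h2 : (pl x).length + 1 ≤ c a + 2 + muP (μ a) x := by
        have := hd a x
        simp only [pl, List.length_map, List.length_range]
        omega
      have h3 : 2 ≤ c a + 2 + muP (μ a) x := by omega
      have h4 : 1 ≤ (c a + 2 + muP (μ a) x) ^ k := Nat.one_le_pow _ _ (by omega)
      refine h1.trans ?_
      rw [pow_add]
      generalize (c a + 2 + muP (μ a) x) ^ k = B at h4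
      generalize c a + 2 + muP (μ a) x = N at h2 h3
      generalize (pl x).length = L at h2
      calc L * (B + 1) + 1 ≤ (L + 1) * (2 * B) := by nlinarith
        _ ≤ N * (N * B) := Nat.mul_le_mul h2 (Nat.mul_le_mul_right _ h3)
        _ = B * N ^ 2 := by ring
    · refine (muP_le (h0 a)).2 ⟨natDegree_mul_le.trans (by have := hd a x; have := hd a y; omega), fun i => ?_⟩
      rw [coeff_mul]
      refine Finset.sum_induction _ (fun z => μ a z ≤ muP (μ a) x + muP (μ a) y + (c a + 2))
        (fun u v hu hv => (h.mu_add a u v).trans (max_le hu hv)) (by simp [h0]) fun j _ => ?_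
      have h1 := (hb a (x.coeff j.1)).2 (y.coeff j.2)
      have h2 := hc a x j.1
      have h3 := hc a y j.2
      omega

theorem MR.dmap {T : α → Type} [∀ a, CommRing (T a)] [∀ a, Enc (T a)] {ν : ∀ a, T a → ℕ} (h : MR S μ) (hT : MR T ν)
    {φ : ∀ a, S a →+* T a} (hφ : DPT fun p : Σ a, S a => φ p.1 p.2) {g : ∀ a, (S a)[X]} (hg : DPT g) :
    DPT fun a => (g a).map (φ a) := by
  have hn : UN fun a => (g a).natDegree + 1 := (un_natDegree hg).add (UN.const 1)
  refine hT.ofCoeff hn (fun a => Or.inl (Nat.lt_succ_of_le natDegree_map_le)) ?_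
  have h' := h.comp (pt_sigma_fst (β := fun a => Fin ((g a).natDegree + 1)))
  exact (hφ.comp (pt_sigma_mk pt_sigma_fst (h'.dcoeff (hg.comp pt_sigma_fst) hn.fin.1))).of_eq
    fun p => (coeff_map _ _).symm

theorem MR.deval₂ {T : α → Type} [∀ a, CommRing (T a)] [∀ a, Enc (T a)] {ν : ∀ a, T a → ℕ} (h : MR S μ) (hT : MR T ν)
    {φ : ∀ a, S a →+* T a} (hφ : DPT fun p : Σ a, S a => φ p.1 p.2) {g : ∀ a, (S a)[X]} (hg : DPT g)
    {x : ∀ a, T a} (hx : DPT x) : DPT fun a => (g a).eval₂ (φ a) (x a) := by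
  have hn : UN fun a => (g a).natDegree + 1 := (un_natDegree hg).add (UN.const 1)
  have h' := h.comp (pt_sigma_fst (β := fun a => Fin ((g a).natDegree + 1)))
  have hT' := hT.comp (pt_sigma_fst (β := fun a => Fin ((g a).natDegree + 1)))
  exact (hT.rangeSum hn (x := fun a i => φ a ((g a).coeff i) * x a ^ i)
    (hT'.dmul (hφ.comp (pt_sigma_mk pt_sigma_fst (h'.dcoeff (hg.comp pt_sigma_fst) hn.fin.1)))
      (hT'.npow (hx.comp pt_sigma_fst) hn.fin))).of_eq fun a => (eval₂_eq_sum_range _ _).symm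

theorem MR.deval (h : MR S μ) {g : ∀ a, (S a)[X]} (hg : DPT g) {x : ∀ a, S a} (hx : DPT x) :
    DPT fun a => (g a).eval (x a) := by
  exact h.deval₂ h (φ := fun a => RingHom.id (S a)) dpt_sigma_snd hg hx

end Crest.Agent.R312
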