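import Crest.Agent.R312.T1

/-!
# R312/T5: branch-free linear algebra.  In a field with `Q` elements `x ^ (Q - 1)` is the indicator of `x ≠ 0` and `x ^ (Q - 2) * x ^ (Q - 1)`
(or `x ^ (2 Q - 3)`) is `x⁻¹`; the same ring expressions are computed in `S` and commute with every `φ : S →+* K`.
One elimination round for a functional `ℓ` and a list `v_1 … v_N`: `w = ∑_k fw (ℓ(v)^(Q-1)) k • ℓ(v_k)⁻¹ • v_k` (first vector with `ℓ ≠ 0`, normalised, or `0`),
new list `v_k - ℓ(v_k) • w`; its span is `span ⊓ ker ℓ`, and `span old = span new ⊔ span {w}`.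
-/

set_option autoImplicit false

open Polynomial Finset Crest.Agent.Lib.PolyTime

noncomputable section

namespace Crest.Agent.R312

variable {α α' : Type} [Enc α] [Enc α']
variable {S : α → Type} [∀ a, CommRing (S a)] [∀ a, Enc (S a)] {μ : ∀ a, S a → ℕ}

variable {K : α → Type} [∀ a, Field (K a)] [∀ a, Fintype (K a)]

/-- semantics of the weights -/
theorem fw_spec {F : Type} [CommRing F] (l : List F) (h : ∀ x ∈ l, x = 0 ∨ x = 1) :
    ((∀ x ∈ l, x = 0) ∧ ∀ k, fw l k = 0) ∨
      ∃ k₀ < l.length, l.getD k₀ 0 = 1 ∧ (∀ k < k₀, l.getD k 0 = 0) ∧ ∀ k, fw l k = if k = k₀ then 1 else 0 := by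
  induction l with
  | nil => exact Or.inl ⟨by simp, fun k => by simp [fw]⟩
  | cons x l ih =>
    have hs : ∀ k, fw (x :: l) (k + 1) = (1 - x) * fw l k := fun k => by
      simp only [fw, List.getD_cons_succ, List.take_succ_cons, List.map_cons, List.prod_cons]
      ring
    have h0 : fw (x :: l) 0 = x := by simp [fw]
    rcases h x (by simp) with rfl | rfl
    · rcases ih (fun y hy => h y (by simp [hy])) with ⟨h1, h2⟩ | ⟨k₀, hk, h1, h2, h3⟩
      · refine Or.inl ⟨by simpa using h1, fun k => ?_⟩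
        cases k with
        | zero => exact h0
        | succ k => rw [hs, h2, mul_zero]
      · refine Or.inr ⟨k₀ + 1, by simpa using hk, by simpa using h1, fun k hk' => ?_, fun k => ?_⟩
        · cases k with
          | zero => rfl
          | succ k => exact h2 k (by omega)
        · cases k with
          | zero => simp [h0]
          | succ k => simp [hs, h3]
    · refine Or.inr ⟨0, by simp, rfl, fun k hk => absurd hk (by omega), fun k => ?_⟩
      cases k with
      | zero => simp [h0]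
      | succ k => simp [hs]

theorem map_fw {T F : Type} [CommRing T] [CommRing F] (φ : T →+* F) (l : List T) (k : ℕ) :
    φ (fw l k) = fw (l.map φ) k := by
  have h1 : φ (l.getD k 0) = (l.map φ).getD k 0 := by
    rw [← map_zero φ, List.getD_map]
  unfold fw
  rw [map_mul, h1, map_list_prod, ← List.map_take, List.map_map, List.map_map]
  congr 3
  funext x
  simp

theorem pow_card_sub_one_eq {F : Type} [Field F] [Fintype F] [DecidableEq F] (x : F) :
    x ^ (Fintype.card F - 1) = if x = 0 then 0 else 1 := by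
  split_ifs with h
  · subst h
    exact zero_pow (by have := Fintype.one_lt_card (α := F); omega)
  · exact FiniteField.pow_card_sub_one_eq_one x h

theorem pow_inv_eq {F : Type} [Field F] [Fintype F] (x : F) : x ^ (2 * Fintype.card F - 3) = x⁻¹ := by
  have hc := Fintype.one_lt_card (α := F)
  by_cases h : x = 0
  · subst h
    rw [inv_zero]
    exact zero_pow (by omega)
  · refine eq_inv_of_mul_eq_one_left ?_
    rw [← pow_succ, show 2 * Fintype.card F - 3 + 1 = (Fintype.card F - 1) + (Fintype.card F - 1) by omega, pow_add,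
      FiniteField.pow_card_sub_one_eq_one x h, mul_one]

/-- the value of a functional -/
def t5_dot {T : Type} [CommRing T] {N : ℕ} (r v : Fin N → T) : T := ∑ k, r k * v k

/-- the normalised pivot -/
def t5_piv {T : Type} [CommRing T] {N : ℕ} (Q : ℕ) (M : Fin N → Fin N → T) (r : Fin N → T) (k : Fin N) : T :=
  ∑ i : Fin N, fw (List.ofFn fun j => t5_dot r (M j) ^ (Q - 1)) i * (t5_dot r (M i) ^ (2 * Q - 3) * M i k)

/-- one elimination round -/
def t5_step {T : Type} [CommRing T] {N : ℕ} (Q : ℕ) (M : Fin N → Fin N → T) (r : Fin N → T) : Fin N → Fin N → T :=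
  fun i k => M i k - t5_dot r (M i) * t5_piv Q M r k

theorem t5_map_dot {T F : Type} [CommRing T] [CommRing F] (φ : T →+* F) {N : ℕ} (r v : Fin N → T) :
    φ (t5_dot r v) = t5_dot (fun k => φ (r k)) fun k => φ (v k) := by
  simp [t5_dot, map_sum]

theorem t5_map_step {T F : Type} [CommRing T] [CommRing F] (φ : T →+* F) {N : ℕ} (Q : ℕ) (M : Fin N → Fin N → T)
    (r : Fin N → T) : (fun i k => φ (t5_step Q M r i k)) = t5_step Q (fun i k => φ (M i k)) fun k => φ (r k) := by
  funext i k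
  simp only [t5_step, t5_piv, map_sub, map_mul, map_sum, map_pow, map_fw, t5_map_dot, List.map_ofFn,
    Function.comp_def]

theorem t5_piv_spec {F : Type} [Field F] [Fintype F] {N : ℕ} (M : Fin N → Fin N → F) (r : Fin N → F) :
    t5_piv (Fintype.card F) M r ∈ Submodule.span F (Set.range M) ∧
      ((∀ i, t5_dot r (M i) = 0) ∨ t5_dot r (t5_piv (Fintype.card F) M r) = 1) := by
  classical
  constructor
  · have : t5_piv (Fintype.card F) M r = ∑ i : Fin N,
        (fw (List.ofFn fun j => t5_dot r (M j) ^ (Fintype.card F - 1)) i *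
          t5_dot r (M i) ^ (2 * Fintype.card F - 3)) • M i := by
      funext k
      simp only [t5_piv, Finset.sum_apply, Pi.smul_apply, smul_eq_mul, mul_assoc]
    rw [this]
    exact Submodule.sum_mem _ fun i _ => Submodule.smul_mem _ _ (Submodule.subset_span ⟨i, rfl⟩)
  · rcases fw_spec (List.ofFn fun j => t5_dot r (M j) ^ (Fintype.card F - 1)) (fun x hx => by
      obtain ⟨j, rfl⟩ := List.mem_ofFn.1 hx
      rw [pow_card_sub_one_eq]
      split_ifs <;> simp) with ⟨h1, -⟩ | ⟨k₀, hk, h1, -, h3⟩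
    · refine Or.inl fun i => ?_
      have := h1 _ (List.mem_ofFn.2 ⟨i, rfl⟩)
      rw [pow_card_sub_one_eq] at this
      by_contra hne
      simp [hne] at this
    · have hk' : k₀ < N := by simpa using hk
      have hne : t5_dot r (M ⟨k₀, hk'⟩) ≠ 0 := by
        intro h0
        rw [List.getD_eq_getElem _ _ hk, List.getElem_ofFn, pow_card_sub_one_eq, if_pos h0] at h1
        exact zero_ne_one h1
      refine Or.inr ?_
      have hp : ∀ k, t5_piv (Fintype.card F) M r k = (t5_dot r (M ⟨k₀, hk'⟩))⁻¹ * M ⟨k₀, hk'⟩ k := fun k => by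
        unfold t5_piv
        rw [Finset.sum_eq_single (⟨k₀, hk'⟩ : Fin N)]
        · rw [h3, if_pos rfl, one_mul, pow_inv_eq]
        · intro i _ hi
          rw [h3, if_neg (fun e => hi (Fin.ext e)), zero_mul]
        · simp
      calc t5_dot r (t5_piv (Fintype.card F) M r)
          = (t5_dot r (M ⟨k₀, hk'⟩))⁻¹ * t5_dot r (M ⟨k₀, hk'⟩) := by
            conv_rhs => rw [t5_dot.eq_1 r (M ⟨k₀, hk'⟩), Finset.mul_sum]
            unfold t5_dot
            refine Finset.sum_congr rfl fun k _ => ?_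
            rw [hp, t5_dot]
            ring
        _ = 1 := inv_mul_cancel₀ hne

theorem t5_step_spec {F : Type} [Field F] [Fintype F] {N : ℕ} (M : Fin N → Fin N → F) (r c : Fin N → F) :
    c ∈ Submodule.span F (Set.range (t5_step (Fintype.card F) M r)) ↔
      c ∈ Submodule.span F (Set.range M) ∧ t5_dot r c = 0 := by
  obtain ⟨hw, hd⟩ := t5_piv_spec M r
  set w := t5_piv (Fintype.card F) M r with hwdef
  let ℓ : (Fin N → F) →ₗ[F] F := ∑ k, r k • LinearMap.proj k
  have hℓ : ∀ v, ℓ v = t5_dot r v := fun v => by simp [ℓ, t5_dot]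
  let P : (Fin N → F) →ₗ[F] Fin N → F := LinearMap.id - ℓ.smulRight w
  have hP : ∀ v, P v = v - t5_dot r v • w := fun v => by simp [P, hℓ]
  have hst : t5_step (Fintype.card F) M r = P ∘ M := by
    funext i k
    simp [hP, t5_step, hwdef]
  rw [hst, Set.range_comp, Submodule.span_image, Submodule.mem_map]
  constructor
  · rintro ⟨v, hv, rfl⟩
    refine ⟨by rw [hP]; exact Submodule.sub_mem _ hv (Submodule.smul_mem _ _ hw), ?_⟩
    rcases hd with hd | hd
    · have hv0 : ℓ v = 0 := by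
        have : Submodule.span F (Set.range M) ≤ LinearMap.ker ℓ := by
          rw [Submodule.span_le]
          rintro _ ⟨i, rfl⟩
          simp [hℓ, hd]
        exact this hv
      rw [hP, ← hℓ v, hv0, zero_smul, sub_zero, ← hℓ, hv0]
    · rw [hP, ← hℓ, map_sub, map_smul, hℓ, hℓ, hd, smul_eq_mul, mul_one, sub_self]
  · rintro ⟨hc, h0⟩
    exact ⟨c, hc, by rw [hP, h0, zero_smul, sub_zero]⟩

theorem t5_fold_spec {T F : Type} [CommRing T] [Field F] [Fintype F] (φ : T →+* F) {N : ℕ} (rows : List (Fin N → T))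
    (M : Fin N → Fin N → T) (c : Fin N → F) :
    c ∈ Submodule.span F (Set.range fun i k => φ (rows.foldl (t5_step (Fintype.card F)) M i k)) ↔
      c ∈ Submodule.span F (Set.range fun i k => φ (M i k)) ∧ ∀ r ∈ rows, ∑ k, φ (r k) * c k = 0 := by
  induction rows generalizing M with
  | nil => simp
  | cons r rows ih =>
    rw [List.foldl_cons, ih, t5_map_step, t5_step_spec, List.forall_mem_cons, and_assoc]
    rfl

theorem t5_dpt_dot (hS : BR S) {N : α → ℕ} (hN : UN N) {r v : ∀ a, Fin (N a) → S a} (hr : DPT r) (hv : DPT v) :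
    DPT fun a => t5_dot (r a) (v a) :=
  MR.dsum hS (En.fin hN) (MR.dmul (hS.comp pt_sigma_fst) ((hr.comp pt_sigma_fst).apply dpt_sigma_snd)
    ((hv.comp pt_sigma_fst).apply dpt_sigma_snd))

theorem t5_dpt_piv (hS : BR S) {Q : α → ℕ} (hQ : PT Q) {N : α → ℕ} (hN : UN N) {M : ∀ a, Fin (N a) → Fin (N a) → S a}
    {r : ∀ a, Fin (N a) → S a} (hM : DPT M) (hr : DPT r) {k : ∀ a, Fin (N a)} (hk : DPT k) :
    DPT fun a => t5_piv (Q a) (M a) (r a) (k a) := by
  have hS' : BR fun p : Σ a, Fin (N a) => S p.1 := hS.comp pt_sigma_fst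
  have hMi : DPT fun p : Σ a, Fin (N a) => M p.1 p.2 := (hM.comp pt_sigma_fst).apply dpt_sigma_snd
  have hd : DPT fun p : Σ a, Fin (N a) => t5_dot (r p.1) (M p.1 p.2) :=
    t5_dpt_dot hS' (hN.comp pt_sigma_fst) (hr.comp pt_sigma_fst) hMi
  have hl : DPT fun a => List.ofFn fun j => t5_dot (r a) (M a j) ^ (Q a - 1) :=
    DPT.ofFn.1 (DPT.pi hN (hS'.dpow hd ((hQ.nat_sub (PT.const 1)).comp pt_sigma_fst)))
  exact MR.dsum hS (En.fin hN) (hS'.dmul (hS'.dfw (hl.comp pt_sigma_fst) (UN.fin hN).1)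
    (hS'.dmul (hS'.dpow hd ((((PT.const 2).nat_mul hQ).nat_sub (PT.const 3)).comp pt_sigma_fst))
      (hMi.apply (hk.comp pt_sigma_fst))))

theorem t5_dpt_step (hS : BR S) {Q : α → ℕ} (hQ : PT Q) {N : α → ℕ} (hN : UN N)
    {M : ∀ a, Fin (N a) → Fin (N a) → S a} {r : ∀ a, Fin (N a) → S a} (hM : DPT M) (hr : DPT r) :
    DPT fun a => t5_step (Q a) (M a) (r a) := by
  refine DPT.pi hN (DPT.pi (hN.comp pt_sigma_fst) ?_)
  have hφ : PT fun p : Σ q : Σ a, Fin (N a), Fin (N q.1) => p.1.1 := pt_sigma_fst.comp pt_sigma_fst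
  have hS' : BR fun p : Σ q : Σ a, Fin (N a), Fin (N q.1) => S p.1.1 := hS.comp hφ
  have hMi : DPT fun p : Σ q : Σ a, Fin (N a), Fin (N q.1) => M p.1.1 p.1.2 :=
    (hM.comp hφ).apply (dpt_sigma_snd.comp pt_sigma_fst)
  exact hS'.dsub (hMi.apply dpt_sigma_snd) (hS'.dmul (t5_dpt_dot hS' (hN.comp hφ) (hr.comp hφ) hMi)
    (t5_dpt_piv hS' (hQ.comp hφ) (hN.comp hφ) (hM.comp hφ) (hr.comp hφ) dpt_sigma_snd))

/-- kernel of a matrix, at every point -/
theorem solv_ker (hS : BR S) (hQ : PT fun a => Fintype.card (K a)) {N : α → ℕ} (hN : UN N)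
    {rows : ∀ a, List (Fin (N a) → S a)} (h : DPT rows) :
    Solv fun a (L : List (Fin (N a) → S a)) => L.length = N a ∧ ∀ (φ : S a →+* K a) (c : Fin (N a) → K a),
      c ∈ Submodule.span (K a) {v | ∃ w ∈ L, (fun k => φ (w k)) = v} ↔ ∀ r ∈ rows a, ∑ k, φ (r k) * c k = 0 := by
  obtain ⟨g, hg, hsz⟩ := hS.size
  have hφ : PT fun p : Σ q : Σ a, Fin (N a), Fin (N q.1) => p.1.1 := pt_sigma_fst.comp pt_sigma_fst
  have h0 : DPT fun a => fun i k : Fin (N a) => if i = k then (1 : S a) else 0 :=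
    DPT.pi hN (DPT.pi (hN.comp pt_sigma_fst) (DPT.ite ((dpt_sigma_snd.comp pt_sigma_fst).eq dpt_sigma_snd)
      (hS.one.comp hφ) (hS.zero.comp hφ)))
  have hF : DPT fun a => (rows a).foldl (t5_step (Fintype.card (K a)))
      fun i k : Fin (N a) => if i = k then (1 : S a) else 0 :=
    DPT.foldl h h0 (f := fun a => t5_step (Fintype.card (K a)))
      (t5_dpt_step (hS.comp pt_sigma_fst) (hQ.comp pt_sigma_fst) (hN.comp pt_sigma_fst) dpt_sigma_snd.fst
        dpt_sigma_snd.snd)
      (g := fun a => N a * (N a * (g a + 1) + 1 + 1) + 1)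
      ((hN.2.mul (((hN.2.mul (hg.add (PB.const 1))).add (PB.const 1)).add (PB.const 1))).add (PB.const 1))
      fun a k => esize_pi_le fun i => esize_pi_le fun j => hsz a _
  refine ⟨_, DPT.ofFn.1 hF, fun a => ⟨List.length_ofFn, fun φ c => ?_⟩⟩
  have hset : ∀ M : Fin (N a) → Fin (N a) → S a,
      {v | ∃ w ∈ List.ofFn M, (fun k => φ (w k)) = v} = Set.range fun i k => φ (M i k) := fun M => by
    ext v
    constructor
    · rintro ⟨w, hw, rfl⟩
      obtain ⟨i, rfl⟩ := List.mem_ofFn.1 hw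
      exact ⟨i, rfl⟩
    · rintro ⟨i, rfl⟩
      exact ⟨_, List.mem_ofFn.2 ⟨i, rfl⟩, rfl⟩
  rw [hset, t5_fold_spec, and_iff_right]
  have hc : c = ∑ i, c i • fun k => φ (if i = k then (1 : S a) else 0) := by
    funext k
    simp [Finset.sum_apply, apply_ite φ]
  rw [hc]
  exact Submodule.sum_mem _ fun i _ => Submodule.smul_mem _ _ (Submodule.subset_span ⟨i, rfl⟩)

theorem t5c_span {T F : Type} [CommRing T] [Field F] {n : ℕ} {φ : T →+* F} {L : List (Fin n → T)} {c d : Fin n → F}
    (h : ∀ r ∈ L, ∑ k, φ (r k) * c k = 0)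
    (hd : d ∈ Submodule.span F {v | ∃ w ∈ L, (fun k => φ (w k)) = v}) : ∑ k, d k * c k = 0 := by
  induction hd using Submodule.span_induction with
  | mem v hv => obtain ⟨w, hw, rfl⟩ := hv; exact h w hw
  | zero => simp
  | add u v _ _ hu hv => simp only [Pi.add_apply, add_mul, Finset.sum_add_distrib, hu, hv, add_zero]
  | smul t u _ hu => simp only [Pi.smul_apply, smul_eq_mul, mul_assoc, ← Finset.mul_sum, hu, mul_zero]

/-- a short spanning list: the kernel of the kernel (`W ^ ⊥ ^ ⊥ = W`, e.g. `Subspace.dualAnnihilator_dualCoannihilator_eq`,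
`LinearMap.BilinForm.orthogonal_orthogonal`), or the pivots of the elimination by the coordinate functionals -/
theorem solv_cmp (hS : BR S) (hQ : PT fun a => Fintype.card (K a)) {N : α → ℕ} (hN : UN N)
    {L : ∀ a, List (Fin (N a) → S a)} (h : DPT L) :
    Solv fun a (L' : List (Fin (N a) → S a)) => L'.length = N a ∧ ∀ φ : S a →+* K a,
      Submodule.span (K a) {v | ∃ w ∈ L', (fun k => φ (w k)) = v} =
        Submodule.span (K a) {v | ∃ w ∈ L a, (fun k => φ (w k)) = v} := by
  obtain ⟨L1, h1, e1⟩ := solv_ker (K := K) hS hQ hN h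
  obtain ⟨L2, h2, e2⟩ := solv_ker (K := K) hS hQ hN h1
  refine ⟨L2, h2, fun a => ⟨(e2 a).1, fun φ => Submodule.ext fun c => ?_⟩⟩
  rw [(e2 a).2]
  constructor
  · intro hc
    by_contra hn
    obtain ⟨f, hf, hk⟩ := Submodule.exists_le_ker_of_notMem hn
    have hd : ∀ v : Fin (N a) → K a, f v = ∑ k, v k * f (Pi.single k 1) := fun v => by
      conv_lhs => rw [← Finset.univ_sum_single v, map_sum]
      refine Finset.sum_congr rfl fun k _ => ?_
      rw [← smul_eq_mul, ← map_smul, ← Pi.single_smul, smul_eq_mul, mul_one]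
    have hm := ((e1 a).2 φ fun k => f (Pi.single k 1)).2 fun r hr =>
      (hd _).symm.trans (hk (Submodule.subset_span ⟨r, hr, rfl⟩))
    refine hf ((hd c).trans ?_)
    simp only [mul_comm (c _)]
    exact t5c_span hc hm
  · intro hc r hr
    simp only [mul_comm (φ _)]
    exact t5c_span (((e1 a).2 φ _).1 (Submodule.subset_span ⟨r, hr, rfl⟩)) hc

end Crest.Agent.R312
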