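import Crest.Agent.R312.Dep3

/-!
# R312/TDefs: rings whose operations are polynomial-time (owner helper40; do not edit).
See `Crest/Agent/R312/Blueprint.lean` for the route of row 312.
-/

set_option autoImplicit false

open Polynomial Finset Crest.Agent.Lib.PolyTime

noncomputable section

namespace Crest.Agent.R312

variable {α α' : Type} [Enc α] [Enc α']

/-- the coefficient list of a polynomial -/
def pl {T : Type} [CommRing T] (g : T[X]) : List T := (List.range (g.natDegree + 1)).map g.coeff

theorem pl_getD {T : Type} [CommRing T] (g : T[X]) (k : ℕ) : (pl g).getD k 0 = g.coeff k := by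
  unfold pl
  by_cases h : k < g.natDegree + 1
  · simp [List.getD_eq_getElem?_getD, List.getElem?_range h]
  · rw [List.getD_eq_default _ _ (by simpa using h), coeff_eq_zero_of_natDegree_lt (by omega)]

theorem pl_inj {T : Type} [CommRing T] : Function.Injective (pl : T[X] → List T) := fun g h e => by
  ext k
  rw [← pl_getD, ← pl_getD, e]

instance encPoly {T : Type} [CommRing T] [Enc T] : Enc T[X] := Enc.ofInj pl pl_inj

/-- the reduced representative of an element of `T[X] / (m)` -/
def rep {T : Type} [CommRing T] (m : T[X]) [h : Fact m.Monic] : AdjoinRoot m →ₗ[T] T[X] :=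
  AdjoinRoot.modByMonicHom h.out

theorem mk_rep {T : Type} [CommRing T] (m : T[X]) [h : Fact m.Monic] (z : AdjoinRoot m) :
    AdjoinRoot.mk m (rep m z) = z := AdjoinRoot.mk_leftInverse h.out z

theorem rep_mk {T : Type} [CommRing T] (m : T[X]) [Fact m.Monic] (g : T[X]) :
    rep m (AdjoinRoot.mk m g) = g %ₘ m := rfl

instance encAdj {T : Type} [CommRing T] [Enc T] (m : T[X]) [h : Fact m.Monic] : Enc (AdjoinRoot m) :=
  Enc.ofInj (rep m) (AdjoinRoot.mk_leftInverse h.out).injective

instance encZMod (p : ℕ) [NeZero p] : Enc (ZMod p) := Enc.ofInj ZMod.val (ZMod.val_injective p)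

/-- ring operations in polynomial time; the degree function `μ` controls the sizes -/
structure MR (S : α → Type) [∀ a, CommRing (S a)] [∀ a, Enc (S a)] (μ : ∀ a, S a → ℕ) : Prop where
  add : DPT fun p : Σ a, S a × S a => p.2.1 + p.2.2
  mul : DPT fun p : Σ a, S a × S a => p.2.1 * p.2.2
  neg : DPT fun p : Σ a, S a => -p.2
  zero : DPT fun a => (0 : S a)
  one : DPT fun a => (1 : S a)
  mu_add : ∀ a (x y : S a), μ a (x + y) ≤ max (μ a x) (μ a y)
  mu_neg : ∀ a (x : S a), μ a (-x) ≤ μ a x
  mu_zero : ∀ a, μ a 0 = 0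
  mu_one : ∀ a, μ a 1 = 0
  mu_le : ∀ a (x : S a), μ a x ≤ esize x
  bd : ∃ (c : α → ℕ) (k : ℕ), PB c ∧ ∀ a (x : S a), esize x ≤ (c a + μ a x) ^ k ∧
    ∀ y, μ a (x * y) ≤ μ a x + μ a y + c a

/-- bounded rings: all elements have polynomial size -/
abbrev BR (S : α → Type) [∀ a, CommRing (S a)] [∀ a, Enc (S a)] : Prop := MR S fun _ _ => 0

/-- the degree function on polynomials -/
def muP {T : Type} [CommRing T] (μ : T → ℕ) (g : T[X]) : ℕ :=
  max g.natDegree (g.support.sup fun k => μ (g.coeff k))

/-- the degree function on `T[X] / (m)` -/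
def muA {T : Type} [CommRing T] (μ : T → ℕ) (m : T[X]) [Fact m.Monic] (z : AdjoinRoot m) : ℕ :=
  muP μ (rep m z)

/-- the polynomial with a given coefficient list -/
def ofL {T : Type} [CommRing T] (l : List T) : T[X] :=
  ∑ k ∈ range l.length, monomial k (l.getD k 0)

/-- weight of position `k` when the first position with indicator `1` is selected -/
def fw {T : Type} [CommRing T] (l : List T) (k : ℕ) : T := l.getD k 0 * ((l.take k).map fun x => 1 - x).prod

/-- one round of the root extraction: multiply by the first `h ^ c` that lowers the order of `R ^ q / x` -/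
def qstep {T : Type} [CommRing T] (Q q : ℕ) (x h : T) (j : ℕ) (R : T) : T :=
  ∑ c ∈ range q, fw ((List.range q).map fun c =>
    1 - (((R * h ^ c) ^ q * x ^ (Q - 2)) ^ q ^ j - 1) ^ (Q - 1)) c * (R * h ^ c)

/-- the rounds `s - 2, s - 3, …, 0` (`k` rounds done) -/
def qiter {T : Type} [CommRing T] (Q q s : ℕ) (x g R₀ : T) : ℕ → T
  | 0 => R₀
  | k + 1 => qstep Q q x (g ^ q ^ k) (s - 2 - k) (qiter Q q s x g R₀ k)

/-- branch-free `q`-th root in a field with `Q` elements and non-residue `γ` (Adleman–Manders–Miller);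
`Q - 1 = q ^ s * m`, the start is `x ^ e` with `e < q * Q`, `q * e ≡ 1 (mod m)`, `0 < e` -/
def qrt {T : Type} [CommRing T] (Q q : ℕ) (γ x : T) : T :=
  let s := (List.range Q.size).countP fun k => decide (q ^ (k + 1) ∣ Q - 1)
  let m := (Q - 1) / q ^ s
  let b := ((List.range q).find? fun b => decide (q ∣ m * b + 1)).getD 0
  qiter Q q s x (γ ^ m) (x ^ ((m * b + 1) / q)) (s - 1)

end Crest.Agent.R312
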